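import Mathlib

/-!
# R174 (KLH), route B (helper785, post 3723): the monomial group

`Mono N H` : labelled permutations `e_x ↦ lab x • e_{perm x}` of `N` with labels in the group `H`.
-/

set_option autoImplicit false

namespace Crest.Agent.R174.MonoB

/-- Labelled permutations of `N` with labels in `H`: `e_x ↦ lab x • e_{perm x}`. -/
@[ext] structure Mono (N H : Type*) where
  perm : Equiv.Perm N
  lab : N → H

namespace Mono

variable {N H : Type*} [Group H]

instance : Mul (Mono N H) := ⟨fun A B => ⟨A.perm * B.perm, fun x => A.lab (B.perm x) * B.lab x⟩⟩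
instance : One (Mono N H) := ⟨⟨1, fun _ => 1⟩⟩
instance : Inv (Mono N H) := ⟨fun A => ⟨A.perm⁻¹, fun x => (A.lab (A.perm⁻¹ x))⁻¹⟩⟩

@[simp] lemma mul_perm (A B : Mono N H) : (A * B).perm = A.perm * B.perm := rfl
@[simp] lemma mul_lab (A B : Mono N H) (x : N) : (A * B).lab x = A.lab (B.perm x) * B.lab x := rfl
@[simp] lemma one_perm : (1 : Mono N H).perm = 1 := rfl
@[simp] lemma one_lab (x : N) : (1 : Mono N H).lab x = 1 := rfl
@[simp] lemma inv_perm (A : Mono N H) : (A⁻¹).perm = A.perm⁻¹ := rfl
@[simp] lemma inv_lab (A : Mono N H) (x : N) : (A⁻¹).lab x = (A.lab (A.perm⁻¹ x))⁻¹ := rfl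

instance : Group (Mono N H) where
  mul_assoc A B C := by
    ext x
    · rfl
    · simp [mul_assoc]
  one_mul A := by
    ext x
    · simp
    · simp
  mul_one A := by
    ext x
    · simp
    · simp
  inv_mul_cancel A := by
    ext x
    · simp
    · simp

end Mono

section

variable {T : Type*} [DecidableEq T] {G Z : Type*} [Group G] [CommGroup Z]

/-- the root label `g` -/
def dg (g : G) : Mono (Option T) (G × Z) := ⟨1, fun x => if x = none then (g, 1) else 1⟩

/-- star transposition -/
def tau (t : T) : Mono (Option T) (G × Z) := ⟨Equiv.swap none (some t), fun _ => 1⟩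

/-- diagonal of phases -/
def ph (D : Option T → Z) : Mono (Option T) (G × Z) := ⟨1, fun x => (1, D x)⟩

/-- reflections: conjugates of the star transpositions -/
def IsRefl (A : Mono (Option T) (G × Z)) : Prop := ∃ B t, A = B * tau t * B⁻¹

/-- the operator of a word `a_1 t_1 a_2 t_2 ... a_L t_L b` -/
def UL (l : List (G × T)) (b : G) : Mono (Option T) (G × Z) :=
  (l.map fun p => dg p.1 * tau p.2).prod * dg b

/-- the matching operator -/
def mt (π : Equiv.Perm T) (z : T → Z) : Mono (Option T) (G × Z) :=
  ⟨Equiv.optionCongr π, fun x => (1, x.elim 1 z)⟩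

/-- the base: diagonal, `u` at every letter of `l`, `D x` at the other letters, `(g, ζ)` at the root -/
def base (l : List T) (D : Option T → Z) (u : Z) (g : G) (ζ : Z) : Mono (Option T) (G × Z) :=
  ⟨1, fun x => x.elim (g, ζ) fun t => (1, if t ∈ l then u else D (some t))⟩

end

end Crest.Agent.R174.MonoB
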