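import Mathlib

set_option autoImplicit false

/-!
# R174: algebraic reduction of S0262 to the key statement (block P0)
-/

open Monoid

namespace Crest.Agent.R174.Red

universe u

/-- value of a letter `(a, x, s)`: `a * x^{±1}` -/
def lett {G : Type u} [Group G] {n : ℕ} (p : G × Fin n × Bool) :
    Coprod G (FreeGroup (Fin n)) :=
  Coprod.inl p.1 * Coprod.inr (bif p.2.2 then FreeGroup.of p.2.1 else (FreeGroup.of p.2.1)⁻¹)

/-- value of a word -/
def ev {G : Type u} [Group G] {n : ℕ} (l : List (G × Fin n × Bool)) :
    Coprod G (FreeGroup (Fin n)) := (l.map lett).prod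

/-- exponent sum of the unknown `j` in a word -/
def expSum {G : Type u} {n : ℕ} (l : List (G × Fin n × Bool)) (j : Fin n) : ℤ :=
  (l.map fun p => if p.2.1 = j then (bif p.2.2 then (1 : ℤ) else -1) else 0).sum

/-- The key statement: upper triangular exponent matrix with nonzero diagonal. -/
def Key (G : Type u) [Group G] : Prop :=
  ∀ (n : ℕ) (W : Fin n → List (G × Fin n × Bool)),
    (∀ i j : Fin n, j < i → expSum (W i) j = 0) → (∀ i, expSum (W i) i ≠ 0) →
    ∀ g : G, (Coprod.inl g : Coprod G (FreeGroup (Fin n))) ∈
      Subgroup.normalClosure (Set.range fun i => ev (W i)) → g = 1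

section Tri

variable {H : Type u} [Group H]

lemma closure_insert' (a : H) (s : Set H) :
    Subgroup.closure (insert a s) = Subgroup.zpowers a ⊔ Subgroup.closure s := by
  rw [Set.insert_eq, Subgroup.closure_union, Subgroup.zpowers_eq_closure]

lemma zpowers_sup_le_iff (a b : H) (K : Subgroup H) :
    Subgroup.zpowers a ⊔ Subgroup.zpowers b ≤ K ↔ a ∈ K ∧ b ∈ K := by
  rw [sup_le_iff, Subgroup.zpowers_le, Subgroup.zpowers_le]

/-- Euclid's algorithm on a pair. -/
lemma pair (χ : H →* Multiplicative ℤ) : ∀ (N : ℕ) (a b : H), (Multiplicative.toAdd (χ b)).natAbs ≤ N →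
    ∃ a' b' : H, Subgroup.zpowers a' ⊔ Subgroup.zpowers b' = Subgroup.zpowers a ⊔ Subgroup.zpowers b ∧
      χ b' = 1 := by
  intro N
  induction N with
  | zero =>
    intro a b h
    refine ⟨a, b, rfl, ?_⟩
    have : Multiplicative.toAdd (χ b) = 0 := by omega
    exact Multiplicative.toAdd.injective (by simpa using this)
  | succ N ih =>
    intro a b h
    by_cases hb : Multiplicative.toAdd (χ b) = 0
    · exact ⟨a, b, rfl, Multiplicative.toAdd.injective (by simpa using hb)⟩
    · obtain ⟨a', b', h1, h2⟩ := ih b (a * b ^ (-(Multiplicative.toAdd (χ a) / Multiplicative.toAdd (χ b)))) (by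
        have h3 : Multiplicative.toAdd (χ (a * b ^ (-(Multiplicative.toAdd (χ a) / Multiplicative.toAdd (χ b)))))
            = Multiplicative.toAdd (χ a) % Multiplicative.toAdd (χ b) := by
          rw [map_mul, map_zpow, toAdd_mul, toAdd_zpow, Int.emod_def]
          simp only [smul_eq_mul]
          ring
        rw [h3]
        have h4 := Int.emod_nonneg (Multiplicative.toAdd (χ a)) hb
        have h5 := Int.emod_lt_abs (Multiplicative.toAdd (χ a)) hb
        rw [Int.abs_eq_natAbs] at h5
        omega)
      refine ⟨a', b', h1.trans ?_, h2⟩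
      apply le_antisymm
      · rw [zpowers_sup_le_iff]
        constructor
        · exact (le_sup_right : _ ≤ Subgroup.zpowers a ⊔ Subgroup.zpowers b) (Subgroup.mem_zpowers b)
        · exact mul_mem ((le_sup_left : _ ≤ Subgroup.zpowers a ⊔ Subgroup.zpowers b) (Subgroup.mem_zpowers a))
            (zpow_mem ((le_sup_right : _ ≤ Subgroup.zpowers a ⊔ Subgroup.zpowers b) (Subgroup.mem_zpowers b)) _)
      · rw [zpowers_sup_le_iff]
        set K := Subgroup.zpowers b ⊔ Subgroup.zpowers (a * b ^ (-(Multiplicative.toAdd (χ a) / Multiplicative.toAdd (χ b)))) with hK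
        have hb' : b ∈ K := (le_sup_left : Subgroup.zpowers b ≤ K) (Subgroup.mem_zpowers b)
        refine ⟨?_, hb'⟩
        have ha' : a * b ^ (-(Multiplicative.toAdd (χ a) / Multiplicative.toAdd (χ b))) ∈ K :=
          (le_sup_right : Subgroup.zpowers _ ≤ K) (Subgroup.mem_zpowers _)
        have := mul_mem ha' (inv_mem (zpow_mem hb' (-(Multiplicative.toAdd (χ a) / Multiplicative.toAdd (χ b)))))
        simpa using this

/-- clear one column -/
lemma column (χ : H →* Multiplicative ℤ) : ∀ (n : ℕ) (w : Fin (n + 1) → H),
    ∃ v : Fin (n + 1) → H, Subgroup.closure (Set.range v) = Subgroup.closure (Set.range w) ∧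
      ∀ i : Fin n, χ (v i.succ) = 1 := by
  intro n
  induction n with
  | zero => intro w; exact ⟨w, rfl, fun i => i.elim0⟩
  | succ n ih =>
    intro w
    obtain ⟨t, ht, ht'⟩ := ih (Fin.tail w)
    obtain ⟨a', b', h1, h2⟩ := pair χ _ (w 0) (t 0) le_rfl
    refine ⟨Fin.cons a' (Fin.cons b' (Fin.tail t)), ?_, ?_⟩
    · have hw : Set.range w = insert (w 0) (Set.range (Fin.tail w)) := by
        conv_lhs => rw [← Fin.cons_self_tail w]
        rw [Fin.range_cons]
      have htt : Set.range t = insert (t 0) (Set.range (Fin.tail t)) := by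
        conv_lhs => rw [← Fin.cons_self_tail t]
        rw [Fin.range_cons]
      rw [Fin.range_cons, Fin.range_cons, closure_insert', closure_insert', hw, closure_insert', ← ht, htt,
        closure_insert', ← sup_assoc, ← sup_assoc, h1]
    · intro i
      rw [Fin.cons_succ]
      refine Fin.cases ?_ (fun i => ?_) i
      · simpa using h2
      · rw [Fin.cons_succ]
        exact ht' i

/-- triangularisation -/
lemma tri : ∀ (n : ℕ) (χ : Fin n → (H →* Multiplicative ℤ)) (w : Fin n → H),
    ∃ v : Fin n → H, Subgroup.closure (Set.range v) = Subgroup.closure (Set.range w) ∧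
      ∀ i j : Fin n, j < i → χ j (v i) = 1 := by
  intro n
  induction n with
  | zero => intro χ w; exact ⟨w, rfl, fun i => i.elim0⟩
  | succ n ih =>
    intro χ w
    obtain ⟨w', h1, h2⟩ := column (χ 0) n w
    obtain ⟨v', h3, h4⟩ := ih (fun j => χ j.succ) (fun i => w' i.succ)
    refine ⟨Fin.cons (w' 0) v', ?_, ?_⟩
    · have hw : Set.range w' = insert (w' 0) (Set.range (fun i : Fin n => w' i.succ)) := by
        conv_lhs => rw [← Fin.cons_self_tail w']
        rw [Fin.range_cons]
        rfl
      rw [Fin.range_cons, closure_insert', h3, ← closure_insert', ← hw, h1]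
    · intro i
      refine Fin.cases ?_ (fun i => ?_) i
      · intro j hj
        exact absurd hj (Fin.not_lt_zero j)
      · intro j
        refine Fin.cases ?_ (fun j => ?_) j
        · intro _
          rw [Fin.cons_succ]
          have : v' i ∈ Subgroup.closure (Set.range fun i : Fin n => w' i.succ) := by
            rw [← h3]; exact Subgroup.subset_closure ⟨i, rfl⟩
          have hle : Subgroup.closure (Set.range fun i : Fin n => w' i.succ) ≤ (χ 0).ker := by
            rw [Subgroup.closure_le]
            rintro _ ⟨i, rfl⟩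
            exact h2 i
          exact hle this
        · intro hj
          rw [Fin.cons_succ]
          exact h4 i j (by simpa using hj)

end Tri

section Words

variable {G : Type u} [Group G] {n : ℕ}

lemma ev_nil : ev ([] : List (G × Fin n × Bool)) = 1 := rfl

lemma ev_cons (p : G × Fin n × Bool) (l : List (G × Fin n × Bool)) :
    ev (p :: l) = lett p * ev l := by simp [ev]

lemma ev_append (l l' : List (G × Fin n × Bool)) : ev (l ++ l') = ev l * ev l' := by
  simp [ev]

/-- exponent homomorphism -/
def expHom (G : Type u) [Group G] (n : ℕ) :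
    Coprod G (FreeGroup (Fin n)) →* Multiplicative (Fin n → ℤ) :=
  Coprod.lift (1 : G →* Multiplicative (Fin n → ℤ))
    (FreeGroup.lift fun k => Multiplicative.ofAdd (Pi.single k 1))

lemma expHom_inl (a : G) : expHom G n (Coprod.inl a) = 1 := by
  simp [expHom]

lemma expHom_of (x : Fin n) :
    expHom G n (Coprod.inr (FreeGroup.of x)) = Multiplicative.ofAdd (Pi.single x 1) := by
  simp [expHom]

lemma expHom_lett (p : G × Fin n × Bool) (j : Fin n) :
    Multiplicative.toAdd (expHom G n (lett p)) j =
      if p.2.1 = j then (bif p.2.2 then (1 : ℤ) else -1) else 0 := by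
  obtain ⟨a, x, s⟩ := p
  cases s
  · simp only [lett, cond_false, map_mul, map_inv, expHom_inl, one_mul, expHom_of]
    by_cases h : x = j
    · subst h; simp
    · simp [h, Ne.symm h]
  · simp only [lett, cond_true, map_mul, expHom_inl, one_mul, expHom_of]
    by_cases h : x = j
    · subst h; simp
    · simp [h, Ne.symm h]

lemma expHom_ev (l : List (G × Fin n × Bool)) (j : Fin n) :
    Multiplicative.toAdd (expHom G n (ev l)) j = expSum l j := by
  induction l with
  | nil => simp [ev, expSum]
  | cons p l ih =>
    rw [ev_cons, map_mul, toAdd_mul, Pi.add_apply, expHom_lett, ih]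
    simp [expSum]

/-- every element is `ev l * inl b` -/
lemma exists_ev (h : Coprod G (FreeGroup (Fin n))) :
    ∃ (l : List (G × Fin n × Bool)) (b : G), h = ev l * Coprod.inl b := by
  -- the set of such elements is closed under right multiplication by generators
  have key : ∀ h : Coprod G (FreeGroup (Fin n)),
      h ∈ Subgroup.closure (Set.range (Coprod.inl : G →* Coprod G (FreeGroup (Fin n))) ∪
        Set.range (fun x : Fin n => (Coprod.inr (FreeGroup.of x) : Coprod G (FreeGroup (Fin n))))) := by
    intro h
    induction h using Coprod.induction_on with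
    | inl m => exact Subgroup.subset_closure (Or.inl ⟨m, rfl⟩)
    | inr f =>
      induction f using FreeGroup.induction_on with
      | C1 => rw [map_one]; exact one_mem _
      | of x => exact Subgroup.subset_closure (Or.inr ⟨x, rfl⟩)
      | inv_of x hx => rw [map_inv]; exact inv_mem hx
      | mul x y hx hy => rw [map_mul]; exact mul_mem hx hy
    | mul x y hx hy => exact mul_mem hx hy
  refine Subgroup.closure_induction_right (p := fun h _ => ∃ (l : List (G × Fin n × Bool)) (b : G),
    h = ev l * Coprod.inl b) ?_ ?_ ?_ (key h)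
  · exact ⟨[], 1, by simp [ev]⟩
  · rintro x y hx hy ⟨l, b, rfl⟩
    rcases hy with ⟨a, rfl⟩ | ⟨a, rfl⟩
    · exact ⟨l, b * a, by rw [map_mul, mul_assoc]⟩
    · exact ⟨l ++ [(b, a, true)], 1, by simp [ev, lett, mul_assoc]⟩
  · rintro x y hx hy ⟨l, b, rfl⟩
    rcases hy with ⟨a, rfl⟩ | ⟨a, rfl⟩
    · exact ⟨l, b * a⁻¹, by rw [map_mul, map_inv, mul_assoc]⟩
    · exact ⟨l ++ [(b, a, false)], 1, by simp [ev, lett, mul_assoc]⟩

/-- every element with a nonzero exponent sum is conjugate to `ev l` -/
lemma exists_conj_ev (h : Coprod G (FreeGroup (Fin n))) (hh : expHom G n h ≠ 1) :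
    ∃ (l : List (G × Fin n × Bool)) (c : Coprod G (FreeGroup (Fin n))), c * h * c⁻¹ = ev l := by
  obtain ⟨l, b, rfl⟩ := exists_ev h
  cases l with
  | nil =>
    exfalso
    apply hh
    rw [ev_nil, one_mul, expHom_inl]
  | cons p l =>
    obtain ⟨a, x, s⟩ := p
    refine ⟨(b * a, x, s) :: l, Coprod.inl b, ?_⟩
    simp [ev, lett, mul_assoc]

end Words

section Square

variable {G : Type u} [Group G]

/-- the `j`-th exponent as a homomorphism -/
def chi (G : Type u) [Group G] (n : ℕ) (j : Fin n) :
    Coprod G (FreeGroup (Fin n)) →* Multiplicative ℤ :=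
  (AddMonoidHom.toMultiplicative (Pi.evalAddMonoidHom (fun _ : Fin n => ℤ) j)).comp (expHom G n)

lemma chi_apply (n : ℕ) (j : Fin n) (h : Coprod G (FreeGroup (Fin n))) :
    Multiplicative.toAdd (chi G n j h) = Multiplicative.toAdd (expHom G n h) j := rfl

lemma square (hK : Key G) (n : ℕ) (w : Fin n → Coprod G (FreeGroup (Fin n)))
    (hdet : (Matrix.of fun i j => Multiplicative.toAdd (expHom G n (w i)) j :
      Matrix (Fin n) (Fin n) ℤ).det ≠ 0)
    (g : G) (hg : (Coprod.inl g : Coprod G (FreeGroup (Fin n))) ∈
      Subgroup.normalClosure (Set.range w)) : g = 1 := by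
  obtain ⟨v, hv, htri⟩ := tri n (chi G n) w
  -- the exponent matrix of `v` is nonsingular
  have hdetv : (Matrix.of fun i j => Multiplicative.toAdd (expHom G n (v i)) j :
      Matrix (Fin n) (Fin n) ℤ).det ≠ 0 := by
    intro h0
    rw [← Matrix.exists_mulVec_eq_zero_iff] at h0
    obtain ⟨c, hc, hc0⟩ := h0
    apply hdet
    rw [← Matrix.exists_mulVec_eq_zero_iff]
    refine ⟨c, hc, ?_⟩
    -- the homomorphism `h ↦ Σ_j exp_j(h) c_j`
    let θ : Coprod G (FreeGroup (Fin n)) →* Multiplicative ℤ :=
      (AddMonoidHom.toMultiplicative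
        ({ toFun := fun x => ∑ j, x j * c j, map_zero' := by simp,
           map_add' := fun x y => by simp [add_mul, Finset.sum_add_distrib] } :
          (Fin n → ℤ) →+ ℤ)).comp (expHom G n)
    have hθ : ∀ h, Multiplicative.toAdd (θ h) = ∑ j, Multiplicative.toAdd (expHom G n h) j * c j :=
      fun h => rfl
    have hle : Subgroup.closure (Set.range v) ≤ θ.ker := by
      rw [Subgroup.closure_le]
      rintro _ ⟨i, rfl⟩
      have := congrFun hc0 i
      simp only [Matrix.mulVec, dotProduct, Matrix.of_apply, Pi.zero_apply] at this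
      have h2 : Multiplicative.toAdd (θ (v i)) = 0 := by rw [hθ]; exact this
      exact Multiplicative.toAdd.injective (by simpa using h2)
    funext i
    simp only [Matrix.mulVec, dotProduct, Matrix.of_apply, Pi.zero_apply]
    have hwi : w i ∈ Subgroup.closure (Set.range v) := by
      rw [hv]; exact Subgroup.subset_closure ⟨i, rfl⟩
    have h3 : θ (w i) = 1 := hle hwi
    rw [← hθ, h3, toAdd_one]
  have htri' : ∀ i j : Fin n, j < i → Multiplicative.toAdd (expHom G n (v i)) j = 0 := by
    intro i j hij
    rw [← chi_apply, htri i j hij, toAdd_one]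
  have hdiag : ∀ i, Multiplicative.toAdd (expHom G n (v i)) i ≠ 0 := by
    intro i hi
    apply hdetv
    rw [Matrix.det_of_isUpperTriangular]
    · exact Finset.prod_eq_zero (Finset.mem_univ i) hi
    · intro i j hij
      exact htri' i j hij
  have hne : ∀ i, expHom G n (v i) ≠ 1 := by
    intro i hi
    apply hdiag i
    rw [hi]; rfl
  choose W c hW using fun i => exists_conj_ev (v i) (hne i)
  have hexp : ∀ i, expHom G n (ev (W i)) = expHom G n (v i) := by
    intro i
    rw [← hW i, map_mul, map_mul, map_inv, mul_comm (expHom G n (c i)), mul_inv_cancel_right]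
  refine hK n W ?_ ?_ g ?_
  · intro i j hij
    rw [← expHom_ev, hexp]
    exact htri' i j hij
  · intro i
    rw [← expHom_ev, hexp]
    exact hdiag i
  · have hle : Subgroup.normalClosure (Set.range w) ≤
        Subgroup.normalClosure (Set.range fun i => ev (W i)) := by
      apply Subgroup.normalClosure_le_normal
      have h1 : Set.range v ⊆ Subgroup.normalClosure (Set.range fun i => ev (W i)) := by
        rintro _ ⟨i, rfl⟩
        have h2 : ev (W i) ∈ Subgroup.normalClosure (Set.range fun i => ev (W i)) :=
          Subgroup.subset_normalClosure ⟨i, rfl⟩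
        have h3 := (Subgroup.normalClosure_normal (s := Set.range fun i => ev (W i))).conj_mem _ h2
          (c i)⁻¹
        rw [← hW i] at h3
        simpa [mul_assoc] using h3
      have h4 : Subgroup.closure (Set.range v) ≤
          Subgroup.normalClosure (Set.range fun i => ev (W i)) := (Subgroup.closure_le _).2 h1
      rw [hv] at h4
      exact fun x hx => h4 (Subgroup.subset_closure hx)
    exact hle hg

end Square

section Final

variable {G : Type u} [Group G]

/-- column selection -/
lemma exists_cols {m n : ℕ} (A : Matrix (Fin m) (Fin n) ℚ) (hA : A.rank = m) :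
    ∃ c : Fin m → Fin n, Function.Injective c ∧ (A.submatrix id c).det ≠ 0 := by
  obtain ⟨κ, a, ha, hsp, hli⟩ := exists_linearIndependent' ℚ A.col
  have hfin : Finite κ := Finite.of_injective a ha
  cases nonempty_fintype κ
  have hcard : Fintype.card κ = m := by
    rw [← hA, Matrix.rank_eq_finrank_span_cols, ← hsp]
    exact (finrank_span_eq_card hli).symm
  let e : Fin m ≃ κ := (Fintype.equivFinOfCardEq hcard).symm
  refine ⟨a ∘ e, ha.comp e.injective, ?_⟩
  have hli' : LinearIndependent ℚ (A.submatrix id (a ∘ e)).col :=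
    hli.comp e e.injective
  rw [← isUnit_iff_ne_zero, ← Matrix.isUnit_iff_isUnit_det]
  exact Matrix.linearIndependent_cols_iff_isUnit.1 hli'

/-- kill the unknowns outside the range of `c` -/
noncomputable def kill (G : Type u) [Group G] {m n : ℕ} (c : Fin m → Fin n) :
    Coprod G (FreeGroup (Fin n)) →* Coprod G (FreeGroup (Fin m)) :=
  open Classical in
  Coprod.lift Coprod.inl (FreeGroup.lift fun j =>
    if h : ∃ i, c i = j then Coprod.inr (FreeGroup.of h.choose) else 1)

lemma kill_inl {m n : ℕ} (c : Fin m → Fin n) (g : G) :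
    kill G c (Coprod.inl g) = Coprod.inl g := by
  simp [kill]

lemma expHom_kill {m n : ℕ} (c : Fin m → Fin n) (hc : Function.Injective c)
    (h : Coprod G (FreeGroup (Fin n))) (j : Fin m) :
    Multiplicative.toAdd (expHom G m (kill G c h)) j =
      Multiplicative.toAdd (expHom G n h) (c j) := by
  rw [← chi_apply, ← chi_apply]
  have : (chi G m j).comp (kill G c) = chi G n (c j) := by
    apply Coprod.hom_ext
    · ext a
      simp [chi, kill_inl, expHom_inl]
    · ext k
      simp only [MonoidHom.comp_apply]
      apply Multiplicative.toAdd.injective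
      rw [chi_apply, chi_apply, expHom_of]
      simp only [kill, Coprod.lift_apply_inr, FreeGroup.lift_apply_of, toAdd_ofAdd]
      split_ifs with hk
      · rw [expHom_of, toAdd_ofAdd]
        have h1 : c hk.choose = k := hk.choose_spec
        generalize hk.choose = r at h1
        subst h1
        by_cases h2 : r = j
        · subst h2
          rw [Pi.single_eq_same, Pi.single_eq_same]
        · rw [Pi.single_eq_of_ne (Ne.symm h2), Pi.single_eq_of_ne (fun h3 => h2 (hc h3.symm))]
      · have h3 : c j ≠ k := fun h3 => hk ⟨j, h3⟩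
        rw [map_one, Pi.single_eq_of_ne h3]
        rfl
  exact congrArg Multiplicative.toAdd (DFunLike.congr_fun this h)

/-- the statement of S0262 from the key statement -/
theorem final (hK : Key G) (n m : ℕ)
    (w : Fin m → Coprod G (FreeGroup (Fin n)))
    (hrank : (Matrix.of fun (i : Fin m) (j : Fin n) =>
      ((Multiplicative.toAdd
          (Coprod.lift (1 : G →* Multiplicative (Fin n → ℤ))
            (FreeGroup.lift fun k => Multiplicative.ofAdd (Pi.single k 1)) (w i)) j : ℤ) : ℚ)).rank
        = m) :
    Function.Injective ((QuotientGroup.mk' (Subgroup.normalClosure (Set.range w))).comp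
      (Coprod.inl : G →* Coprod G (FreeGroup (Fin n)))) := by
  rw [injective_iff_map_eq_one]
  intro g hg
  rw [MonoidHom.comp_apply, QuotientGroup.mk'_apply, QuotientGroup.eq_one_iff] at hg
  obtain ⟨c, hc, hdet⟩ := exists_cols _ hrank
  refine square hK m (fun i => kill G c (w i)) ?_ g ?_
  · intro h0
    apply hdet
    have h1 : (Matrix.of fun (i : Fin m) (j : Fin n) =>
      ((Multiplicative.toAdd
          (Coprod.lift (1 : G →* Multiplicative (Fin n → ℤ))
            (FreeGroup.lift fun k => Multiplicative.ofAdd (Pi.single k 1)) (w i)) j : ℤ) : ℚ)).submatrix id c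
        = (Matrix.of fun i j => Multiplicative.toAdd (expHom G m (kill G c (w i))) j :
            Matrix (Fin m) (Fin m) ℤ).map (Int.castRingHom ℚ) := by
      ext i j
      simp only [Matrix.submatrix_apply, id, Matrix.of_apply, Matrix.map_apply]
      rw [expHom_kill c hc]
      rfl
    rw [h1, ← RingHom.mapMatrix_apply, ← RingHom.map_det, h0, map_zero]
  · have h1 : kill G c (Coprod.inl g) ∈
        (Subgroup.normalClosure (Set.range w)).map (kill G c) := Subgroup.mem_map_of_mem _ hg
    rw [kill_inl] at h1
    have h2 : (Subgroup.normalClosure (Set.range w)).map (kill G c) ≤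
        Subgroup.normalClosure (Set.range fun i => kill G c (w i)) := by
      rw [Subgroup.map_le_iff_le_comap]
      apply Subgroup.normalClosure_le_normal
      rintro _ ⟨i, rfl⟩
      exact Subgroup.subset_normalClosure ⟨i, rfl⟩
    exact h2 h1

end Final

end Crest.Agent.R174.Red
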