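import Mathlib
import Crest.Agent.R174.Red259

set_option autoImplicit false

/-!
# R174, blocks W1, W2 (helper753): free product normal form, blocks
-/

open Monoid

namespace Crest.Agent.R174.Word

open Crest.Agent.R174.Red

universe u

variable {G : Type u} [Group G] {n : ℕ}

/-- A letter list. -/
abbrev L (G : Type u) (n : ℕ) := List (G × Fin n × Bool)

/-- multiply `a` onto the first label of `(l, b)` (onto `b` if `l = []`) -/
def push (a : G) : L G n × G → L G n × G
  | ([], b) => ([], a * b)
  | ((c, x) :: t, b) => ((a * c, x) :: t, b)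

@[simp] lemma push_nil (a b : G) : push a (([] : L G n), b) = ([], a * b) := rfl

@[simp] lemma push_cons (a c b : G) (x : Fin n × Bool) (t : L G n) :
    push a (((c, x) :: t), b) = ((a * c, x) :: t, b) := rfl

lemma push_one (p : L G n × G) : push 1 p = p := by
  obtain ⟨l, b⟩ := p
  cases l with
  | nil => simp
  | cons q t => obtain ⟨c, x⟩ := q; simp

lemma push_push (a a' : G) (p : L G n × G) : push a (push a' p) = push (a * a') p := by
  obtain ⟨l, b⟩ := p
  cases l with
  | nil => simp [mul_assoc]
  | cons q t => obtain ⟨c, x⟩ := q; simp [mul_assoc]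

/-- total value -/
def tot (p : L G n × G) : Coprod G (FreeGroup (Fin n)) := ev p.1 * Coprod.inl p.2

lemma tot_push (a : G) (p : L G n × G) : tot (push a p) = Coprod.inl a * tot p := by
  obtain ⟨l, b⟩ := p
  cases l with
  | nil => simp [tot, ev]
  | cons q t => obtain ⟨c, x⟩ := q; simp [tot, ev, lett, mul_assoc]

/-- reduced: no cancelling neighbours -/
def Red (l : L G n) : Prop :=
  l.IsChain (fun p q => ¬ (q.1 = 1 ∧ q.2.1 = p.2.1 ∧ q.2.2 = !p.2.2))

lemma red_push {a : G} {p : L G n × G} (h : Red p.1) : Red (push a p).1 := by
  obtain ⟨l, b⟩ := p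
  cases l with
  | nil => exact h
  | cons q t =>
    obtain ⟨c, x⟩ := q
    cases t with
    | nil => exact List.isChain_singleton _
    | cons r t =>
      unfold Red at h ⊢
      simp only [push_cons, List.isChain_cons_cons] at h ⊢
      exact h

open Classical in
/-- prepend a letter, cancelling if possible -/
noncomputable def pre (x : Fin n) (s : Bool) : L G n × G → L G n × G
  | ([], b) => ([(1, x, s)], b)
  | (q :: t, b) => if q = (1, x, !s) then (t, b) else ((1, x, s) :: q :: t, b)

lemma red_pre {x : Fin n} {s : Bool} {p : L G n × G} (h : Red p.1) : Red (pre x s p).1 := by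
  obtain ⟨l, b⟩ := p
  cases l with
  | nil => exact List.isChain_singleton _
  | cons q t =>
    by_cases hq : q = (1, x, !s)
    · have h1 : pre x s (q :: t, b) = (t, b) := by simp [pre, hq]
      rw [h1]
      exact List.IsChain.tail h
    · have h1 : pre x s (q :: t, b) = ((1, x, s) :: q :: t, b) := by simp [pre, hq]
      rw [h1]
      unfold Red at h ⊢
      rw [List.isChain_cons_cons]
      refine ⟨?_, h⟩
      rintro ⟨h1, h2, h3⟩
      apply hq
      obtain ⟨c, y, t'⟩ := q
      simp only at h1 h2 h3
      rw [h1, h2, h3]

lemma pre_pre {x : Fin n} {s : Bool} {p : L G n × G} (h : Red p.1) :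
    pre x (!s) (pre x s p) = p := by
  obtain ⟨l, b⟩ := p
  cases l with
  | nil => simp [pre]
  | cons q t =>
    by_cases hq : q = (1, x, !s)
    · subst hq
      have h1 : pre x s ((1, x, !s) :: t, b) = (t, b) := by simp [pre]
      rw [h1]
      cases t with
      | nil => simp [pre]
      | cons r t =>
        unfold Red at h
        rw [List.isChain_cons_cons] at h
        have h2 : r ≠ (1, x, !!s) := by
          rintro rfl
          exact h.1 ⟨rfl, rfl, rfl⟩
        simp only [pre, h2, if_false]
    · have h1 : pre x s (q :: t, b) = ((1, x, s) :: q :: t, b) := by simp [pre, hq]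
      rw [h1]
      simp [pre]

/-- reduced words -/
abbrev S (G : Type u) [Group G] (n : ℕ) := {p : L G n × G // Red p.1}

/-- action of `G` -/
def actG (G : Type u) [Group G] (n : ℕ) : G →* Equiv.Perm (S G n) where
  toFun a :=
    { toFun := fun p => ⟨push a p.1, red_push p.2⟩
      invFun := fun p => ⟨push a⁻¹ p.1, red_push p.2⟩
      left_inv := fun p => by apply Subtype.ext; simp [push_push, push_one]
      right_inv := fun p => by apply Subtype.ext; simp [push_push, push_one] }
  map_one' := by ext p : 1; apply Subtype.ext; simp [push_one]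
  map_mul' a b := by ext p : 1; apply Subtype.ext; simp [push_push]

/-- action of a letter -/
noncomputable def permX (G : Type u) [Group G] {n : ℕ} (x : Fin n) : Equiv.Perm (S G n) where
  toFun p := ⟨pre x true p.1, red_pre p.2⟩
  invFun p := ⟨pre x false p.1, red_pre p.2⟩
  left_inv p := by apply Subtype.ext; exact pre_pre (s := true) p.2
  right_inv p := by apply Subtype.ext; exact pre_pre (s := false) p.2

/-- action of the free product on reduced words -/
noncomputable def act (G : Type u) [Group G] (n : ℕ) :
    Coprod G (FreeGroup (Fin n)) →* Equiv.Perm (S G n) :=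
  Coprod.lift (actG G n) (FreeGroup.lift fun x => permX G x)

lemma act_inl (a : G) (p : S G n) : (act G n (Coprod.inl a) p).1 = push a p.1 := by
  simp [act, actG]

lemma act_letter (x : Fin n) (s : Bool) (p : S G n) :
    (act G n (Coprod.inr (bif s then FreeGroup.of x else (FreeGroup.of x)⁻¹)) p).1
      = pre x s p.1 := by
  cases s
  · simp only [act, cond_false, map_inv, Coprod.lift_apply_inr, FreeGroup.lift_apply_of]
    rfl
  · simp only [act, cond_true, Coprod.lift_apply_inr, FreeGroup.lift_apply_of]
    rfl

lemma act_tot : ∀ (l : L G n) (b : G) (h : Red l),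
    (act G n (tot (l, b)) ⟨([], 1), List.isChain_nil⟩).1 = (l, b)
  | [], b, _ => by
      simp only [tot, ev_nil, one_mul]
      rw [act_inl]; simp
  | (a, x, s) :: t, b, h => by
      have ht : Red t := List.IsChain.tail h
      have ih := act_tot t b ht
      have e1 : tot ((a, x, s) :: t, b) = Coprod.inl a *
          (Coprod.inr (bif s then FreeGroup.of x else (FreeGroup.of x)⁻¹) * tot (t, b)) := by
        simp [tot, ev_cons, lett, mul_assoc]
      rw [e1, map_mul, map_mul, Equiv.Perm.mul_apply, Equiv.Perm.mul_apply, act_inl, act_letter, ih]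
      cases t with
      | nil => simp [pre]
      | cons q t =>
        have hq : q ≠ (1, x, !s) := by
          rintro rfl
          unfold Red at h
          rw [List.isChain_cons_cons] at h
          exact h.1 ⟨rfl, rfl, rfl⟩
        simp [pre, hq]

/-- normal form theorem -/
lemma eq_of_tot_eq {l l' : L G n} {b b' : G} (h : Red l) (h' : Red l')
    (e : tot (l, b) = tot (l', b')) : l = l' ∧ b = b' := by
  have h1 := act_tot l b h
  have h2 := act_tot l' b' h'
  rw [e, h2] at h1
  simp only [Prod.mk.injEq] at h1
  exact ⟨h1.1.symm, h1.2.symm⟩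

lemma exists_adj_of_not_red : ∀ {l : L G n}, ¬ Red l →
    ∃ (l1 l2 : L G n) (a : G) (x : Fin n) (s : Bool), l = l1 ++ (a, x, s) :: (1, x, !s) :: l2
  | [], h => (h List.isChain_nil).elim
  | [p], h => (h (List.isChain_singleton _)).elim
  | p :: q :: t, h => by
      unfold Red at h
      rw [List.isChain_cons_cons, not_and_or, not_not] at h
      rcases h with h | h
      · obtain ⟨a, x, s⟩ := p
        obtain ⟨c, y, r⟩ := q
        simp only at h
        obtain ⟨h1, h2, h3⟩ := h
        subst h1 h2 h3
        exact ⟨[], t, a, y, s, rfl⟩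
      · obtain ⟨l1, l2, a, x, s, e⟩ := exists_adj_of_not_red (l := q :: t) h
        exact ⟨p :: l1, l2, a, x, s, by rw [e]; rfl⟩

/-- W1 -/
theorem exists_adj {l : L G n} {b g : G} (h : tot (l, b) = Coprod.inl g) (hl : l ≠ []) :
    ∃ (l1 l2 : L G n) (a : G) (x : Fin n) (s : Bool), l = l1 ++ (a, x, s) :: (1, x, !s) :: l2 := by
  apply exists_adj_of_not_red
  intro hr
  have e : tot (l, b) = tot (([] : L G n), g) := by rw [h]; simp [tot, ev]
  exact hl (eq_of_tot_eq hr List.isChain_nil e).1

lemma tot_remove (l1 l2 : L G n) (a b : G) (x : Fin n) (s : Bool) :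
    tot (l1 ++ (a, x, s) :: (1, x, !s) :: l2, b) = ev l1 * tot (push a (l2, b)) := by
  rw [tot_push]
  cases s <;> simp [tot, ev_append, ev_cons, lett, mul_assoc]

/-- W1': induction principle: it suffices to treat the empty word and the insertion of a
cancelling pair of neighbours. -/
theorem red_induction {P : L G n → G → Prop} {g : G} (h0 : P [] g)
    (h1 : ∀ (l1 l2 : L G n) (a b : G) (x : Fin n) (s : Bool),
      tot (l1 ++ (a, x, s) :: (1, x, !s) :: l2, b) = Coprod.inl g →
      P (l1 ++ (push a (l2, b)).1) (push a (l2, b)).2 →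
      P (l1 ++ (a, x, s) :: (1, x, !s) :: l2) b) :
    ∀ (l : L G n) (b : G), tot (l, b) = Coprod.inl g → P l b := by
  intro l
  induction hN : l.length using Nat.strong_induction_on generalizing l with
  | _ N ih =>
    intro b h
    by_cases hl : l = []
    · subst hl
      have : b = g := by
        have : (Coprod.inl b : Coprod G (FreeGroup (Fin n))) = Coprod.inl g := by
          rw [← h]; simp [tot, ev]
        exact Coprod.inl_injective this
      rw [this]; exact h0
    · obtain ⟨l1, l2, a, x, s, rfl⟩ := exists_adj h hl
      apply h1 l1 l2 a b x s h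
      have hlen : (push a (l2, b)).1.length = l2.length := by
        cases l2 with
        | nil => rfl
        | cons q t => obtain ⟨c, y⟩ := q; rfl
      refine ih _ ?_ _ rfl _ ?_
      · rw [← hN]; simp [hlen]
      · rw [← h, tot_remove]
        simp only [tot, ev_append, mul_assoc]

end Crest.Agent.R174.Word
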