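import Mathlib
import Crest.Agent.R174.Mono785
import Crest.Agent.R174.Word753

/-!
# R174 (KLH), route B (helper785): the fold lemma in the monomial group
-/

set_option autoImplicit false
set_option linter.unusedSectionVars false
set_option linter.unusedSimpArgs false

namespace Crest.Agent.R174.MonoB

open Monoid
open Crest.Agent.R174.Red Crest.Agent.R174.Word

universe u

section basic

variable {T : Type*} [DecidableEq T] {G : Type*} {Z : Type*} [Group G] [CommGroup Z]

lemma ph_mul (D D' : Option T → Z) :
    (ph D : Mono (Option T) (G × Z)) * ph D' = ph (fun x => D x * D' x) := by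
  ext x
  · rfl
  · simp [ph]
  · simp [ph]

lemma ph_mul_comm (D : Option T → Z) (A : Mono (Option T) (G × Z)) :
    ph D * A = A * ph (fun x => D (A.perm x)) := by
  ext x
  · simp [ph]
  · simp [ph]
  · simp [ph, mul_comm]

lemma mul_ph_comm (D : Option T → Z) (A : Mono (Option T) (G × Z)) :
    A * ph D = ph (fun x => D (A.perm⁻¹ x)) * A := by
  rw [ph_mul_comm]; simp

lemma IsRefl.conj {A : Mono (Option T) (G × Z)} (h : IsRefl A) (B : Mono (Option T) (G × Z)) :
    IsRefl (B * A * B⁻¹) := by
  obtain ⟨C, t, rfl⟩ := h
  exact ⟨B * C, t, by group⟩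

lemma tau_mul_tau (t : T) : (tau t : Mono (Option T) (G × Z)) * tau t = 1 := by
  ext x
  · simp [tau]
  · simp [tau]
  · simp [tau]

lemma tau_inv (t : T) : (tau t : Mono (Option T) (G × Z))⁻¹ = tau t :=
  inv_eq_of_mul_eq_one_right (tau_mul_tau t)

lemma IsRefl.mul_self {A : Mono (Option T) (G × Z)} (h : IsRefl A) : A * A = 1 := by
  obtain ⟨B, t, rfl⟩ := h
  have : B * tau t * B⁻¹ * (B * tau t * B⁻¹) = B * (tau t * tau t) * B⁻¹ := by group
  rw [this, tau_mul_tau]; group

lemma isRefl_tau (t : T) : IsRefl (tau t : Mono (Option T) (G × Z)) := ⟨1, t, by simp⟩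

/-- `A` fixes `e_x` -/
def Fix (A : Mono (Option T) (G × Z)) (x : Option T) : Prop := A.perm x = x ∧ A.lab x = 1

lemma Fix.one (x : Option T) : Fix (1 : Mono (Option T) (G × Z)) x := ⟨rfl, rfl⟩

lemma Fix.mul {A B : Mono (Option T) (G × Z)} {x : Option T} (hA : Fix A x) (hB : Fix B x) :
    Fix (A * B) x := by
  refine ⟨?_, ?_⟩
  · simp [hA.1, hB.1]
  · simp [hA.2, hB.1, hB.2]

lemma Fix.inv {A : Mono (Option T) (G × Z)} {x : Option T} (hA : Fix A x) : Fix A⁻¹ x := by
  have h1 : A.perm⁻¹ x = x := by
    rw [Equiv.Perm.inv_eq_iff_eq]; exact hA.1.symm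
  refine ⟨h1, ?_⟩
  rw [Mono.inv_lab, h1, hA.2, inv_one]

lemma fix_dg (g : G) (t : T) : Fix (dg g : Mono (Option T) (G × Z)) (some t) :=
  ⟨rfl, by simp [dg]⟩

lemma fix_tau {s t : T} (h : s ≠ t) : Fix (tau s : Mono (Option T) (G × Z)) (some t) := by
  refine ⟨?_, rfl⟩
  simp only [tau]
  rw [Equiv.swap_apply_of_ne_of_ne (by simp) (by simpa using h.symm)]

lemma fix_UL {l : List (G × T)} {b : G} {t : T} (h : t ∉ l.map Prod.snd) :
    Fix (UL l b : Mono (Option T) (G × Z)) (some t) := by
  unfold UL
  refine Fix.mul ?_ (fix_dg b t)
  induction l with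
  | nil => simp only [List.map_nil, List.prod_nil]; exact Fix.one _
  | cons p l ih =>
    simp only [List.map_cons, List.mem_cons, not_or] at h
    rw [List.map_cons, List.prod_cons]
    exact Fix.mul (Fix.mul (fix_dg _ _) (fix_tau (Ne.symm h.1))) (ih h.2)

lemma commute_of_fix {A P : Mono (Option T) (G × Z)}
    (h : ∀ x, (Fix A x ∧ Fix A (P.perm x)) ∨ (Fix P x ∧ Fix P (A.perm x))) : A * P = P * A := by
  have key : ∀ x, (A * P).perm x = (P * A).perm x ∧ (A * P).lab x = (P * A).lab x := by
    intro x
    rcases h x with ⟨h1, h2⟩ | ⟨h1, h2⟩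
    · simp [h1.1, h1.2, h2.1, h2.2]
    · simp [h1.1, h1.2, h2.1, h2.2]
  ext x
  · rw [(key x).1]
  · exact congrArg Prod.fst (key x).2
  · exact congrArg Prod.snd (key x).2

lemma UL_cons (p : G × T) (l : List (G × T)) (b : G) :
    (UL (p :: l) b : Mono (Option T) (G × Z)) = dg p.1 * tau p.2 * UL l b := by
  simp [UL, mul_assoc]

lemma UL_append (l1 l2 : List (G × T)) (b : G) :
    (UL (l1 ++ l2) b : Mono (Option T) (G × Z)) = UL l1 1 * UL l2 b := by
  have h1 : (dg (1 : G) : Mono (Option T) (G × Z)) = 1 := by
    ext x
    · rfl
    · simp only [dg, Mono.one_lab]; split_ifs <;> rfl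
    · simp only [dg, Mono.one_lab]; split_ifs <;> rfl
  simp [UL, mul_assoc, h1]

lemma dg_one : (dg (1 : G) : Mono (Option T) (G × Z)) = 1 := by
  ext x
  · rfl
  · simp only [dg, Mono.one_lab]; split_ifs <;> rfl
  · simp only [dg, Mono.one_lab]; split_ifs <;> rfl

lemma dg_mul (a b : G) : (dg (a * b) : Mono (Option T) (G × Z)) = dg a * dg b := by
  ext x
  · rfl
  · cases x <;> simp [dg]
  · cases x <;> simp [dg]

lemma dg_inv (a : G) : (dg a : Mono (Option T) (G × Z))⁻¹ = dg a⁻¹ := by
  apply inv_eq_of_mul_eq_one_right
  rw [← dg_mul, mul_inv_cancel, dg_one]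

/-- push a label to the right -/
def pushT (a : G) : List (G × T) × G → List (G × T) × G
  | ([], b) => ([], a * b)
  | ((c, x) :: t, b) => ((a * c, x) :: t, b)

lemma UL_pushT (a : G) (l : List (G × T)) (b : G) :
    (UL (pushT a (l, b)).1 (pushT a (l, b)).2 : Mono (Option T) (G × Z)) = dg a * UL l b := by
  cases l with
  | nil => simp [pushT, UL, dg_mul]
  | cons p l => obtain ⟨c, x⟩ := p; simp [pushT, UL_cons, dg_mul, mul_assoc]

lemma pushT_snd (a : G) (l : List (G × T)) (b : G) :
    (pushT a (l, b)).1.map Prod.snd = l.map Prod.snd := by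
  cases l with
  | nil => rfl
  | cons p l => obtain ⟨c, x⟩ := p; rfl

lemma mt_mul (π σ : Equiv.Perm T) (z z' : T → Z) :
    (mt π z : Mono (Option T) (G × Z)) * mt σ z' = mt (π * σ) (fun t => z (σ t) * z' t) := by
  ext x
  · cases x <;> rfl
  · simp [mt]
  · cases x <;> simp [mt]

/-- the fold identity -/
lemma fold_id {p q : T} (hpq : p ≠ q) (zp γ : Z) :
    (mt (Equiv.swap p q) (fun t => if t = p then zp else if t = q then zp⁻¹ else 1) :
        Mono (Option T) (G × Z)) * (tau p * tau q) =
      ph (fun x => if x = none then γ else if x = some p then zp⁻¹ * γ⁻¹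
          else if x = some q then zp else 1) *
        (ph (fun x => if x = some p then γ else 1) * tau p *
          (ph (fun x => if x = some p then γ else 1))⁻¹) := by
  have key : ∀ x, ((mt (Equiv.swap p q) (fun t => if t = p then zp else if t = q then zp⁻¹ else 1) :
        Mono (Option T) (G × Z)) * (tau p * tau q)).perm x =
      (ph (fun x => if x = none then γ else if x = some p then zp⁻¹ * γ⁻¹
          else if x = some q then zp else 1) *
        (ph (fun x => if x = some p then γ else 1) * tau p *
          (ph (fun x => if x = some p then γ else 1))⁻¹) : Mono (Option T) (G × Z)).perm x ∧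
      ((mt (Equiv.swap p q) (fun t => if t = p then zp else if t = q then zp⁻¹ else 1) :
        Mono (Option T) (G × Z)) * (tau p * tau q)).lab x =
      (ph (fun x => if x = none then γ else if x = some p then zp⁻¹ * γ⁻¹
          else if x = some q then zp else 1) *
        (ph (fun x => if x = some p then γ else 1) * tau p *
          (ph (fun x => if x = some p then γ else 1))⁻¹) : Mono (Option T) (G × Z)).lab x := by
    intro x
    have hqp : q ≠ p := hpq.symm
    rcases x with _ | t
    · simp [mt, tau, ph, hpq, hqp, Equiv.swap_apply_def]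
    · by_cases h1 : t = p
      · subst h1
        simp [mt, tau, ph, hpq, hqp, Equiv.swap_apply_def]
      · by_cases h2 : t = q
        · subst h2
          simp [mt, tau, ph, hpq, hqp, Equiv.swap_apply_def]
        · simp [mt, tau, ph, hpq, hqp, h1, h2, Equiv.swap_apply_def]
  ext x
  · rw [(key x).1]
  · exact congrArg Prod.fst (key x).2
  · exact congrArg Prod.snd (key x).2

end basic

section south

variable {T : Type*} [DecidableEq T] {G : Type u} {Z : Type*} [Group G] [CommGroup Z] {n : ℕ}

/-- the letter list with unknowns and signs -/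
def tyl (ty : T → Fin n × Bool) (l : List (G × T)) : L G n := l.map fun p => (p.1, ty p.2)

lemma tyl_pushT (ty : T → Fin n × Bool) (a : G) (l : List (G × T)) (b : G) :
    (tyl ty (pushT a (l, b)).1, (pushT a (l, b)).2) = push a (tyl ty l, b) := by
  cases l with
  | nil => rfl
  | cons p l => obtain ⟨c, x⟩ := p; rfl

theorem south (ty : T → Fin n × Bool) (u : Z) (g : G) : ∀ (k : ℕ) (l : List (G × T)) (b : G),
    l.length = k → (l.map Prod.snd).Nodup → tot (tyl ty l, b) = Coprod.inl g →
    ∀ D : Option T → Z, ∃ (π : Equiv.Perm T) (z : T → Z) (ζ : Z)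
      (R : List (Mono (Option T) (G × Z))),
      (∀ r ∈ R, IsRefl r) ∧ 2 * R.length = l.length ∧ (∀ t, π (π t) = t) ∧
      (∀ t, z (π t) * z t = 1) ∧ (∀ t, t ∉ l.map Prod.snd → π t = t ∧ z t = 1) ∧
      (∀ t, t ∈ l.map Prod.snd → ty (π t) = ((ty t).1, !(ty t).2)) ∧
      mt π z * UL l b * ph D * R.prod = base (l.map Prod.snd) D u g ζ := by
  intro k
  induction k using Nat.strong_induction_on with
  | _ k ih =>
  intro l b hk hnd htot D
  by_cases hl : l = []
  · subst hl
    have hb : b = g := by
      have : (Coprod.inl b : Coprod G (FreeGroup (Fin n))) = Coprod.inl g := by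
        rw [← htot]; simp [tot, ev, tyl]
      exact Coprod.inl_injective this
    subst hb
    refine ⟨1, fun _ => 1, D none, [], by simp, by simp, by simp, by simp, by simp, by simp, ?_⟩
    have key : ∀ x, ((mt 1 (fun _ => 1) * UL [] b * ph D * ([] : List (Mono (Option T) (G × Z))).prod :
        Mono (Option T) (G × Z)).perm x = (base [] D u b (D none) : Mono (Option T) (G × Z)).perm x) ∧
        ((mt 1 (fun _ => 1) * UL [] b * ph D * ([] : List (Mono (Option T) (G × Z))).prod :
        Mono (Option T) (G × Z)).lab x = (base [] D u b (D none) : Mono (Option T) (G × Z)).lab x) := by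
      intro x
      cases x <;> simp [mt, UL, ph, base, dg]
    ext x
    · rw [(key x).1]; rfl
    · exact congrArg Prod.fst (key x).2
    · exact congrArg Prod.snd (key x).2
  · have hl' : tyl ty l ≠ [] := by simpa [tyl] using hl
    obtain ⟨m1, m2, a, x, s, hm⟩ := exists_adj htot hl'
    -- split the list
    obtain ⟨l1, l1', rfl, hl1, hl1'⟩ := List.map_eq_append_iff.1 hm
    obtain ⟨p', l2', rfl, hp', hl2'⟩ := List.map_eq_cons_iff.1 hl1'
    obtain ⟨q', l2, rfl, hq', hl2⟩ := List.map_eq_cons_iff.1 hl2'
    obtain ⟨a', p⟩ := p'
    obtain ⟨c', q⟩ := q'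
    simp only [Prod.mk.injEq] at hp' hq'
    obtain ⟨rfl, hp⟩ := hp'
    obtain ⟨rfl, hq⟩ := hq'
    -- facts about the letters
    have hnd' : (l1.map Prod.snd ++ p :: q :: l2.map Prod.snd).Nodup := by simpa using hnd
    have hp1 : p ∉ l1.map Prod.snd := by
      intro h; exact (List.nodup_append.1 hnd').2.2 p h p (by simp) rfl
    have hq1 : q ∉ l1.map Prod.snd := by
      intro h; exact (List.nodup_append.1 hnd').2.2 q h q (by simp) rfl
    have h2 := (List.nodup_append.1 hnd').2.1
    have hpq : p ≠ q := by
      intro h; subst h; simp at h2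
    have hp2 : p ∉ l2.map Prod.snd := by
      intro h; rw [List.nodup_cons] at h2; exact h2.1 (List.mem_cons_of_mem _ h)
    have hq2 : q ∉ l2.map Prod.snd := by
      intro h; rw [List.nodup_cons, List.nodup_cons] at h2; exact h2.2.1 h
    set B : Mono (Option T) (G × Z) := UL l2 b with hB
    set A : Mono (Option T) (G × Z) := UL l1 1 * dg a' with hA
    have hBp : Fix B (some p) := fix_UL hp2
    have hBq : Fix B (some q) := fix_UL hq2
    have hAp : Fix A (some p) := Fix.mul (fix_UL hp1) (fix_dg _ _)
    have hAq : Fix A (some q) := Fix.mul (fix_UL hq1) (fix_dg _ _)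
    set zp : Z := u * (D (some q))⁻¹ with hzp
    set γ : Z := zp⁻¹ * D (B.perm⁻¹ none) * u⁻¹ with hγ
    set D1 : Option T → Z := fun x => if x = none then γ else if x = some p then zp⁻¹ * γ⁻¹
          else if x = some q then zp else 1 with hD1
    set S0 : Mono (Option T) (G × Z) := ph (fun x => if x = some p then γ else 1) * tau p *
          (ph (fun x => if x = some p then γ else 1))⁻¹ with hS0
    set S' : Mono (Option T) (G × Z) := B⁻¹ * S0 * B with hS'
    have hS0r : IsRefl S0 := ⟨_, p, rfl⟩
    have hS'r : IsRefl S' := by
      have := hS0r.conj B⁻¹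
      rwa [inv_inv] at this
    set D' : Option T → Z := fun x => D1 (B.perm x) * D (S'.perm⁻¹ x) with hD'
    set P : Mono (Option T) (G × Z) :=
      mt (Equiv.swap p q) (fun t => if t = p then zp else if t = q then zp⁻¹ else 1) with hP
    -- the shorter word
    have hUL : (UL (l1 ++ (a', p) :: (1, q) :: l2) b : Mono (Option T) (G × Z))
        = A * (tau p * tau q) * B := by
      rw [UL_append, UL_cons, UL_cons, dg_one, hA, hB]
      simp only [one_mul, mul_assoc]
    set l' : List (G × T) := l1 ++ (pushT a' (l2, b)).1 with hl'def
    set b' : G := (pushT a' (l2, b)).2 with hb'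
    have hUL' : (UL l' b' : Mono (Option T) (G × Z)) = A * B := by
      rw [hl'def, UL_append, hb', UL_pushT, hA, hB, mul_assoc]
    have hsnd : l'.map Prod.snd = l1.map Prod.snd ++ l2.map Prod.snd := by
      rw [hl'def, List.map_append, pushT_snd]
    have hlen : l'.length + 2 = (l1 ++ (a', p) :: (1, q) :: l2).length := by
      have := congrArg List.length hsnd
      simp only [List.length_map, List.length_append] at this
      rw [this]; simp; ring
    have hnd'' : (l'.map Prod.snd).Nodup := by
      rw [hsnd]
      refine List.Nodup.sublist ?_ hnd'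
      exact List.Sublist.append_left ((List.sublist_cons_self _ _).trans
        (List.sublist_cons_self _ _)) _
    have htot' : tot (tyl ty l', b') = Coprod.inl g := by
      rw [← htot]
      have e1 : tyl ty (l1 ++ (a', p) :: (1, q) :: l2)
          = tyl ty l1 ++ (a', x, s) :: (1, x, !s) :: tyl ty l2 := by
        simp [tyl, hp, hq]
      rw [e1, tot_remove]
      have e2 : tyl ty l' = tyl ty l1 ++ tyl ty (pushT a' (l2, b)).1 := by
        simp [tyl, hl'def]
      rw [e2]
      have e3 := tyl_pushT ty a' l2 b
      rw [← e3]
      simp only [tot, ev_append, mul_assoc, hb']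
    obtain ⟨π', z', ζ, R', hR', hlenR, hinv, hz, hfix, hty, hmain⟩ :=
      ih l'.length (by omega) l' b' rfl hnd'' htot' D'
    have hpl' : p ∉ l'.map Prod.snd := by
      rw [hsnd]; simp only [List.mem_append, not_or]; exact ⟨hp1, hp2⟩
    have hql' : q ∉ l'.map Prod.snd := by
      rw [hsnd]; simp only [List.mem_append, not_or]; exact ⟨hq1, hq2⟩
    have hπp := hfix p hpl'
    have hπq := hfix q hql'
    have hne : ∀ t, t ≠ p → t ≠ q → π' t ≠ p ∧ π' t ≠ q := by
      intro t h1 h2
      constructor
      · intro h; apply h1; rw [← hinv t, h, hπp.1]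
      · intro h; apply h2; rw [← hinv t, h, hπq.1]
    refine ⟨π' * Equiv.swap p q, fun t => z' (Equiv.swap p q t) *
      (if t = p then zp else if t = q then zp⁻¹ else 1), ζ, S' :: R', ?_, ?_, ?_, ?_, ?_, ?_, ?_⟩
    · intro r hr
      rcases List.mem_cons.1 hr with rfl | hr
      · exact hS'r
      · exact hR' r hr
    · simp only [List.length_cons]; omega
    · intro t
      by_cases h1 : t = p
      · subst h1; simp [hπq.1, hπp.1]
      · by_cases h2 : t = q
        · subst h2; simp [hπq.1, hπp.1]
        · have := hne t h1 h2
          simp only [Equiv.Perm.mul_apply]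
          rw [Equiv.swap_apply_of_ne_of_ne h1 h2, Equiv.swap_apply_of_ne_of_ne this.1 this.2, hinv]
    · intro t
      by_cases h1 : t = p
      · subst h1
        simp [hπq.1, hπp.1, hπq.2, hπp.2, hpq.symm]
      · by_cases h2 : t = q
        · subst h2
          simp [hπq.1, hπp.1, hπq.2, hπp.2, hpq.symm]
        · have := hne t h1 h2
          have f1 : Equiv.swap p q t = t := Equiv.swap_apply_of_ne_of_ne h1 h2
          have f2 : (π' * Equiv.swap p q) t = π' t := by
            rw [Equiv.Perm.mul_apply, f1]
          have f3 : Equiv.swap p q (π' t) = π' t := Equiv.swap_apply_of_ne_of_ne this.1 this.2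
          simp only [f1, f2, f3, h1, h2, this.1, this.2, if_false, mul_one, hz]
    · intro t ht
      have h1 : t ≠ p := by rintro rfl; exact ht (by simp)
      have h2 : t ≠ q := by rintro rfl; exact ht (by simp)
      have h3 : t ∉ l'.map Prod.snd := by
        rw [hsnd]; intro h; apply ht
        simp only [List.map_append, List.mem_append, List.map_cons, List.mem_cons] at h ⊢
        tauto
      simp only [Equiv.Perm.mul_apply]
      rw [Equiv.swap_apply_of_ne_of_ne h1 h2]
      simp [h1, h2, hfix t h3]
    · intro t ht
      by_cases h1 : t = p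
      · subst h1; simp [hπq.1, hp, hq]
      · by_cases h2 : t = q
        · subst h2; simp [hπp.1, hp, hq]
        · simp only [Equiv.Perm.mul_apply]
          rw [Equiv.swap_apply_of_ne_of_ne h1 h2]
          apply hty
          rw [hsnd]
          simp only [List.map_append, List.mem_append, List.map_cons, List.mem_cons] at ht ⊢
          tauto
    · -- the main identity
      have e1 : (mt (π' * Equiv.swap p q) (fun t => z' (Equiv.swap p q t) *
          (if t = p then zp else if t = q then zp⁻¹ else 1)) : Mono (Option T) (G × Z))
          = mt π' z' * P := by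
        rw [hP, mt_mul]
      have hPA : P * A = A * P := by
        symm
        have hPfix : ∀ y : Option T, y ≠ some p → y ≠ some q → Fix P y := by
          intro y h1 h2
          rcases y with _ | t
          · exact ⟨rfl, rfl⟩
          · have h1' : t ≠ p := fun h => h1 (by rw [h])
            have h2' : t ≠ q := fun h => h2 (by rw [h])
            refine ⟨?_, ?_⟩
            · simp only [hP, mt, Equiv.optionCongr_apply, Option.map_some]
              rw [Equiv.swap_apply_of_ne_of_ne h1' h2']
            · simp [hP, mt, h1', h2']
        apply commute_of_fix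
        intro x
        by_cases h1 : x = some p
        · left
          rw [h1]
          refine ⟨hAp, ?_⟩
          have : P.perm (some p) = some q := by simp [hP, mt]
          rw [this]; exact hAq
        · by_cases h2 : x = some q
          · left
            rw [h2]
            refine ⟨hAq, ?_⟩
            have : P.perm (some q) = some p := by simp [hP, mt]
            rw [this]; exact hAp
          · right
            refine ⟨hPfix x h1 h2, hPfix _ ?_ ?_⟩
            · intro h; apply h1; exact A.perm.injective (h.trans hAp.1.symm)
            · intro h; apply h2; exact A.perm.injective (h.trans hAq.1.symm)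
      have e2 : P * (tau p * tau q) = ph D1 * S0 := fold_id hpq zp γ
      have e3 : ph D1 * S0 * B * ph D = B * ph D' * S' := by
        have f1 : ph D1 * S0 * B = B * ph (fun x => D1 (B.perm x)) * S' := by
          rw [← ph_mul_comm, hS']; group
        have f2 : S' * ph D = ph (fun x => D (S'.perm⁻¹ x)) * S' := mul_ph_comm D S'
        rw [f1, mul_assoc, f2, ← mul_assoc, mul_assoc B, ph_mul]
      calc _ = mt π' z' * P * (A * (tau p * tau q) * B) * ph D * (S' * R'.prod) := by
            rw [e1, hUL, List.prod_cons]
        _ = mt π' z' * A * (P * (tau p * tau q) * B * ph D) * S' * R'.prod := by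
            have : mt π' z' * P * (A * (tau p * tau q) * B) = mt π' z' * (P * A) * (tau p * tau q) * B := by
              group
            rw [this, hPA]; group
        _ = mt π' z' * A * (B * ph D' * S') * S' * R'.prod := by rw [e2, e3]
        _ = mt π' z' * (A * B) * ph D' * (S' * S') * R'.prod := by group
        _ = base (l'.map Prod.snd) D' u g ζ := by
            rw [hS'r.mul_self, mul_one, ← hUL', hmain]
        _ = _ := by
            have hS'inv : S'.perm⁻¹ = S'.perm := by
              rw [inv_eq_iff_mul_eq_one, ← Mono.mul_perm, hS'r.mul_self]; rfl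
            have hS'perm : ∀ y, S'.perm y = B.perm⁻¹ (Equiv.swap none (some p) (B.perm y)) := by
              intro y
              simp [hS', hS0, ph, tau]
            have hBpi : B.perm⁻¹ (some p) = some p := by
              rw [Equiv.Perm.inv_eq_iff_eq]; exact hBp.1.symm
            have hkey : ∀ t : T, (if t ∈ l'.map Prod.snd then u else D' (some t)) =
                (if t ∈ (l1 ++ (a', p) :: (1, q) :: l2).map Prod.snd then u else D (some t)) := by
              intro t
              by_cases h1 : t = p
              · subst h1
                rw [if_neg hpl', if_pos (by simp)]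
                simp only [hD', hD1, hS'inv, hS'perm, hBp.1]
                have hcomm : ∀ x y v : Z, x * (y⁻¹ * (v * x⁻¹)) * y = v := by
                  intro x y v
                  calc x * (y⁻¹ * (v * x⁻¹)) * y = (x * x⁻¹) * (y⁻¹ * y) * v := by ac_rfl
                    _ = v := by simp
                simp [hγ, hzp, hcomm]
              · by_cases h2 : t = q
                · subst h2
                  rw [if_neg hql', if_pos (by simp)]
                  have e4 : Equiv.swap (none : Option T) (some p) (some t) = some t :=
                    Equiv.swap_apply_of_ne_of_ne (by simp) (by simpa using h1)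
                  have e5 : B.perm⁻¹ (some t) = some t := by
                    rw [Equiv.Perm.inv_eq_iff_eq]; exact hBq.1.symm
                  simp only [hD', hD1, hS'inv, hS'perm, hBq.1, e4, e5]
                  simp [h1, hzp]
                · by_cases h3 : t ∈ l'.map Prod.snd
                  · rw [if_pos h3, if_pos]
                    rw [hsnd] at h3
                    simp only [List.map_append, List.mem_append, List.map_cons, List.mem_cons] at h3 ⊢
                    tauto
                  · have h4 : t ∉ (l1 ++ (a', p) :: (1, q) :: l2).map Prod.snd := by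
                      intro h; apply h3; rw [hsnd]
                      simp only [List.map_append, List.mem_append, List.map_cons, List.mem_cons] at h ⊢
                      tauto
                    rw [if_neg h3, if_neg h4]
                    have h5 : t ∉ l2.map Prod.snd := by
                      intro h; apply h3; rw [hsnd]; exact List.mem_append_right _ h
                    have hBt : Fix B (some t) := fix_UL h5
                    have e4 : Equiv.swap (none : Option T) (some p) (some t) = some t :=
                      Equiv.swap_apply_of_ne_of_ne (by simp) (by simpa using h1)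
                    have e5 : B.perm⁻¹ (some t) = some t := by
                      rw [Equiv.Perm.inv_eq_iff_eq]; exact hBt.1.symm
                    simp only [hD', hD1, hS'inv, hS'perm, hBt.1, e4, e5]
                    simp [h1, h2]
            have key : ∀ x, (base (l'.map Prod.snd) D' u g ζ : Mono (Option T) (G × Z)).lab x =
                (base ((l1 ++ (a', p) :: (1, q) :: l2).map Prod.snd) D u g ζ :
                  Mono (Option T) (G × Z)).lab x := by
              intro x
              rcases x with _ | t
              · rfl
              · simp only [base, Option.elim_some]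
                rw [hkey t]
            ext x
            · rfl
            · exact congrArg Prod.fst (key x)
            · exact congrArg Prod.snd (key x)

end south

end Crest.Agent.R174.MonoB
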