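import Mathlib
import Crest.Agent.R174.South785

/-!
# R174 (KLH), route B (helper785): NORTH, the product of blocks as reflections times face rotations
-/

set_option autoImplicit false
set_option linter.unusedSectionVars false
set_option linter.unusedSimpArgs false

namespace Crest.Agent.R174.MonoB

open Monoid
open Crest.Agent.R174.Red Crest.Agent.R174.Word

universe u

section north

variable {T : Type*} [DecidableEq T] {G : Type*} {Z : Type*} [Group G] [CommGroup Z]

/-- `V = R_1 ... R_r C` with reflections `R_i` -/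
def NR (r : ℕ) (V C : Mono (Option T) (G × Z)) : Prop :=
  ∃ R : List (Mono (Option T) (G × Z)), R.length = r ∧ (∀ x ∈ R, IsRefl x) ∧ V = R.prod * C

lemma prod_conj (B : Mono (Option T) (G × Z)) (R : List (Mono (Option T) (G × Z))) :
    (R.map fun x => B * x * B⁻¹).prod = B * R.prod * B⁻¹ := by
  induction R with
  | nil => simp
  | cons r R ih => simp only [List.map_cons, List.prod_cons, ih]; group

lemma NR.conj {r : ℕ} {V C : Mono (Option T) (G × Z)} (h : NR r V C)
    (B : Mono (Option T) (G × Z)) : NR r (B * V * B⁻¹) (B * C * B⁻¹) := by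
  obtain ⟨R, h1, h2, rfl⟩ := h
  refine ⟨R.map fun x => B * x * B⁻¹, by simpa using h1, ?_, ?_⟩
  · intro x hx
    obtain ⟨y, hy, rfl⟩ := List.mem_map.1 hx
    exact (h2 y hy).conj B
  · rw [prod_conj]; group

lemma NR.mul {r s : ℕ} {V V' C C' : Mono (Option T) (G × Z)} (h : NR r V C) (h' : NR s V' C') :
    NR (r + s) (V * V') (C * C') := by
  obtain ⟨R, h1, h2, rfl⟩ := h
  obtain ⟨R', h1', h2', rfl⟩ := h'
  refine ⟨R ++ R'.map fun x => C * x * C⁻¹, by simp [h1, h1'], ?_, ?_⟩
  · intro x hx
    rcases List.mem_append.1 hx with hx | hx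
    · exact h2 x hx
    · obtain ⟨y, hy, rfl⟩ := List.mem_map.1 hx
      exact (h2' y hy).conj C
  · rw [List.prod_append, prod_conj]; group

lemma NR.one : NR 0 (1 : Mono (Option T) (G × Z)) 1 := ⟨[], rfl, by simp, by simp⟩

lemma NR.refl_mul {r : ℕ} {V C S : Mono (Option T) (G × Z)} (h : NR r V C) (hS : IsRefl S) :
    NR (r + 1) (S * V) C := by
  obtain ⟨R, h1, h2, rfl⟩ := h
  refine ⟨S :: R, by simp [h1], ?_, by simp [mul_assoc]⟩
  intro x hx
  rcases List.mem_cons.1 hx with rfl | hx
  · exact hS
  · exact h2 x hx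

/-- the transposition of the letters `h` and `h'` -/
def ch (h h' : T) : Mono (Option T) (G × Z) := ⟨Equiv.swap (some h) (some h'), fun _ => 1⟩

lemma tau_tau {h h' : T} (hh : h ≠ h') :
    (tau h : Mono (Option T) (G × Z)) * tau h' = tau h' * ch h h' := by
  have key : ∀ x, ((tau h : Mono (Option T) (G × Z)) * tau h').perm x =
      (tau h' * ch h h' : Mono (Option T) (G × Z)).perm x := by
    intro x
    have hh' : h' ≠ h := hh.symm
    rcases x with _ | t
    · simp [tau, ch, hh, hh', Equiv.swap_apply_def]
    · by_cases h1 : t = h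
      · subst h1
        simp [tau, ch, hh, hh', Equiv.swap_apply_def]
      · by_cases h2 : t = h'
        · subst h2
          simp [tau, ch, hh, hh', h1, Equiv.swap_apply_def]
        · simp [tau, ch, hh, hh', h1, h2, Equiv.swap_apply_def]
  ext x
  · rw [key x]
  · rfl
  · rfl

lemma commute_dg {C : Mono (Option T) (G × Z)} (hC : Fix C none) (b : G) :
    C * dg b = dg b * C := by
  apply commute_of_fix
  intro x
  rcases x with _ | t
  · left; exact ⟨hC, hC⟩
  · right
    refine ⟨fix_dg b t, ?_⟩
    have h1 : C.perm (some t) ≠ none := by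
      intro h
      have := C.perm.injective (h.trans hC.1.symm)
      simp at this
    obtain ⟨s, hs⟩ := Option.ne_none_iff_exists'.1 h1
    rw [hs]; exact fix_dg b s

lemma commute_tau {C : Mono (Option T) (G × Z)} (hC : Fix C none) {h : T} (hh : Fix C (some h)) :
    C * tau h = tau h * C := by
  apply commute_of_fix
  intro x
  rcases x with _ | t
  · left; refine ⟨hC, ?_⟩
    have : (tau h : Mono (Option T) (G × Z)).perm none = some h := by simp [tau]
    rw [this]; exact hh
  · by_cases h1 : t = h
    · subst h1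
      left; refine ⟨hh, ?_⟩
      have : (tau t : Mono (Option T) (G × Z)).perm (some t) = none := by simp [tau]
      rw [this]; exact hC
    · right
      refine ⟨fix_tau (Ne.symm h1), ?_⟩
      have h2 : C.perm (some t) ≠ none := by
        intro h
        have := C.perm.injective (h.trans hC.1.symm)
        simp at this
      obtain ⟨s, hs⟩ := Option.ne_none_iff_exists'.1 h2
      rw [hs]
      apply fix_tau
      rintro rfl
      have := C.perm.injective (hs.trans hh.1.symm)
      simp at this
      exact h1 this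

lemma fix_ch_none (h h' : T) : Fix (ch h h' : Mono (Option T) (G × Z)) none := by
  refine ⟨?_, rfl⟩
  simp only [ch]
  exact Equiv.swap_apply_of_ne_of_ne (by simp) (by simp)

lemma fix_ch {h h' t : T} (h1 : t ≠ h) (h2 : t ≠ h') :
    Fix (ch h h' : Mono (Option T) (G × Z)) (some t) := by
  refine ⟨?_, rfl⟩
  simp only [ch]
  exact Equiv.swap_apply_of_ne_of_ne (by simpa using h1) (by simpa using h2)

/-- one stem letter -/
lemma NR.stem {r : ℕ} {V C : Mono (Option T) (G × Z)} (h : NR r V C) {t t' : T} (ht : t ≠ t')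
    (hC : Fix C none) (hC' : Fix C (some t')) (b : G) :
    NR (r + 1) (dg b * tau t * V * (dg b * tau t')⁻¹) (ch t t' * C) := by
  obtain ⟨R, h1, h2, rfl⟩ := h
  have e1 : dg b * tau t * (R.prod * C) * (dg b * tau t')⁻¹ =
      dg b * ((tau t * R.prod * (tau t)⁻¹) * (tau t' * (ch t t' * C))) * (dg b)⁻¹ := by
    have e2 : C * tau t' = tau t' * C := commute_tau hC hC'
    rw [mul_inv_rev, tau_inv, tau_inv]
    calc dg b * tau t * (R.prod * C) * (tau t' * (dg b)⁻¹)
        = dg b * (tau t * R.prod * (C * tau t')) * (dg b)⁻¹ := by simp only [mul_assoc]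
      _ = dg b * (tau t * R.prod * (tau t * (tau t * tau t') * C)) * (dg b)⁻¹ := by
          rw [e2, ← mul_assoc (tau t) (tau t), tau_mul_tau, one_mul]
      _ = _ := by rw [tau_tau ht]; simp only [mul_assoc]
  rw [e1]
  have h3 : NR (r + 1) ((tau t * R.prod * (tau t)⁻¹) * (tau t' * (ch t t' * C))) (ch t t' * C) := by
    refine ⟨(R.map fun x => tau t * x * (tau t)⁻¹) ++ [tau t'], by simp [h1], ?_, ?_⟩
    · intro x hx
      rcases List.mem_append.1 hx with hx | hx
      · obtain ⟨y, hy, rfl⟩ := List.mem_map.1 hx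
        exact (h2 y hy).conj _
      · rw [List.mem_singleton.1 hx]; exact isRefl_tau _
    · rw [List.prod_append, prod_conj]; simp only [List.prod_singleton, mul_assoc]
  have h4 := h3.conj (dg b)
  have h5 : Fix (ch t t' * C) none := (fix_ch_none _ _).mul hC
  rw [← commute_dg h5 b, mul_assoc (ch t t' * C), mul_inv_cancel, mul_one] at h4
  exact h4

/-- operators of stems, `q` = list of (label, up letter, down letter) -/
def stU (q : List (G × T × T)) : Mono (Option T) (G × Z) :=
  (q.map fun x => dg x.1 * tau x.2.1).prod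
def stD (q : List (G × T × T)) : Mono (Option T) (G × Z) :=
  (q.map fun x => dg x.1 * tau x.2.2).prod
def stC (q : List (G × T × T)) : Mono (Option T) (G × Z) :=
  (q.map fun x => ch x.2.1 x.2.2).prod

lemma fix_stC_none (q : List (G × T × T)) : Fix (stC q : Mono (Option T) (G × Z)) none := by
  induction q with
  | nil => simp only [stC, List.map_nil, List.prod_nil]; exact Fix.one _
  | cons x q ih =>
    simp only [stC, List.map_cons, List.prod_cons] at ih ⊢
    exact (fix_ch_none _ _).mul ih

lemma fix_stC {q : List (G × T × T)} {t : T} (h : ∀ x ∈ q, t ≠ x.2.1 ∧ t ≠ x.2.2) :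
    Fix (stC q : Mono (Option T) (G × Z)) (some t) := by
  induction q with
  | nil => simp only [stC, List.map_nil, List.prod_nil]; exact Fix.one _
  | cons x q ih =>
    simp only [stC, List.map_cons, List.prod_cons] at ih ⊢
    exact (fix_ch (h x (by simp)).1 (h x (by simp)).2).mul
      (ih fun y hy => h y (List.mem_cons_of_mem _ hy))

lemma NR.stems {r : ℕ} {V C : Mono (Option T) (G × Z)} (h : NR r V C) (hC : Fix C none) :
    ∀ (q : List (G × T × T)), (∀ x ∈ q, x.2.1 ≠ x.2.2 ∧ Fix C (some x.2.2)) →
      q.Pairwise (fun x y => x.2.2 ≠ y.2.1 ∧ x.2.2 ≠ y.2.2) →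
      NR (r + q.length) (stU q * V * (stD q)⁻¹) (stC q * C) := by
  intro q
  induction q with
  | nil => intro _ _; simpa [stU, stD, stC] using h
  | cons x q ih =>
    intro h1 h2
    rw [List.pairwise_cons] at h2
    have ih' := ih (fun y hy => h1 y (List.mem_cons_of_mem _ hy)) h2.2
    have h3 : Fix (stC q * C) none := (fix_stC_none q).mul hC
    have h4 : Fix (stC q * C) (some x.2.2) :=
      (fix_stC fun y hy => h2.1 y hy).mul (h1 x (by simp)).2
    have h5 := ih'.stem (h1 x (by simp)).1 h3 h4 x.1
    have e1 : (stU (x :: q) : Mono (Option T) (G × Z)) = dg x.1 * tau x.2.1 * stU q := by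
      simp [stU]
    have e2 : (stD (x :: q) : Mono (Option T) (G × Z)) = dg x.1 * tau x.2.2 * stD q := by
      simp [stD]
    have e3 : (stC (x :: q) : Mono (Option T) (G × Z)) = ch x.2.1 x.2.2 * stC q := by
      simp [stC]
    rw [e1, e2, e3, List.length_cons]
    have e4 : dg x.1 * tau x.2.1 * stU q * V * (dg x.1 * tau x.2.2 * stD q)⁻¹ =
        dg x.1 * tau x.2.1 * (stU q * V * (stD q)⁻¹) * (dg x.1 * tau x.2.2)⁻¹ := by group
    rw [e4, mul_assoc (ch _ _)]
    exact h5

/-- action of the word operator on the root -/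
lemma UL_none : ∀ (l : List (G × T)) (b : G), (l.map Prod.snd).Nodup →
    (UL l b : Mono (Option T) (G × Z)).perm none = (l.map Prod.snd).getLast? ∧
      (UL l b : Mono (Option T) (G × Z)).lab none = (b, 1)
  | [], b, _ => by simp [UL, dg]
  | [p], b, _ => by simp [UL_cons, UL, dg, tau]
  | p :: q :: l, b, h => by
      have hnd : ((q :: l).map Prod.snd).Nodup := by
        rw [List.map_cons, List.nodup_cons] at h; exact h.2
      have ih := UL_none (q :: l) b hnd
      have hp : p.2 ∉ (q :: l).map Prod.snd := by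
        rw [List.map_cons, List.nodup_cons] at h; exact h.1
      obtain ⟨t, ht⟩ : ∃ t, ((q :: l).map Prod.snd).getLast? = some t :=
        ⟨_, List.getLast?_eq_getLast_of_ne_nil (by simp)⟩
      have htp : t ≠ p.2 := by
        rintro rfl
        exact hp (List.mem_of_getLast? ht)
      have hfix : Fix (dg p.1 * tau p.2 : Mono (Option T) (G × Z)) (some t) :=
        (fix_dg _ _).mul (fix_tau (Ne.symm htp))
      rw [ht] at ih
      rw [UL_cons]
      refine ⟨?_, ?_⟩
      · rw [Mono.mul_perm, Equiv.Perm.mul_apply, ih.1, hfix.1]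
        rw [List.map_cons, List.getLast?_cons, ht]; rfl
      · rw [Mono.mul_lab, ih.1, hfix.2, ih.2, one_mul]

/-- action of the word operator on a letter -/
lemma UL_some {l1 l2 : List (G × T)} {a : G} {t : T} {b : G}
    (h : ((l1 ++ (a, t) :: l2).map Prod.snd).Nodup) :
    (UL (l1 ++ (a, t) :: l2) b : Mono (Option T) (G × Z)).perm (some t) =
        (l1.map Prod.snd).getLast? ∧
      (UL (l1 ++ (a, t) :: l2) b : Mono (Option T) (G × Z)).lab (some t) = (a, 1) := by
  rw [List.map_append, List.map_cons, List.nodup_append, List.nodup_cons] at h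
  have h1 := UL_none (Z := Z) l1 1 h.1
  have h2 : Fix (UL l2 b : Mono (Option T) (G × Z)) (some t) := fix_UL h.2.1.1
  rw [UL_append, UL_cons]
  refine ⟨?_, ?_⟩
  · simp only [Mono.mul_perm, Equiv.Perm.mul_apply, h2.1]
    have : (tau t : Mono (Option T) (G × Z)).perm (some t) = none := by simp [tau]
    rw [this]
    exact h1.1
  · simp only [Mono.mul_lab, Mono.mul_perm, Equiv.Perm.mul_apply, h2.1, h2.2]
    have : (tau t : Mono (Option T) (G × Z)).perm (some t) = none := by simp [tau]
    rw [this]
    have h3 : (dg a : Mono (Option T) (G × Z)).perm none = none := rfl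
    rw [h3, h1.2]
    simp [dg, tau]

end north

end Crest.Agent.R174.MonoB
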