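import Crest.Agent.R174.Red259

set_option autoImplicit false

/-!
# R174, W2: elements of the normal closure as products of blocks with nonempty stems, balance
-/

open Monoid

namespace Crest.Agent.R174.W259

open Crest.Agent.R174.Red

universe u

variable {G : Type u} [Group G] {n : ℕ}

/-- value of a block `(s, i, ε)`: `s * W_i^ε * s⁻¹` -/
def blockVal (W : Fin n → List (G × Fin n × Bool))
    (b : List (G × Fin n × Bool) × Fin n × Bool) : Coprod G (FreeGroup (Fin n)) :=
  ev b.1 * (bif b.2.2 then ev (W b.2.1) else (ev (W b.2.1))⁻¹) * (ev b.1)⁻¹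

lemma blockVal_inv (W : Fin n → List (G × Fin n × Bool))
    (b : List (G × Fin n × Bool) × Fin n × Bool) :
    (blockVal W b)⁻¹ = blockVal W (b.1, b.2.1, !b.2.2) := by
  obtain ⟨s, i, e⟩ := b
  cases e <;> simp [blockVal, mul_assoc]

/-- every element is `ev s` with `s` nonempty (needs an unknown) -/
lemma exists_ev_ne_nil (x : Fin n) (h : Coprod G (FreeGroup (Fin n))) :
    ∃ s : List (G × Fin n × Bool), s ≠ [] ∧ h = ev s := by
  obtain ⟨l, b, rfl⟩ := exists_ev h
  refine ⟨l ++ [(b, x, true), (1, x, false)], by simp, ?_⟩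
  simp [ev, lett, mul_assoc]

/-- elements of the normal closure are products of blocks with nonempty stems -/
theorem exists_blocks (W : Fin n → List (G × Fin n × Bool)) (h : Coprod G (FreeGroup (Fin n)))
    (hh : h ∈ Subgroup.normalClosure (Set.range fun i => ev (W i))) :
    ∃ bl : List (List (G × Fin n × Bool) × Fin n × Bool),
      (∀ b ∈ bl, b.1 ≠ []) ∧ h = (bl.map (blockVal W)).prod := by
  unfold Subgroup.normalClosure at hh
  induction hh using Subgroup.closure_induction with
  | mem x hx =>
    obtain ⟨a, ⟨i, rfl⟩, ha⟩ := Group.mem_conjugatesOfSet_iff.1 hx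
    obtain ⟨c, hc⟩ := isConj_iff.1 ha
    obtain ⟨s, hs, rfl⟩ := exists_ev_ne_nil i c
    refine ⟨[(s, i, true)], by simpa using hs, ?_⟩
    simp [blockVal, ← hc]
  | one => exact ⟨[], by simp, by simp⟩
  | mul x y hx hy ihx ihy =>
    obtain ⟨b1, h1, rfl⟩ := ihx
    obtain ⟨b2, h2, rfl⟩ := ihy
    refine ⟨b1 ++ b2, ?_, by simp⟩
    intro b hb
    rcases List.mem_append.1 hb with hb | hb
    · exact h1 b hb
    · exact h2 b hb
  | inv x hx ihx =>
    obtain ⟨b1, h1, rfl⟩ := ihx
    refine ⟨(b1.map fun b => (b.1, b.2.1, !b.2.2)).reverse, ?_, ?_⟩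
    · intro b hb
      rw [List.mem_reverse, List.mem_map] at hb
      obtain ⟨b', hb', rfl⟩ := hb
      exact h1 b' hb'
    · rw [List.prod_inv_reverse, List.map_reverse]
      congr 2
      rw [List.map_map, List.map_map]
      apply List.map_congr_left
      intro b _
      exact blockVal_inv W b

/-- exponent sums of a block -/
lemma expHom_blockVal (W : Fin n → List (G × Fin n × Bool))
    (b : List (G × Fin n × Bool) × Fin n × Bool) (j : Fin n) :
    Multiplicative.toAdd (expHom G n (blockVal W b)) j =
      (bif b.2.2 then (1 : ℤ) else -1) * expSum (W b.2.1) j := by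
  obtain ⟨s, i, e⟩ := b
  have h1 : expHom G n (blockVal W (s, i, e)) =
      expHom G n (bif e then ev (W i) else (ev (W i))⁻¹) := by
    simp only [blockVal, map_mul, map_inv]
    rw [mul_comm (expHom G n (ev s)), mul_inv_cancel_right]
  rw [h1]
  cases e
  · simp only [cond_false, map_inv, toAdd_inv, Pi.neg_apply, expHom_ev]; ring
  · simp only [cond_true, expHom_ev]; ring

/-- signed number of blocks of type `i` -/
def bal (bl : List (List (G × Fin n × Bool) × Fin n × Bool)) (i : Fin n) : ℤ :=
  (bl.map fun b => if b.2.1 = i then (bif b.2.2 then (1 : ℤ) else -1) else 0).sum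

lemma expHom_blocks (W : Fin n → List (G × Fin n × Bool))
    (bl : List (List (G × Fin n × Bool) × Fin n × Bool)) (j : Fin n) :
    Multiplicative.toAdd (expHom G n (bl.map (blockVal W)).prod) j =
      ∑ i, bal bl i * expSum (W i) j := by
  induction bl with
  | nil => simp [bal]
  | cons b bl ih =>
    rw [List.map_cons, List.prod_cons, map_mul, toAdd_mul, Pi.add_apply, ih, expHom_blockVal]
    have : ∀ i, bal (b :: bl) i = (if b.2.1 = i then (bif b.2.2 then (1 : ℤ) else -1) else 0)
        + bal bl i := by intro i; simp [bal]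
    simp only [this, add_mul, Finset.sum_add_distrib]
    congr 1
    rw [Finset.sum_eq_single b.2.1]
    · simp
    · intro i _ hi
      rw [if_neg (Ne.symm hi), zero_mul]
    · intro h; exact absurd (Finset.mem_univ _) h

/-- balance: as many positive as negative blocks of each type -/
theorem balanced (W : Fin n → List (G × Fin n × Bool))
    (htri : ∀ i j : Fin n, j < i → expSum (W i) j = 0) (hdiag : ∀ i, expSum (W i) i ≠ 0)
    (bl : List (List (G × Fin n × Bool) × Fin n × Bool)) (g : G)
    (hg : (Coprod.inl g : Coprod G (FreeGroup (Fin n))) = (bl.map (blockVal W)).prod) (i : Fin n) :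
    bal bl i = 0 := by
  have h1 : ∀ j, ∑ i, bal bl i * expSum (W i) j = 0 := by
    intro j
    rw [← expHom_blocks, ← hg, expHom_inl]
    rfl
  let M : Matrix (Fin n) (Fin n) ℤ := Matrix.of fun i j => expSum (W i) j
  have hdet : M.det ≠ 0 := by
    rw [Matrix.det_of_isUpperTriangular]
    · exact Finset.prod_ne_zero_iff.2 fun i _ => hdiag i
    · intro i j hij
      exact htri i j hij
  have h2 : Matrix.vecMul (bal bl) M = 0 := by
    funext j
    simpa [Matrix.vecMul, dotProduct, M] using h1 j
  have h3 := Matrix.eq_zero_of_vecMul_eq_zero hdet h2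
  exact congrFun h3 i

omit [Group G] in
/-- the same, as an equality of numbers of blocks -/
theorem balanced_count (bl : List (List (G × Fin n × Bool) × Fin n × Bool)) (i : Fin n)
    (h : bal bl i = 0) :
    bl.countP (fun b => b.2.1 = i ∧ b.2.2 = true) = bl.countP (fun b => b.2.1 = i ∧ b.2.2 = false) := by
  have key : ∀ bl : List (List (G × Fin n × Bool) × Fin n × Bool), bal bl i =
      (bl.countP (fun b => b.2.1 = i ∧ b.2.2 = true) : ℤ)
        - (bl.countP (fun b => b.2.1 = i ∧ b.2.2 = false) : ℤ) := by
    intro bl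
    induction bl with
    | nil => simp [bal]
    | cons b bl ih =>
      have : bal (b :: bl) i = (if b.2.1 = i then (bif b.2.2 then (1 : ℤ) else -1) else 0)
        + bal bl i := by simp [bal]
      rw [this, ih, List.countP_cons, List.countP_cons]
      obtain ⟨s, i', e⟩ := b
      by_cases hi : i' = i <;> cases e <;> simp [hi] <;> ring
  have := key bl
  omega

end Crest.Agent.R174.W259
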