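import Mathlib
import Crest.Agent.R174.North785
import Crest.Agent.R174.W2_259

/-!
# R174 (KLH), route B (helper785): the combinatorial factorisation
-/

set_option autoImplicit false
set_option linter.unusedSectionVars false
set_option linter.unusedSimpArgs false

namespace Crest.Agent.R174.MonoB

open Monoid
open Crest.Agent.R174.Red Crest.Agent.R174.Word Crest.Agent.R174.W259

universe u

section words

variable {T : Type*} [DecidableEq T] {G : Type u} {Z : Type*} [Group G] [CommGroup Z] {n : ℕ}

/-- product of words with trailing label -/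
def pmul (w w' : List (G × T) × G) : List (G × T) × G :=
  (w.1 ++ (pushT w.2 w').1, (pushT w.2 w').2)

/-- inverse word -/
def wInv : List (G × T) → List (G × T) × G
  | [] => ([], 1)
  | p :: l => pmul (wInv l) ([(1, p.2)], p.1⁻¹)

/-- operator of a word -/
def UW (w : List (G × T) × G) : Mono (Option T) (G × Z) := UL w.1 w.2

lemma UL_one_mul (l : List (G × T)) (b : G) :
    (UL l 1 : Mono (Option T) (G × Z)) * dg b = UL l b := by
  simp [UL, dg_one, mul_assoc]

lemma UW_pmul (w w' : List (G × T) × G) :
    (UW (pmul w w') : Mono (Option T) (G × Z)) = UW w * UW w' := by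
  obtain ⟨l, b⟩ := w
  obtain ⟨l', b'⟩ := w'
  simp only [UW, pmul]
  rw [UL_append, UL_pushT, ← mul_assoc, UL_one_mul]

lemma UW_wInv (l : List (G × T)) :
    (UW (wInv l) : Mono (Option T) (G × Z)) = (UL l 1)⁻¹ := by
  induction l with
  | nil => simp [wInv, UW, UL, dg_one]
  | cons p l ih =>
    rw [wInv, UW_pmul, ih, UL_cons]
    simp only [UW, UL, List.map_cons, List.map_nil, List.prod_cons, List.prod_nil, dg_one, one_mul,
      mul_one, mul_inv_rev, tau_inv, dg_inv]

lemma tot_pmul (ty : T → Fin n × Bool) (w w' : List (G × T) × G) :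
    tot (tyl ty (pmul w w').1, (pmul w w').2) =
      tot (tyl ty w.1, w.2) * tot (tyl ty w'.1, w'.2) := by
  obtain ⟨l, b⟩ := w
  obtain ⟨l', b'⟩ := w'
  have e1 : tyl ty (pmul (l, b) (l', b')).1 = tyl ty l ++ tyl ty (pushT b (l', b')).1 := by
    simp [tyl, pmul]
  have e2 : tot (tyl ty (pushT b (l', b')).1, (pushT b (l', b')).2) =
      Coprod.inl b * tot (tyl ty l', b') := by
    rw [tyl_pushT, tot_push]
  have e3 : (pmul (l, b) (l', b')).2 = (pushT b (l', b')).2 := rfl
  rw [e1, e3]
  simp only [tot, ev_append] at e2 ⊢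
  rw [mul_assoc, e2]
  simp only [mul_assoc]

lemma tot_wInv (ty ty' : T → Fin n × Bool) : ∀ (l : List (G × T)),
    (∀ p ∈ l, ty p.2 = ((ty' p.2).1, !(ty' p.2).2)) →
    tot (tyl ty (wInv l).1, (wInv l).2) = (ev (tyl ty' l))⁻¹
  | [], _ => by simp [wInv, tyl, tot, ev]
  | p :: l, h => by
      have ih := tot_wInv ty ty' l fun q hq => h q (List.mem_cons_of_mem _ hq)
      rw [wInv, tot_pmul, ih]
      have h1 := h p (by simp)
      have e1 : tyl ty' (p :: l) = (p.1, ty' p.2) :: tyl ty' l := rfl
      rw [e1, ev_cons, mul_inv_rev]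
      congr 1
      have e2 : tyl ty ([(1, p.2)] : List (G × T)) = [(1, ty p.2)] := rfl
      rcases hy : ty' p.2 with ⟨y, s⟩
      simp only [e2, h1, hy, tot, ev, List.map_cons, List.map_nil, List.prod_cons, List.prod_nil]
      cases s <;> simp [lett]

lemma letters_pmul (w w' : List (G × T) × G) :
    (pmul w w').1.map Prod.snd = w.1.map Prod.snd ++ w'.1.map Prod.snd := by
  obtain ⟨l', b'⟩ := w'
  simp only [pmul, List.map_append, pushT_snd]

lemma letters_wInv (l : List (G × T)) :
    (wInv l).1.map Prod.snd = (l.map Prod.snd).reverse := by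
  induction l with
  | nil => rfl
  | cons p l ih => rw [wInv, letters_pmul, ih]; simp

/-- product of a list of words -/
def wProd (ws : List (List (G × T) × G)) : List (G × T) × G := ws.foldr pmul ([], 1)

lemma UW_wProd (ws : List (List (G × T) × G)) :
    (UW (wProd ws) : Mono (Option T) (G × Z)) = (ws.map UW).prod := by
  induction ws with
  | nil => simp [wProd, UW, UL, dg_one]
  | cons w ws ih =>
    rw [List.map_cons, List.prod_cons, ← ih, ← UW_pmul]; rfl

lemma tot_wProd (ty : T → Fin n × Bool) (ws : List (List (G × T) × G)) :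
    tot (tyl ty (wProd ws).1, (wProd ws).2) = (ws.map fun w => tot (tyl ty w.1, w.2)).prod := by
  induction ws with
  | nil => simp [wProd, tot, tyl, ev]
  | cons w ws ih =>
    rw [List.map_cons, List.prod_cons, ← ih, ← tot_pmul]; rfl

lemma letters_wProd (ws : List (List (G × T) × G)) :
    (wProd ws).1.map Prod.snd = ws.flatMap fun w => w.1.map Prod.snd := by
  induction ws with
  | nil => rfl
  | cons w ws ih =>
    rw [List.flatMap_cons, ← ih, ← letters_pmul]; rfl

end words

section concrete

variable {G : Type u} [Group G] {n : ℕ}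

/-- faces of positive sign -/
abbrev FA (f : Fin n → ℕ) : Type := Σ i, Fin (f i)
/-- blocks -/
abbrev KA (f : Fin n → ℕ) : Type := FA f × Bool
/-- stem letters (of all blocks) -/
abbrev HA {f : Fin n → ℕ} (st : KA f → List (G × Fin n × Bool)) : Type :=
  Σ k : KA f, Fin (st k).length
/-- ports -/
abbrev PA (W : Fin n → List (G × Fin n × Bool)) (f : Fin n → ℕ) : Type :=
  Σ a : FA f, Fin (W a.1).length
/-- letter occurrences: `(h, true)` stem letter going up, `(h, false)` its mirror letter,
`(p, s)` letter of the relator in the block `(a, s)` -/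
abbrev TA (W : Fin n → List (G × Fin n × Bool)) {f : Fin n → ℕ}
    (st : KA f → List (G × Fin n × Bool)) : Type := HA st × Bool ⊕ PA W f × Bool

variable (W : Fin n → List (G × Fin n × Bool)) {f : Fin n → ℕ}
  (st : KA f → List (G × Fin n × Bool))

instance instDecTA : DecidableEq (TA W st) := instDecidableEqSum

/-- unknown and sign of a letter, before the flip -/
def ty0 : TA W st → Fin n × Bool
  | Sum.inl (h, _) => ((st h.1).get h.2).2
  | Sum.inr (p, _) => ((W p.1.1).get p.2).2

/-- unknown and sign of a letter -/
def ty : TA W st → Fin n × Bool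
  | Sum.inl (h, b) => (((st h.1).get h.2).2.1, if b then ((st h.1).get h.2).2.2
      else !((st h.1).get h.2).2.2)
  | Sum.inr (p, b) => (((W p.1.1).get p.2).2.1, if b then ((W p.1.1).get p.2).2.2
      else !((W p.1.1).get p.2).2.2)

/-- stem triples of a block -/
def qk (k : KA f) : List (G × TA W st × TA W st) :=
  (List.finRange (st k).length).map fun j =>
    (((st k).get j).1, Sum.inl (⟨k, j⟩, true), Sum.inl (⟨k, j⟩, false))

/-- relator letters of the face `a` with sign `s` -/
def lP (a : FA f) (s : Bool) : List (G × TA W st) :=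
  (List.finRange (W a.1).length).map fun j => (((W a.1).get j).1, Sum.inr (⟨a, j⟩, s))

/-- the word of a block -/
def word (k : KA f) : List (G × TA W st) × G :=
  pmul ((qk W st k).map fun x => (x.1, x.2.1), 1)
    (pmul (if k.2 then (lP W st k.1 true, 1) else wInv (lP W st k.1 false))
      (wInv ((qk W st k).map fun x => (x.1, x.2.2))))

section totals

lemma map_get_finRange {α : Type*} (l : List α) :
    (List.finRange l.length).map (fun j => l.get j) = l := by
  apply List.ext_getElem
  · simp
  · intro i h1 h2; simp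

lemma tyl_up (k : KA f) :
    tyl (ty W st) ((qk W st k).map fun x => (x.1, x.2.1)) = st k := by
  have : tyl (ty W st) ((qk W st k).map fun x => (x.1, x.2.1)) =
      (List.finRange (st k).length).map (fun j => (st k).get j) := by
    simp only [tyl, qk, List.map_map]
    rfl
  rw [this, map_get_finRange]

lemma tyl0_dn (k : KA f) :
    tyl (ty0 W st) ((qk W st k).map fun x => (x.1, x.2.2)) = st k := by
  have : tyl (ty0 W st) ((qk W st k).map fun x => (x.1, x.2.2)) =
      (List.finRange (st k).length).map (fun j => (st k).get j) := by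
    simp only [tyl, qk, List.map_map]
    rfl
  rw [this, map_get_finRange]

lemma tyl_lP (a : FA f) : tyl (ty W st) (lP W st a true) = W a.1 := by
  have : tyl (ty W st) (lP W st a true) =
      (List.finRange (W a.1).length).map (fun j => (W a.1).get j) := by
    simp only [tyl, lP, List.map_map]
    rfl
  rw [this, map_get_finRange]

lemma tyl0_lP (a : FA f) (s : Bool) : tyl (ty0 W st) (lP W st a s) = W a.1 := by
  have : tyl (ty0 W st) (lP W st a s) =
      (List.finRange (W a.1).length).map (fun j => (W a.1).get j) := by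
    simp only [tyl, lP, List.map_map]
    rfl
  rw [this, map_get_finRange]

lemma ty_false_inl (h : HA st) : ty W st (Sum.inl (h, false)) =
    ((ty0 W st (Sum.inl (h, false))).1, !(ty0 W st (Sum.inl (h, false))).2) := rfl
lemma ty_false_inr (p : PA W f) : ty W st (Sum.inr (p, false)) =
    ((ty0 W st (Sum.inr (p, false))).1, !(ty0 W st (Sum.inr (p, false))).2) := rfl

lemma tot_word (k : KA f) :
    tot (tyl (ty W st) (word W st k).1, (word W st k).2) = blockVal W (st k, k.1.1, k.2) := by
  unfold word
  rw [tot_pmul, tot_pmul]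
  have h1 : tot (tyl (ty W st) ((qk W st k).map fun x => (x.1, x.2.1)), (1 : G)) = ev (st k) := by
    rw [tyl_up]; simp [tot]
  have h3 : tot (tyl (ty W st) (wInv ((qk W st k).map fun x => (x.1, x.2.2))).1,
      (wInv ((qk W st k).map fun x => (x.1, x.2.2))).2) = (ev (st k))⁻¹ := by
    rw [tot_wInv (ty W st) (ty0 W st), tyl0_dn]
    intro p hp
    obtain ⟨x, hx, rfl⟩ := List.mem_map.1 hp
    simp only [qk, List.mem_map] at hx
    obtain ⟨j, -, rfl⟩ := hx
    rfl
  have h2 : tot (tyl (ty W st) (if k.2 then ((lP W st k.1 true, 1) : List (G × TA W st) × G)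
      else wInv (lP W st k.1 false)).1, (if k.2 then ((lP W st k.1 true, 1) : List (G × TA W st) × G)
      else wInv (lP W st k.1 false)).2) = (bif k.2 then ev (W k.1.1) else (ev (W k.1.1))⁻¹) := by
    obtain ⟨a, s⟩ := k
    cases s
    · simp only [cond_false, Bool.false_eq_true, if_false]
      rw [tot_wInv (ty W st) (ty0 W st), tyl0_lP]
      intro p hp
      simp only [lP, List.mem_map] at hp
      obtain ⟨j, -, rfl⟩ := hp
      rfl
    · simp only [cond_true, if_true]
      rw [tyl_lP]; simp [tot]
  rw [h1, h2, h3]
  simp only [blockVal, mul_assoc]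

end totals

section letters

lemma letters_word (k : KA f) : (word W st k).1.map Prod.snd =
    (List.finRange (st k).length).map (fun j => (Sum.inl (⟨k, j⟩, true) : TA W st)) ++
    ((if k.2 then (List.finRange (W k.1.1).length).map
        (fun j => (Sum.inr (⟨k.1, j⟩, true) : TA W st))
      else ((List.finRange (W k.1.1).length).map
        (fun j => (Sum.inr (⟨k.1, j⟩, false) : TA W st))).reverse) ++
    ((List.finRange (st k).length).map (fun j => (Sum.inl (⟨k, j⟩, false) : TA W st))).reverse) := by
  unfold word
  rw [letters_pmul, letters_pmul]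
  congr 1
  · simp [qk]
  · congr 1
    · obtain ⟨a, s⟩ := k
      cases s
      · simp [letters_wInv, lP]
      · simp [lP]
    · rw [letters_wInv]; simp [qk]

/-- the block of a letter -/
def blk : TA W st → KA f
  | Sum.inl (h, _) => h.1
  | Sum.inr (p, s) => (p.1, s)

lemma blk_word {k : KA f} {t : TA W st} (h : t ∈ (word W st k).1.map Prod.snd) :
    blk W st t = k := by
  rw [letters_word] at h
  obtain ⟨a, s⟩ := k
  simp only [List.mem_append, List.mem_reverse, List.mem_map] at h
  rcases h with ⟨j, -, rfl⟩ | h | ⟨j, -, rfl⟩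
  · rfl
  · cases s
    · simp only [Bool.false_eq_true, if_false, List.mem_reverse, List.mem_map] at h
      obtain ⟨j, -, rfl⟩ := h; rfl
    · simp only [if_true, List.mem_map] at h
      obtain ⟨j, -, rfl⟩ := h; rfl
  · rfl

lemma mem_word (t : TA W st) : t ∈ (word W st (blk W st t)).1.map Prod.snd := by
  rw [letters_word]
  simp only [List.mem_append, List.mem_reverse, List.mem_map]
  rcases t with ⟨⟨k, j⟩, b⟩ | ⟨⟨a, j⟩, b⟩
  · cases b
    · right; right; exact ⟨j, List.mem_finRange _, rfl⟩
    · left; exact ⟨j, List.mem_finRange _, rfl⟩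
  · right; left
    cases b
    · simp only [blk, Bool.false_eq_true, if_false, List.mem_reverse, List.mem_map]
      exact ⟨j, List.mem_finRange _, rfl⟩
    · simp only [blk, if_true, List.mem_map]
      exact ⟨j, List.mem_finRange _, rfl⟩

lemma nodup_word (k : KA f) : ((word W st k).1.map Prod.snd).Nodup := by
  rw [letters_word]
  have i1 : ∀ b : Bool, ((List.finRange (st k).length).map
      (fun j => (Sum.inl (⟨k, j⟩, b) : TA W st))).Nodup := by
    intro b
    refine (List.nodup_finRange _).map ?_
    intro j j' h
    simpa using h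
  have i2 : ∀ b : Bool, ((List.finRange (W k.1.1).length).map
      (fun j => (Sum.inr (⟨k.1, j⟩, b) : TA W st))).Nodup := by
    intro b
    refine (List.nodup_finRange _).map ?_
    intro j j' h
    simpa using h
  rw [List.nodup_append]
  refine ⟨i1 true, ?_, ?_⟩
  · rw [List.nodup_append]
    refine ⟨?_, List.nodup_reverse.2 (i1 false), ?_⟩
    · split_ifs
      · exact i2 true
      · exact List.nodup_reverse.2 (i2 false)
    · intro x hx y hy
      simp only [List.mem_reverse, List.mem_map] at hy
      obtain ⟨j, -, rfl⟩ := hy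
      split_ifs at hx
      · obtain ⟨j', -, rfl⟩ := List.mem_map.1 hx
        simp
      · obtain ⟨j', -, rfl⟩ := List.mem_map.1 (List.mem_reverse.1 hx)
        simp
  · intro x hx y hy
    obtain ⟨j, -, rfl⟩ := List.mem_map.1 hx
    rcases List.mem_append.1 hy with hy | hy
    · split_ifs at hy
      · obtain ⟨j', -, rfl⟩ := List.mem_map.1 hy
        simp
      · obtain ⟨j', -, rfl⟩ := List.mem_map.1 (List.mem_reverse.1 hy)
        simp
    · obtain ⟨j', -, rfl⟩ := List.mem_map.1 (List.mem_reverse.1 hy)
      simp

variable (ord : List (KA f))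

/-- the whole word -/
def wT : List (G × TA W st) × G := wProd (ord.map (word W st))

lemma letters_wT : (wT W st ord).1.map Prod.snd =
    ord.flatMap fun k => (word W st k).1.map Prod.snd := by
  rw [wT, letters_wProd, List.flatMap_map]

lemma nodup_wT (hnd : ord.Nodup) : ((wT W st ord).1.map Prod.snd).Nodup := by
  rw [letters_wT, List.nodup_flatMap]
  refine ⟨fun k _ => nodup_word W st k, ?_⟩
  refine hnd.imp ?_
  intro k k' hk
  rw [Function.onFun, List.disjoint_left]
  intro t h1 h2
  exact hk ((blk_word W st h1).symm.trans (blk_word W st h2))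

lemma mem_wT (hall : ∀ k, k ∈ ord) (t : TA W st) : t ∈ (wT W st ord).1.map Prod.snd := by
  rw [letters_wT, List.mem_flatMap]
  exact ⟨blk W st t, hall _, mem_word W st t⟩

lemma length_wT (hnd : ord.Nodup) (hall : ∀ k, k ∈ ord) :
    (wT W st ord).1.length = Fintype.card (TA W st) := by
  classical
  have h1 := List.toFinset_card_of_nodup (nodup_wT W st ord hnd)
  have h2 : ((wT W st ord).1.map Prod.snd).toFinset = Finset.univ := by
    ext t; simp only [List.mem_toFinset, Finset.mem_univ, iff_true]; exact mem_wT W st ord hall t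
  rw [h2, Finset.card_univ] at h1
  rw [h1, List.length_map]

end letters

end concrete

end Crest.Agent.R174.MonoB
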