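import Mathlib
import Crest.Agent.R174.Combi785

/-!
# R174 (KLH), route B (helper785): the face rotations and the final factorisation
-/

set_option autoImplicit false
set_option linter.unusedSectionVars false
set_option linter.unusedSimpArgs false

namespace Crest.Agent.R174.MonoB

open Monoid
open Crest.Agent.R174.Red Crest.Agent.R174.Word Crest.Agent.R174.W259

universe u

section stC

variable {T : Type*} [DecidableEq T] {G : Type*} {Z : Type*} [Group G] [CommGroup Z]

/-- same action on a point -/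
def Act (A : Mono (Option T) (G × Z)) (x y : Option T) (h : G × Z) : Prop :=
  A.perm x = y ∧ A.lab x = h

lemma Act.mul {A B : Mono (Option T) (G × Z)} {x y w : Option T} {h h' : G × Z}
    (hA : Act A y w h) (hB : Act B x y h') : Act (A * B) x w (h * h') := by
  refine ⟨?_, ?_⟩
  · simp [hB.1, hA.1]
  · simp [hB.1, hB.2, hA.2]

lemma Act.inv {A : Mono (Option T) (G × Z)} {x y : Option T} {h : G × Z}
    (hA : Act A x y h) : Act A⁻¹ y x h⁻¹ := by
  have h1 : A.perm⁻¹ y = x := by rw [Equiv.Perm.inv_eq_iff_eq]; exact hA.1.symm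
  exact ⟨h1, by rw [Mono.inv_lab, h1, hA.2]⟩

lemma act_fix {A : Mono (Option T) (G × Z)} {x : Option T} : Act A x x 1 ↔ Fix A x := Iff.rfl

lemma act_stC : ∀ (q : List (G × T × T)), (∀ x ∈ q, x.2.1 ≠ x.2.2) →
    q.Pairwise (fun x y => x.2.1 ≠ y.2.1 ∧ x.2.1 ≠ y.2.2 ∧ x.2.2 ≠ y.2.1 ∧ x.2.2 ≠ y.2.2) →
    ∀ x ∈ q, Act (stC q : Mono (Option T) (G × Z)) (some x.2.1) (some x.2.2) 1 ∧
      Act (stC q : Mono (Option T) (G × Z)) (some x.2.2) (some x.2.1) 1
  | [], _, _, x, hx => by simp at hx
  | y :: q, h1, h2, x, hx => by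
      rw [List.pairwise_cons] at h2
      have e : (stC (y :: q) : Mono (Option T) (G × Z)) = ch y.2.1 y.2.2 * stC q := by simp [stC]
      rw [e]
      rcases List.mem_cons.1 hx with rfl | hx
      · have f1 : Fix (stC q : Mono (Option T) (G × Z)) (some x.2.1) :=
          fix_stC fun z hz => ⟨(h2.1 z hz).1, (h2.1 z hz).2.1⟩
        have f2 : Fix (stC q : Mono (Option T) (G × Z)) (some x.2.2) :=
          fix_stC fun z hz => ⟨(h2.1 z hz).2.2.1, (h2.1 z hz).2.2.2⟩
        have g1 : Act (ch x.2.1 x.2.2 : Mono (Option T) (G × Z)) (some x.2.1) (some x.2.2) 1 :=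
          ⟨by simp [ch], rfl⟩
        have g2 : Act (ch x.2.1 x.2.2 : Mono (Option T) (G × Z)) (some x.2.2) (some x.2.1) 1 :=
          ⟨by simp [ch], rfl⟩
        have r1 := g1.mul f1
        have r2 := g2.mul f2
        rw [mul_one] at r1 r2
        exact ⟨r1, r2⟩
      · have ih := act_stC q (fun z hz => h1 z (List.mem_cons_of_mem _ hz)) h2.2 x hx
        have hxy := h2.1 x hx
        have f1 : Fix (ch y.2.1 y.2.2 : Mono (Option T) (G × Z)) (some x.2.2) :=
          fix_ch hxy.2.1.symm hxy.2.2.2.symm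
        have f2 : Fix (ch y.2.1 y.2.2 : Mono (Option T) (G × Z)) (some x.2.1) :=
          fix_ch hxy.1.symm hxy.2.2.1.symm
        have r1 := (act_fix.2 f1).mul ih.1
        have r2 := (act_fix.2 f2).mul ih.2
        rw [mul_one] at r1 r2
        exact ⟨r1, r2⟩

/-- action of a word operator on its `i`-th letter -/
lemma UL_getElem (l : List (G × T)) (b : G) (hnd : (l.map Prod.snd).Nodup) (i : ℕ)
    (hi : i < l.length) :
    Act (UL l b : Mono (Option T) (G × Z)) (some (l[i]).2)
      (if h : i = 0 then none else some (l[i-1]'(by omega)).2) ((l[i]).1, 1) := by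
  have e : l = l.take i ++ (l[i].1, l[i].2) :: l.drop (i + 1) := by
    conv_lhs => rw [← List.take_append_drop i l, List.drop_eq_getElem_cons hi]
  have h1 := UL_some (Z := Z) (l1 := l.take i) (l2 := l.drop (i + 1)) (a := (l[i]).1) (t := (l[i]).2)
    (b := b) (by rw [← e]; exact hnd)
  rw [← e] at h1
  refine ⟨?_, h1.2⟩
  rw [h1.1]
  by_cases h : i = 0
  · subst h; simp
  · rw [dif_neg h, List.map_take, List.getLast?_take, if_neg h, List.getElem?_map,
      List.getElem?_eq_getElem (by omega)]
    simp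

end stC

section concrete

variable {G : Type u} [Group G] {n : ℕ} {Z : Type*} [CommGroup Z]
variable (W : Fin n → List (G × Fin n × Bool)) {f : Fin n → ℕ}
  (st : KA f → List (G × Fin n × Bool)) (hW : ∀ i, 0 < (W i).length)

/-- cyclic predecessor -/
def pr {L : ℕ} (hL : 0 < L) (j : Fin L) : Fin L :=
  if j.1 = 0 then ⟨L - 1, by omega⟩ else ⟨j.1 - 1, by omega⟩

/-- the last letter of a face -/
def lastL (a : FA f) (s : Bool) : TA W st :=
  Sum.inr (⟨a, ⟨(W a.1).length - 1, Nat.sub_lt (hW a.1) one_pos⟩⟩, s)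

/-- the face rotation -/
def Cw (a : FA f) (s : Bool) : Mono (Option (TA W st)) (G × Z) :=
  tau (lastL W st hW a s) * UL (lP W st a s) 1

lemma nodup_lP (a : FA f) (s : Bool) : ((lP W st a s).map Prod.snd).Nodup := by
  have : (lP W st a s).map Prod.snd = (List.finRange (W a.1).length).map
      (fun j => (Sum.inr (⟨a, j⟩, s) : TA W st)) := by simp [lP]
  rw [this]
  refine (List.nodup_finRange _).map ?_
  intro j j' h
  simpa using h

lemma length_lP (a : FA f) (s : Bool) : (lP W st a s).length = (W a.1).length := by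
  simp [lP]

lemma getElem_lP (a : FA f) (s : Bool) (i : ℕ) (hi : i < (lP W st a s).length) :
    (lP W st a s)[i] = (((W a.1).get ⟨i, by simpa [lP] using hi⟩).1,
      Sum.inr (⟨a, ⟨i, by simpa [lP] using hi⟩⟩, s)) := by
  simp [lP]

lemma UL_lP_none (a : FA f) (s : Bool) :
    Act (UL (lP W st a s) 1 : Mono (Option (TA W st)) (G × Z)) none
      (some (lastL W st hW a s)) 1 := by
  have h := UL_none (Z := Z) (lP W st a s) 1 (nodup_lP W st a s)
  refine ⟨?_, h.2⟩
  rw [h.1]
  have hne : lP W st a s ≠ [] := by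
    intro h0
    have := length_lP W st a s
    rw [h0] at this
    have := hW a.1
    simp_all
  rw [List.getLast?_map, List.getLast?_eq_getElem?, length_lP,
    List.getElem?_eq_getElem (by rw [length_lP]; exact Nat.sub_lt (hW a.1) one_pos), getElem_lP]
  rfl

lemma Cw_none (a : FA f) (s : Bool) :
    Fix (Cw W st hW a s : Mono (Option (TA W st)) (G × Z)) none := by
  have h1 := UL_lP_none (Z := Z) W st hW a s
  have h2 : Act (tau (lastL W st hW a s) : Mono (Option (TA W st)) (G × Z))
      (some (lastL W st hW a s)) none 1 := ⟨by simp [tau], rfl⟩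
  have := h2.mul h1
  rw [mul_one] at this
  exact this

lemma Cw_port (a : FA f) (s : Bool) (j : Fin (W a.1).length) :
    Act (Cw W st hW a s : Mono (Option (TA W st)) (G × Z)) (some (Sum.inr (⟨a, j⟩, s)))
      (some (Sum.inr (⟨a, pr (hW a.1) j⟩, s))) (((W a.1).get j).1, 1) := by
  have hj : j.1 < (lP W st a s).length := by rw [length_lP]; exact j.2
  have h1 := UL_getElem (Z := Z) (lP W st a s) 1 (nodup_lP W st a s) j.1 hj
  rw [getElem_lP] at h1
  by_cases h0 : j.1 = 0
  · rw [dif_pos h0] at h1
    have h2 : Act (tau (lastL W st hW a s) : Mono (Option (TA W st)) (G × Z))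
      none (some (lastL W st hW a s)) 1 := ⟨by simp [tau], rfl⟩
    have h3 := h2.mul h1
    rw [one_mul] at h3
    have e : (lastL W st hW a s) = Sum.inr (⟨a, pr (hW a.1) j⟩, s) := by
      simp only [lastL, pr, h0, if_true]
    rw [← e]
    exact h3
  · rw [dif_neg h0, getElem_lP] at h1
    have h2 : Fix (tau (lastL W st hW a s) : Mono (Option (TA W st)) (G × Z))
        (some (Sum.inr (⟨a, ⟨j.1 - 1, by omega⟩⟩, s))) := by
      apply fix_tau
      simp only [lastL, ne_eq, Sum.inr.injEq, Prod.mk.injEq, and_true, Sigma.mk.injEq, heq_eq_eq,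
        true_and, Fin.mk.injEq]
      have := j.2
      omega
    have h3 := (act_fix.2 h2).mul h1
    rw [one_mul] at h3
    have e : (⟨j.1 - 1, by omega⟩ : Fin (W a.1).length) = pr (hW a.1) j := by
      simp only [pr, h0, if_false]
    rw [e] at h3
    exact h3

lemma Cw_other (a : FA f) (s : Bool) (t : TA W st) (ht : ∀ j, t ≠ Sum.inr (⟨a, j⟩, s)) :
    Fix (Cw W st hW a s : Mono (Option (TA W st)) (G × Z)) (some t) := by
  refine (fix_tau ?_).mul (fix_UL ?_)
  · intro h; exact ht _ h.symm
  · intro h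
    simp only [lP, List.map_map, List.mem_map, Function.comp] at h
    obtain ⟨j, -, h⟩ := h
    exact ht j h.symm

/-- the operator of a block -/
def Ub (k : KA f) : Mono (Option (TA W st)) (G × Z) := UW (word W st k)

/-- the face part of a block -/
def Cf (k : KA f) : Mono (Option (TA W st)) (G × Z) :=
  if k.2 then Cw W st hW k.1 true else (Cw W st hW k.1 false)⁻¹

/-- the closed-up block -/
def Cb (k : KA f) : Mono (Option (TA W st)) (G × Z) := stC (qk W st k) * Cf W st hW k

lemma Cf_none (k : KA f) : Fix (Cf W st hW k : Mono (Option (TA W st)) (G × Z)) none := by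
  unfold Cf
  split_ifs
  · exact Cw_none _ _ _ _ _
  · exact (Cw_none _ _ _ _ _).inv

lemma Cf_other (k : KA f) (t : TA W st) (ht : ∀ j, t ≠ Sum.inr (⟨k.1, j⟩, k.2)) :
    Fix (Cf W st hW k : Mono (Option (TA W st)) (G × Z)) (some t) := by
  obtain ⟨a, s⟩ := k
  unfold Cf
  cases s
  · simp only [Bool.false_eq_true, if_false]; exact (Cw_other _ _ _ _ _ _ ht).inv
  · simp only [if_true]; exact Cw_other _ _ _ _ _ _ ht

lemma NR_face (k : KA f) : NR 1 (if k.2 then UL (lP W st k.1 true) 1 else
      (UL (lP W st k.1 false) 1)⁻¹ : Mono (Option (TA W st)) (G × Z)) (Cf W st hW k) := by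
  obtain ⟨a, s⟩ := k
  have h0 : ∀ s, (UL (lP W st a s) 1 : Mono (Option (TA W st)) (G × Z)) =
      tau (lastL W st hW a s) * Cw W st hW a s := by
    intro s; rw [Cw, ← mul_assoc, tau_mul_tau, one_mul]
  unfold Cf
  cases s
  · simp only [Bool.false_eq_true, if_false]
    refine ⟨[(Cw W st hW a false)⁻¹ * tau (lastL W st hW a false) * (Cw W st hW a false)], rfl, ?_, ?_⟩
    · intro x hx
      rw [List.mem_singleton.1 hx]
      have := (isRefl_tau (G := G) (Z := Z) (lastL W st hW a false)).conj (Cw W st hW a false)⁻¹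
      rwa [inv_inv] at this
    · rw [h0, List.prod_singleton, mul_inv_rev, tau_inv]; group
  · simp only [if_true]
    exact ⟨[tau (lastL W st hW a true)], rfl, by
      intro x hx; rw [List.mem_singleton.1 hx]; exact isRefl_tau _, by
      rw [List.prod_singleton]; exact h0 true⟩

lemma UW_word (k : KA f) : (UW (word W st k) : Mono (Option (TA W st)) (G × Z)) =
    stU (qk W st k) * (if k.2 then UL (lP W st k.1 true) 1 else
      (UL (lP W st k.1 false) 1)⁻¹) * (stD (qk W st k))⁻¹ := by
  unfold word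
  rw [UW_pmul, UW_pmul, UW_wInv]
  have h1 : (UW ((qk W st k).map fun x => (x.1, x.2.1), (1 : G)) :
      Mono (Option (TA W st)) (G × Z)) = stU (qk W st k) := by
    simp only [UW, UL, stU, dg_one, mul_one, List.map_map]; rfl
  have h2 : (UL ((qk W st k).map fun x => (x.1, x.2.2)) (1 : G) :
      Mono (Option (TA W st)) (G × Z)) = stD (qk W st k) := by
    simp only [UL, stD, dg_one, mul_one, List.map_map]; rfl
  rw [h1, h2]
  obtain ⟨a, s⟩ := k
  cases s
  · simp only [Bool.false_eq_true, if_false]; rw [UW_wInv, mul_assoc]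
  · simp only [if_true, UW, mul_assoc]

lemma pairwise_qk (k : KA f) : (qk W st k).Pairwise
    (fun x y => x.2.1 ≠ y.2.1 ∧ x.2.1 ≠ y.2.2 ∧ x.2.2 ≠ y.2.1 ∧ x.2.2 ≠ y.2.2) := by
  unfold qk
  rw [List.pairwise_map]
  refine (List.nodup_finRange _).imp ?_
  intro j j' h
  refine ⟨?_, ?_, ?_, ?_⟩ <;> simp [h]

lemma NR_block (k : KA f) :
    NR (1 + (st k).length) (UW (word W st k) : Mono (Option (TA W st)) (G × Z))
      (Cb W st hW k) := by
  rw [UW_word]
  have h := (NR_face (Z := Z) W st hW k).stems (Cf_none W st hW k) (qk W st k) ?_ ?_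
  · have e : (qk W st k).length = (st k).length := by simp [qk]
    rw [e] at h
    exact h
  · intro x hx
    simp only [qk, List.mem_map] at hx
    obtain ⟨j, -, rfl⟩ := hx
    refine ⟨by simp, ?_⟩
    apply Cf_other
    intro j' h
    simp at h
  · exact (pairwise_qk W st k).imp fun h => ⟨h.2.2.1, h.2.2.2⟩

/-- the closed-up word -/
def Ctot (ord : List (KA f)) : Mono (Option (TA W st)) (G × Z) := (ord.map (Cb W st hW)).prod

lemma NR_tot (ord : List (KA f)) :
    NR (ord.map fun k => 1 + (st k).length).sum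
      (UW (wT W st ord) : Mono (Option (TA W st)) (G × Z)) (Ctot W st hW ord) := by
  rw [wT, UW_wProd, Ctot, List.map_map]
  induction ord with
  | nil => exact NR.one
  | cons k ord ih =>
    simp only [List.map_cons, List.prod_cons, List.sum_cons, Function.comp]
    exact (NR_block W st hW k).mul ih

/-- action of a closed-up block on the letters of other blocks -/
lemma Cb_other (k : KA f) (t : TA W st) (ht : blk W st t ≠ k) :
    Fix (Cb W st hW k : Mono (Option (TA W st)) (G × Z)) (some t) := by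
  refine (fix_stC ?_).mul (Cf_other _ _ _ _ _ ?_)
  · intro x hx
    simp only [qk, List.mem_map] at hx
    obtain ⟨j, -, rfl⟩ := hx
    constructor
    · rintro rfl; exact ht rfl
    · rintro rfl; exact ht rfl
  · rintro j rfl
    exact ht rfl

lemma Cb_none (k : KA f) : Fix (Cb W st hW k : Mono (Option (TA W st)) (G × Z)) none :=
  (fix_stC_none _).mul (Cf_none _ _ _ _)

lemma Cb_stem (k : KA f) (j : Fin (st k).length) (b : Bool) :
    Act (Cb W st hW k : Mono (Option (TA W st)) (G × Z)) (some (Sum.inl (⟨k, j⟩, b)))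
      (some (Sum.inl (⟨k, j⟩, !b))) 1 := by
  have h1 : Fix (Cf W st hW k : Mono (Option (TA W st)) (G × Z)) (some (Sum.inl (⟨k, j⟩, b))) :=
    Cf_other _ _ _ _ _ (by intro j' h; simp at h)
  have h2 := act_stC (Z := Z) (qk W st k) (by
      intro x hx
      simp only [qk, List.mem_map] at hx
      obtain ⟨j, -, rfl⟩ := hx
      simp) (pairwise_qk W st k)
      (((st k).get j).1, Sum.inl (⟨k, j⟩, true), Sum.inl (⟨k, j⟩, false)) (by
        simp only [qk, List.mem_map]
        exact ⟨j, List.mem_finRange _, rfl⟩)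
  have h3 : Act (stC (qk W st k) : Mono (Option (TA W st)) (G × Z)) (some (Sum.inl (⟨k, j⟩, b)))
      (some (Sum.inl (⟨k, j⟩, !b))) 1 := by
    cases b
    · exact h2.2
    · exact h2.1
  have h4 := h3.mul (act_fix.2 h1)
  rw [mul_one] at h4
  exact h4

lemma Cb_true (a : FA f) (j : Fin (W a.1).length) :
    Act (Cb W st hW (a, true) : Mono (Option (TA W st)) (G × Z)) (some (Sum.inr (⟨a, j⟩, true)))
      (some (Sum.inr (⟨a, pr (hW a.1) j⟩, true))) (((W a.1).get j).1, 1) := by
  have h1 : Act (Cf W st hW (a, true) : Mono (Option (TA W st)) (G × Z))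
      (some (Sum.inr (⟨a, j⟩, true)))
      (some (Sum.inr (⟨a, pr (hW a.1) j⟩, true))) (((W a.1).get j).1, 1) := by
    simp only [Cf, if_true]; exact Cw_port _ _ _ _ _ _
  have h2 : Fix (stC (qk W st (a, true)) : Mono (Option (TA W st)) (G × Z))
      (some (Sum.inr (⟨a, pr (hW a.1) j⟩, true))) := by
    apply fix_stC
    intro x hx
    simp only [qk, List.mem_map] at hx
    obtain ⟨j, -, rfl⟩ := hx
    simp
  have h3 := (act_fix.2 h2).mul h1
  rw [one_mul] at h3
  exact h3

lemma Cb_false (a : FA f) (j : Fin (W a.1).length) :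
    Act (Cb W st hW (a, false) : Mono (Option (TA W st)) (G × Z))
      (some (Sum.inr (⟨a, pr (hW a.1) j⟩, false)))
      (some (Sum.inr (⟨a, j⟩, false))) ((((W a.1).get j).1)⁻¹, 1) := by
  have h1 : Act (Cf W st hW (a, false) : Mono (Option (TA W st)) (G × Z))
      (some (Sum.inr (⟨a, pr (hW a.1) j⟩, false)))
      (some (Sum.inr (⟨a, j⟩, false))) ((((W a.1).get j).1)⁻¹, 1) := by
    simp only [Cf, Bool.false_eq_true, if_false]
    have := (Cw_port (Z := Z) W st hW a false j).inv
    rw [Prod.inv_mk, inv_one] at this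
    exact this
  have h2 : Fix (stC (qk W st (a, false)) : Mono (Option (TA W st)) (G × Z))
      (some (Sum.inr (⟨a, j⟩, false))) := by
    apply fix_stC
    intro x hx
    simp only [qk, List.mem_map] at hx
    obtain ⟨j, -, rfl⟩ := hx
    simp
  have h3 := (act_fix.2 h2).mul h1
  rw [one_mul] at h3
  exact h3

lemma Ctot_none (ord : List (KA f)) :
    Fix (Ctot W st hW ord : Mono (Option (TA W st)) (G × Z)) none := by
  induction ord with
  | nil => exact Fix.one _
  | cons k ord ih =>
    have : (Ctot W st hW (k :: ord) : Mono (Option (TA W st)) (G × Z)) =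
      Cb W st hW k * Ctot W st hW ord := by simp [Ctot]
    rw [this]
    exact (Cb_none _ _ _ _).mul ih

lemma Ctot_act (ord : List (KA f)) (hnd : ord.Nodup) {t t' : TA W st} {h : G × Z}
    (hbb : blk W st t' = blk W st t)
    (hact : Act (Cb W st hW (blk W st t) : Mono (Option (TA W st)) (G × Z)) (some t) (some t') h) :
    (blk W st t ∈ ord → Act (Ctot W st hW ord : Mono (Option (TA W st)) (G × Z)) (some t) (some t') h)
    ∧ (blk W st t ∉ ord → Fix (Ctot W st hW ord : Mono (Option (TA W st)) (G × Z)) (some t)) := by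
  induction ord with
  | nil => exact ⟨fun h => by simp at h, fun _ => Fix.one _⟩
  | cons k ord ih =>
    have e : (Ctot W st hW (k :: ord) : Mono (Option (TA W st)) (G × Z)) =
      Cb W st hW k * Ctot W st hW ord := by simp [Ctot]
    rw [List.nodup_cons] at hnd
    have ih := ih hnd.2
    rw [e]
    constructor
    · intro hm
      by_cases hk : blk W st t = k
      · have h1 : blk W st t ∉ ord := by rw [hk]; exact hnd.1
        have h2 := ih.2 h1
        rw [← hk]
        have h3 := hact.mul (act_fix.2 h2)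
        rw [mul_one] at h3
        exact h3
      · have h1 : blk W st t ∈ ord := by
          rcases List.mem_cons.1 hm with h | h
          · exact absurd h hk
          · exact h
        have h2 := ih.1 h1
        have h3 : Fix (Cb W st hW k : Mono (Option (TA W st)) (G × Z)) (some t') :=
          Cb_other _ _ _ _ _ (by rw [hbb]; exact hk)
        have h4 := (act_fix.2 h3).mul h2
        rw [one_mul] at h4
        exact h4
    · intro hm
      rw [List.mem_cons, not_or] at hm
      exact (Cb_other _ _ _ _ _ hm.1).mul (ih.2 hm.2)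

variable {W st}

/-- **Route B, combinatorial part.** -/
theorem combi (ord : List (KA f)) (hnd : ord.Nodup) (hall : ∀ k, k ∈ ord) (g : G)
    (hg : (Coprod.inl g : Coprod G (FreeGroup (Fin n))) =
      (ord.map fun k => blockVal W (st k, k.1.1, k.2)).prod) (u : Z) :
    ∃ (π : Equiv.Perm (TA W st)) (z : TA W st → Z) (ζ : Z)
      (R S : List (Mono (Option (TA W st)) (G × Z))) (C : Mono (Option (TA W st)) (G × Z)),
      (∀ r ∈ R, IsRefl r) ∧ (∀ r ∈ S, IsRefl r) ∧
      R.length = Fintype.card (KA f) + ∑ k, (st k).length ∧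
      2 * S.length = Fintype.card (TA W st) ∧
      (∀ t, π (π t) = t) ∧ (∀ t, z (π t) * z t = 1) ∧
      (∀ t, ty W st (π t) = ((ty W st t).1, !(ty W st t).2)) ∧
      mt π z * R.prod * C * S.prod = ⟨1, fun x => x.elim (g, ζ) fun _ => (1, u)⟩ ∧
      Act C none none 1 ∧
      (∀ (h : HA st) (b : Bool), Act C (some (Sum.inl (h, b))) (some (Sum.inl (h, !b))) 1) ∧
      (∀ (a : FA f) (j : Fin (W a.1).length), Act C (some (Sum.inr (⟨a, j⟩, true)))
        (some (Sum.inr (⟨a, pr (hW a.1) j⟩, true))) (((W a.1).get j).1, 1)) ∧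
      (∀ (a : FA f) (j : Fin (W a.1).length), Act C (some (Sum.inr (⟨a, pr (hW a.1) j⟩, false)))
        (some (Sum.inr (⟨a, j⟩, false))) ((((W a.1).get j).1)⁻¹, 1)) := by
  classical
  have htot : tot (tyl (ty W st) (wT W st ord).1, (wT W st ord).2) = Coprod.inl g := by
    rw [wT, tot_wProd, hg, List.map_map]
    congr 1
    apply List.map_congr_left
    intro k _
    exact tot_word W st k
  obtain ⟨π, z, ζ, S, hS, hSl, hinv, hz, -, hty, hmain⟩ :=
    south (Z := Z) (ty W st) u g _ (wT W st ord).1 (wT W st ord).2 rfl (nodup_wT W st ord hnd) htot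
      (fun _ => 1)
  obtain ⟨R, hRl, hR, hRC⟩ := NR_tot (Z := Z) W st hW ord
  refine ⟨π, z, ζ, R, S, Ctot W st hW ord, hR, hS, ?_, ?_, hinv, hz, ?_, ?_, Ctot_none _ _ _ _,
    ?_, ?_, ?_⟩
  · rw [hRl]
    have : (ord.map fun k => 1 + (st k).length).sum = ∑ k ∈ ord.toFinset, (1 + (st k).length) :=
      (List.sum_toFinset _ hnd).symm
    rw [this]
    have h2 : ord.toFinset = Finset.univ := by
      ext k; simp [hall k]
    rw [h2, Finset.sum_add_distrib]
    simp
  · rw [hSl, length_wT W st ord hnd hall]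
  · intro t; exact hty t (mem_wT W st ord hall t)
  · have h1 : (ph (fun _ => 1) : Mono (Option (TA W st)) (G × Z)) = 1 := rfl
    rw [h1, mul_one] at hmain
    have h2 : (UL (wT W st ord).1 (wT W st ord).2 : Mono (Option (TA W st)) (G × Z)) =
      R.prod * Ctot W st hW ord := hRC
    rw [h2] at hmain
    have h3 : mt π z * R.prod * Ctot W st hW ord * S.prod =
        mt π z * (R.prod * Ctot W st hW ord) * S.prod := by group
    rw [h3, hmain]
    have key : ∀ x, (base ((wT W st ord).1.map Prod.snd) (fun _ => 1) u g ζ :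
        Mono (Option (TA W st)) (G × Z)).lab x =
        (x.elim (g, ζ) fun _ => (1, u)) := by
      intro x
      rcases x with _ | t
      · rfl
      · simp only [base, Option.elim_some]
        rw [if_pos (mem_wT W st ord hall t)]
    ext x
    · rfl
    · exact congrArg Prod.fst (key x)
    · exact congrArg Prod.snd (key x)
  · rintro ⟨k, j⟩ b
    exact (Ctot_act W st hW ord hnd (t := Sum.inl (⟨k, j⟩, b)) (t' := Sum.inl (⟨k, j⟩, !b)) rfl
      (Cb_stem W st hW k j b)).1 (hall _)
  · intro a j
    exact (Ctot_act W st hW ord hnd (t := Sum.inr (⟨a, j⟩, true))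
      (t' := Sum.inr (⟨a, pr (hW a.1) j⟩, true)) rfl (Cb_true W st hW a j)).1 (hall _)
  · intro a j
    exact (Ctot_act W st hW ord hnd (t := Sum.inr (⟨a, pr (hW a.1) j⟩, false))
      (t' := Sum.inr (⟨a, j⟩, false)) rfl (Cb_false W st hW a j)).1 (hall _)

end concrete

end Crest.Agent.R174.MonoB
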