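import Crest.Agent.R174.W2_259

set_option autoImplicit false

/-!
# R174, F4: blocks indexed by `(Σ i, Fin (f i)) × Bool`
-/

open Monoid

namespace Crest.Agent.R174.W259

open Crest.Agent.R174.Red

universe u

variable {G : Type u} [Group G] {n : ℕ}

/-- `countP` as the cardinality of a set of indices -/
lemma countP_eq_card {α : Type*} (l : List α) (p : α → Bool) :
    l.countP p = Fintype.card {k : Fin l.length // p (l.get k) = true} := by
  rw [Fintype.card_subtype]
  have h := List.countP_map (p := p) (f := l.get) (l := List.finRange l.length)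
  rw [List.map_get_finRange] at h
  rw [h, List.countP_eq_length_filter, ← List.toFinset_card_of_nodup ((List.nodup_finRange _).filter _)]
  congr 1
  ext k
  simp

/-- blocks of a kernel element, indexed by `(Σ i, Fin (f i)) × Bool` (sign), `ord` is the order of
the blocks in the product; the first label of every stem is `1`. -/
theorem exists_kappa (W : Fin n → List (G × Fin n × Bool))
    (htri : ∀ i j : Fin n, j < i → expSum (W i) j = 0) (hdiag : ∀ i, expSum (W i) i ≠ 0) (g : G)
    (hg : (Coprod.inl g : Coprod G (FreeGroup (Fin n))) ∈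
      Subgroup.normalClosure (Set.range fun i => ev (W i))) :
    ∃ (f : Fin n → ℕ) (st : (Σ i, Fin (f i)) × Bool → List (G × Fin n × Bool))
      (ord : List ((Σ i, Fin (f i)) × Bool)),
      (∀ k, ∃ p t, st k = ((1 : G), p) :: t) ∧ ord.Nodup ∧ (∀ k, k ∈ ord) ∧
      (Coprod.inl g : Coprod G (FreeGroup (Fin n))) =
        (ord.map fun k => blockVal W (st k, k.1.1, k.2)).prod := by
  classical
  obtain ⟨bl, -, h2⟩ := exists_blocks W (Coprod.inl g) hg
  set f : Fin n → ℕ := fun i => bl.countP (fun b => b.2.1 = i ∧ b.2.2 = true) with hf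
  have hcard : ∀ p : Fin n × Bool,
      Fintype.card {k : Fin bl.length // (bl.get k).2 = p} = f p.1 := by
    intro p
    have h3 := balanced_count bl p.1 (balanced W htri hdiag bl g h2 p.1)
    have h4 : Fintype.card {k : Fin bl.length // (bl.get k).2 = p} =
        bl.countP (fun b => b.2.1 = p.1 ∧ b.2.2 = p.2) := by
      rw [countP_eq_card]
      apply Fintype.card_congr
      apply Equiv.subtypeEquivRight
      intro k
      simp [Prod.ext_iff]
    rw [h4]
    rcases p with ⟨i, _ | _⟩
    · exact h3.symm
    · rfl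
  let e1 : Fin bl.length ≃ Σ p : Fin n × Bool, {k : Fin bl.length // (bl.get k).2 = p} :=
    (Equiv.sigmaFiberEquiv fun k => (bl.get k).2).symm
  let e2 : (Σ p : Fin n × Bool, {k : Fin bl.length // (bl.get k).2 = p}) ≃
      Σ p : Fin n × Bool, Fin (f p.1) :=
    Equiv.sigmaCongrRight fun p => Fintype.equivFinOfCardEq (hcard p)
  let e3 : (Σ p : Fin n × Bool, Fin (f p.1)) ≃ (Σ i, Fin (f i)) × Bool :=
    { toFun := fun x => (⟨x.1.1, x.2⟩, x.1.2)
      invFun := fun y => ⟨(y.1.1, y.2), y.1.2⟩
      left_inv := fun x => rfl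
      right_inv := fun y => rfl }
  let e : Fin bl.length ≃ (Σ i, Fin (f i)) × Bool := (e1.trans e2).trans e3
  have he : ∀ k : Fin bl.length, (bl.get k).2 = ((e k).1.1, (e k).2) := by
    intro k
    rfl
  let st : (Σ i, Fin (f i)) × Bool → List (G × Fin n × Bool) := fun k =>
    (1, k.1.1, true) :: (1, k.1.1, false) :: (bl.get (e.symm k)).1
  have hst : ∀ k, ev (st k) = ev (bl.get (e.symm k)).1 := by
    intro k
    simp [st, ev, lett]
  refine ⟨f, st, (List.finRange bl.length).map e, fun k => ⟨_, _, rfl⟩,
    (List.nodup_finRange _).map e.injective, fun k => ?_, ?_⟩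
  · rw [List.mem_map]
    exact ⟨e.symm k, List.mem_finRange _, e.apply_symm_apply k⟩
  · rw [h2, List.map_map]
    congr 1
    conv_lhs => rw [← List.map_get_finRange bl]
    rw [List.map_map]
    apply List.map_congr_left
    intro k _
    have h5 : (bl.get k).2.1 = (e k).1.1 := congrArg Prod.fst (he k)
    have h6 : (bl.get k).2.2 = (e k).2 := congrArg Prod.snd (he k)
    simp only [Function.comp, blockVal, hst, Equiv.symm_apply_apply, h5, h6]

end Crest.Agent.R174.W259
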