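import Mathlib

set_option autoImplicit false

/-!
# R174, feedback lemma: eliminating constant ports from a unitary matrix.
-/

open Matrix
open scoped ComplexOrder

attribute [-instance] CStarMatrix.instHMulOfFintypeOfMulOfAddCommMonoid

namespace Crest.Agent.R174.Feedback

variable {P S : Type*} [Fintype P] [DecidableEq P] [Fintype S] [DecidableEq S]

/-- row vectors: unitary matrices preserve the norm -/
lemma vecMul_norm {N : Type*} [Fintype N] [DecidableEq N] (M : Matrix N N ℂ)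
    (hM : M ∈ Matrix.unitaryGroup N ℂ) (w : N → ℂ) :
    (w ᵥ* M) ⬝ᵥ star (w ᵥ* M) = w ⬝ᵥ star w := by
  rw [Matrix.star_vecMul, ← Matrix.dotProduct_mulVec, Matrix.mulVec_mulVec]
  have h := (Matrix.mem_unitaryGroup_iff).1 hM
  rw [Matrix.star_eq_conjTranspose] at h
  rw [h, Matrix.one_mulVec]

/-- the range condition -/
lemma range_le (M : Matrix (P ⊕ S) (P ⊕ S) ℂ) (hM : M ∈ Matrix.unitaryGroup (P ⊕ S) ℂ) (u : P → ℂ) :
    ∃ v : S → ℂ, (1 - M.toBlocks₂₂) *ᵥ v = M.toBlocks₂₁ *ᵥ u := by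
  have key : M.toBlocks₂₁ *ᵥ u ∈ LinearMap.range (Matrix.mulVecLin (1 - M.toBlocks₂₂)) := by
    rw [← Subspace.forall_mem_dualAnnihilator_apply_eq_zero_iff]
    intro φ hφ
    rw [Submodule.mem_dualAnnihilator] at hφ
    set y : S → ℂ := fun s => φ (Pi.single s 1) with hy
    have hφy : ∀ v : S → ℂ, φ v = y ⬝ᵥ v := by
      intro v
      conv_lhs => rw [pi_eq_sum_univ' v, map_sum]
      simp only [map_smul, smul_eq_mul, dotProduct, hy]
      refine Finset.sum_congr rfl fun i _ => ?_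
      rw [mul_comm]
    have h1 : y ᵥ* (1 - M.toBlocks₂₂) = 0 := by
      funext s
      have := hφ _ ⟨Pi.single s 1, rfl⟩
      rw [hφy, Matrix.mulVecLin_apply, Matrix.dotProduct_mulVec] at this
      simpa using this
    have h2 : y ᵥ* M.toBlocks₂₂ = y := by
      rw [Matrix.vecMul_sub, Matrix.vecMul_one, sub_eq_zero] at h1
      exact h1.symm
    have h3 : (Sum.elim (0 : P → ℂ) y) ᵥ* M = Sum.elim (y ᵥ* M.toBlocks₂₁) y := by
      conv_lhs => rw [← Matrix.fromBlocks_toBlocks M]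
      rw [Matrix.vecMul_fromBlocks]
      simp only [Sum.elim_comp_inl, Sum.elim_comp_inr, Matrix.zero_vecMul, zero_add, h2]
    have h4 := vecMul_norm M hM (Sum.elim (0 : P → ℂ) y)
    rw [h3] at h4
    have h5 : (y ᵥ* M.toBlocks₂₁) ⬝ᵥ star (y ᵥ* M.toBlocks₂₁) = 0 := by
      simpa [dotProduct, Fintype.sum_sum_type] using h4
    have h6 : y ᵥ* M.toBlocks₂₁ = 0 := dotProduct_self_star_eq_zero.1 h5
    rw [hφy, Matrix.dotProduct_mulVec, h6, zero_dotProduct]
  obtain ⟨v, hv⟩ := key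
  exact ⟨v, hv⟩

/-- **Feedback lemma.** -/
theorem feedback (M : Matrix (P ⊕ S) (P ⊕ S) ℂ) (hM : M ∈ Matrix.unitaryGroup (P ⊕ S) ℂ) :
    ∃ M' : Matrix P P ℂ, M' ∈ Matrix.unitaryGroup P ℂ ∧ ∀ J : Matrix P P ℂ,
      Module.finrank ℂ (LinearMap.ker (Matrix.mulVecLin (J - M'))) ≤
        Module.finrank ℂ (LinearMap.ker (Matrix.mulVecLin (Matrix.fromBlocks J 0 0 1 - M))) := by
  choose v hv using fun p : P => range_le M hM (Pi.single p 1)
  set K : Matrix S P ℂ := Matrix.of fun s p => v p s with hK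
  have h1 : (1 - M.toBlocks₂₂) * K = M.toBlocks₂₁ := by
    ext s p
    have := congrFun (hv p) s
    rw [Matrix.mulVec_single_one] at this
    exact this
  have h2 : M.toBlocks₂₁ + M.toBlocks₂₂ * K = K := by
    rw [← h1, Matrix.sub_mul, Matrix.one_mul]
    abel
  set M' : Matrix P P ℂ := M.toBlocks₁₁ + M.toBlocks₁₂ * K with hM'
  set E : Matrix (P ⊕ S) P ℂ := Matrix.fromRows (1 : Matrix P P ℂ) K with hE
  have h3 : M * E = Matrix.fromRows M' K := by
    conv_lhs => rw [← Matrix.fromBlocks_toBlocks M]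
    rw [hE, Matrix.fromBlocks_mul_fromRows, Matrix.mul_one, Matrix.mul_one, h2]
  have h4 : M'ᴴ * M' = 1 := by
    have h5 : (M * E)ᴴ * (M * E) = Eᴴ * E := by
      rw [Matrix.conjTranspose_mul, Matrix.mul_assoc, ← Matrix.mul_assoc Mᴴ]
      have h := (Matrix.mem_unitaryGroup_iff').1 hM
      rw [Matrix.star_eq_conjTranspose] at h
      rw [h, Matrix.one_mul]
    rw [h3, hE, Matrix.conjTranspose_fromRows_eq_fromCols_conjTranspose,
      Matrix.conjTranspose_fromRows_eq_fromCols_conjTranspose, Matrix.fromCols_mul_fromRows,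
      Matrix.fromCols_mul_fromRows, Matrix.conjTranspose_one, Matrix.one_mul] at h5
    exact add_right_cancel h5
  refine ⟨M', (Matrix.mem_unitaryGroup_iff').2 h4, fun J => ?_⟩
  -- the embedding u ↦ (u, K u)
  let L : (P → ℂ) →ₗ[ℂ] (P ⊕ S → ℂ) := Matrix.mulVecLin E
  have hL : ∀ u, L u = Sum.elim u (K *ᵥ u) := by
    intro u
    simp only [L, hE, Matrix.mulVecLin_apply, Matrix.fromRows_mulVec, Matrix.one_mulVec]
  have hker : ∀ u ∈ LinearMap.ker (Matrix.mulVecLin (J - M')),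
      L u ∈ LinearMap.ker (Matrix.mulVecLin (Matrix.fromBlocks J 0 0 1 - M)) := by
    intro u hu
    rw [LinearMap.mem_ker, Matrix.mulVecLin_apply] at hu ⊢
    have hML : M *ᵥ (L u) = Sum.elim (M' *ᵥ u) (K *ᵥ u) := by
      simp only [L, Matrix.mulVecLin_apply]
      rw [Matrix.mulVec_mulVec, h3, Matrix.fromRows_mulVec]
    rw [Matrix.sub_mulVec, hML, hL, Matrix.fromBlocks_mulVec]
    simp only [Sum.elim_comp_inl, Sum.elim_comp_inr, Matrix.zero_mulVec, add_zero, zero_add,
      Matrix.one_mulVec]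
    rw [Matrix.sub_mulVec, sub_eq_zero] at hu
    rw [hu, sub_self]
  refine LinearMap.finrank_le_finrank_of_injective
    (f := (L.domRestrict (LinearMap.ker (Matrix.mulVecLin (J - M')))).codRestrict
      (LinearMap.ker (Matrix.mulVecLin (Matrix.fromBlocks J 0 0 1 - M))) (fun u => hker u.1 u.2)) ?_
  intro a b hab
  have h : L a.1 = L b.1 := congrArg Subtype.val hab
  rw [hL, hL] at h
  apply Subtype.ext
  funext p
  exact congrFun h (Sum.inl p)

end Crest.Agent.R174.Feedback
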