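import Mathlib

/-!
# R174 (KLH), block P3: the unitary Gerstenhaber-Rothaus statement (GR).  Definitions.

Proof: helper328, post 3277.

* `UG 𝔸` : the compact group of unitary elements of a finite dimensional C*-algebra `𝔸`,
  `haarU 𝔸` its Haar probability measure.
* `Aop Φ σ : ξ ↦ (DΦ(σ)[ξ σ]) Φ(σ)⁻¹`, `DD ρ Φ = ∫_σ ∫_U det (ξ ↦ ρ (U* A_ξ U))`.
* `Fa`, `Po`, `KA`, `VA`, `Jm`, `refR`: the concrete data of a system of words.
-/

set_option autoImplicit false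
open MeasureTheory
open scoped Matrix.Norms.L2Operator

noncomputable section

namespace Crest.Agent.R174.GR

section abstract_part

variable (𝔸 : Type) [NormedRing 𝔸] [StarRing 𝔸] [CStarRing 𝔸] [NormedAlgebra ℂ 𝔸]
  [StarModule ℂ 𝔸] [FiniteDimensional ℂ 𝔸]

/-- the group of unitary elements of `𝔸` (own type, so that it carries its own measurable space) -/
def UG : Type := ↥(unitary 𝔸)

instance : Group (UG 𝔸) := inferInstanceAs (Group ↥(unitary 𝔸))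
instance : TopologicalSpace (UG 𝔸) := inferInstanceAs (TopologicalSpace ↥(unitary 𝔸))
instance : IsTopologicalGroup (UG 𝔸) := inferInstanceAs (IsTopologicalGroup ↥(unitary 𝔸))
instance : T2Space (UG 𝔸) := inferInstanceAs (T2Space ↥(unitary 𝔸))
instance : MeasurableSpace (UG 𝔸) := borel _
instance : BorelSpace (UG 𝔸) := ⟨rfl⟩

/-- coercion to the algebra -/
def UG.val {𝔸 : Type} [NormedRing 𝔸] [StarRing 𝔸] (σ : UG 𝔸) : 𝔸 := σ.1

variable {𝔸} in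
omit [CStarRing 𝔸] [NormedAlgebra ℂ 𝔸] [StarModule ℂ 𝔸] [FiniteDimensional ℂ 𝔸] in
theorem UG.val_mem (σ : UG 𝔸) : σ.val ∈ unitary 𝔸 := σ.2

variable {𝔸} in
omit [CStarRing 𝔸] [NormedAlgebra ℂ 𝔸] [StarModule ℂ 𝔸] [FiniteDimensional ℂ 𝔸] in
theorem UG.continuous_val : Continuous (UG.val : UG 𝔸 → 𝔸) := continuous_subtype_val

instance : CompactSpace (UG 𝔸) := by
  have : ProperSpace 𝔸 := FiniteDimensional.proper ℂ 𝔸
  have h1 : IsClosed (unitary 𝔸 : Set 𝔸) := isClosed_unitary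
  have h2 : Bornology.IsBounded (unitary 𝔸 : Set 𝔸) := by
    refine (Metric.isBounded_closedBall (x := (0 : 𝔸)) (r := 1)).subset ?_
    intro u hu
    rw [mem_closedBall_zero_iff]
    rcases subsingleton_or_nontrivial 𝔸 with h | h
    · simp [Subsingleton.elim u 0]
    · exact (CStarRing.norm_of_mem_unitary hu).le
  have h3 : IsCompact (unitary 𝔸 : Set 𝔸) := Metric.isCompact_of_isClosed_isBounded h1 h2
  exact isCompact_iff_compactSpace.1 h3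

/-- Haar probability measure on the unitary group -/
def haarU : Measure (UG 𝔸) := Measure.haarMeasure (⊤ : TopologicalSpace.PositiveCompacts (UG 𝔸))

instance : (haarU 𝔸).IsHaarMeasure := inferInstanceAs (Measure.haarMeasure _).IsHaarMeasure

instance : IsProbabilityMeasure (haarU 𝔸) :=
  ⟨by
    have := Measure.haarMeasure_self (K₀ := (⊤ : TopologicalSpace.PositiveCompacts (UG 𝔸)))
    simpa [haarU] using this⟩

variable {𝔸}
variable {𝕍 : Type} [NormedRing 𝕍] [StarRing 𝕍] [CStarRing 𝕍] [NormedAlgebra ℂ 𝕍]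
  [StarModule ℂ 𝕍] [FiniteDimensional ℂ 𝕍]

/-- `A_ξ(σ) = (DΦ(σ)[ξ σ]) Φ(σ)⁻¹` as a linear map of `ξ`. -/
def Aop (Φ : 𝔸 → 𝕍) (σ : 𝔸) : 𝔸 →ₗ[ℂ] 𝕍 where
  toFun ξ := fderiv ℂ Φ σ (ξ * σ) * Ring.inverse (Φ σ)
  map_add' x y := by simp [add_mul, map_add]
  map_smul' r x := by simp

/-- `Y ↦ ρ (U* Y U)` -/
def Cop (ρ : 𝕍 →ₗ[ℂ] 𝔸) (U : 𝕍) : 𝕍 →ₗ[ℂ] 𝔸 where
  toFun Y := ρ (star U * Y * U)
  map_add' x y := by simp [add_mul, mul_add]
  map_smul' r x := by simp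

/-- the average `∫_σ ∫_U det (ξ ↦ ρ (U* A_ξ(σ) U))` -/
def DD (ρ : 𝕍 →ₗ[ℂ] 𝔸) (Φ : 𝔸 → 𝕍) : ℂ :=
  ∫ σ : UG 𝔸, (∫ U : UG 𝕍, LinearMap.det (Cop ρ U.val ∘ₗ Aop Φ σ.val) ∂(haarU 𝕍)) ∂(haarU 𝔸)

/-- Target T1 (homotopy invariance). -/
def T1 (𝔸 𝕍 : Type) [NormedRing 𝔸] [StarRing 𝔸] [CStarRing 𝔸] [NormedAlgebra ℂ 𝔸]
    [StarModule ℂ 𝔸] [FiniteDimensional ℂ 𝔸]
    [NormedRing 𝕍] [StarRing 𝕍] [CStarRing 𝕍] [NormedAlgebra ℂ 𝕍]
    [StarModule ℂ 𝕍] [FiniteDimensional ℂ 𝕍] : Prop :=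
  (∀ ξ : 𝔸, LinearMap.trace ℂ 𝔸 (LinearMap.mulLeft ℂ ξ - LinearMap.mulRight ℂ ξ) = 0) →
  ∀ (ρ : 𝕍 →ₗ[ℂ] 𝔸) (Ψ : ℂ × 𝔸 → 𝕍),
    (∀ s : ℝ, s ∈ Set.Icc (0:ℝ) 1 → ∀ σ ∈ unitary 𝔸, ContDiffAt ℂ ⊤ Ψ ((s : ℂ), σ)) →
    (∀ s : ℝ, s ∈ Set.Icc (0:ℝ) 1 → ∀ σ ∈ unitary 𝔸, IsUnit (Ψ ((s : ℂ), σ))) →
    DD ρ (fun X => Ψ (0, X)) = DD ρ (fun X => Ψ (1, X))

/-- Target T2 (left multiplication by a constant unitary). -/
def T2 (𝔸 𝕍 : Type) [NormedRing 𝔸] [StarRing 𝔸] [CStarRing 𝔸] [NormedAlgebra ℂ 𝔸]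
    [StarModule ℂ 𝔸] [FiniteDimensional ℂ 𝔸]
    [NormedRing 𝕍] [StarRing 𝕍] [CStarRing 𝕍] [NormedAlgebra ℂ 𝕍]
    [StarModule ℂ 𝕍] [FiniteDimensional ℂ 𝕍] : Prop :=
  ∀ (ρ : 𝕍 →ₗ[ℂ] 𝔸) (Φ : 𝔸 → 𝕍) (M : 𝕍), M ∈ unitary 𝕍 →
    (∀ σ ∈ unitary 𝔸, DifferentiableAt ℂ Φ σ) →
    DD ρ (fun X => M * Φ X) = DD ρ Φ

end abstract_part

section concrete_part

/-- The data of a system of words over the unknowns `ι` (relators are also indexed by `ι`):
`Q` = positions (letters) of all relators, `rel q` = the relator of `q`, `var q` = its unknown,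
`pos q` = sign of the exponent. `A` = faces (of one sign), `c a` = type (relator) of the face. -/
structure Sys (ι A Q : Type) where
  c : A → ι
  rel : Q → ι
  var : Q → ι
  pos : Q → Bool

variable {ι A Q : Type} [Fintype ι] [LinearOrder ι] [Fintype A] [DecidableEq A]
  [Fintype Q] [DecidableEq Q]

/-- exponent matrix -/
def Sys.E (S : Sys ι A Q) (i x : ι) : ℤ :=
  ∑ q : Q, if S.rel q = i ∧ S.var q = x then (if S.pos q then 1 else -1) else 0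

/-- faces of type `i` -/
abbrev Sys.Fa (S : Sys ι A Q) (i : ι) : Type := {a : A // S.c a = i}

/-- ports with unknown `x` : a port is a pair (face, position in the relator of the face) -/
abbrev Sys.Po (S : Sys ι A Q) (x : ι) : Type := {p : A × Q // S.c p.1 = S.rel p.2 ∧ S.var p.2 = x}

abbrev Sys.KA (S : Sys ι A Q) : Type := (i : ι) → Matrix (S.Fa i) (S.Fa i) ℂ
abbrev Sys.VA (S : Sys ι A Q) : Type := (x : ι) → Matrix (S.Po x) (S.Po x) ℂ

/-- `J(X)` : at position `q` it acts on the faces by `X_{rel q}^{±1}`. -/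
def Sys.Jm (S : Sys ι A Q) (X : S.KA) : S.VA := fun x =>
  Matrix.of fun p p' =>
    if h : p.1.2 = p'.1.2 then
      (if S.pos p.1.2 then X (S.rel p.1.2) else Ring.inverse (X (S.rel p.1.2)))
        ⟨p.1.1, p.2.1⟩ ⟨p'.1.1, (p'.2.1).trans (congrArg S.rel h.symm)⟩
    else 0

example (S : Sys ι A Q) : NormedRing S.KA := inferInstance
example (S : Sys ι A Q) : StarRing S.KA := inferInstance
example (S : Sys ι A Q) : CStarRing S.KA := inferInstance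
example (S : Sys ι A Q) : NormedAlgebra ℂ S.KA := inferInstance
example (S : Sys ι A Q) : StarModule ℂ S.KA := inferInstance
example (S : Sys ι A Q) : FiniteDimensional ℂ S.KA := inferInstance
example (S : Sys ι A Q) : NormedRing S.VA := inferInstance
example (S : Sys ι A Q) : CStarRing S.VA := inferInstance
example (S : Sys ι A Q) : FiniteDimensional ℂ S.VA := inferInstance

/-- compression to the reference ports: `q0 x` is a position of relator `x` with unknown `x`. -/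
def Sys.refR (S : Sys ι A Q) (q0 : ι → Q) (hq : ∀ x, S.rel (q0 x) = x ∧ S.var (q0 x) = x) :
    S.VA →ₗ[ℂ] S.KA where
  toFun Y := fun x => (Y x).submatrix
    (fun a : S.Fa x => (⟨(a.1, q0 x), by rw [(hq x).1]; exact a.2, (hq x).2⟩ : S.Po x))
    (fun a : S.Fa x => (⟨(a.1, q0 x), by rw [(hq x).1]; exact a.2, (hq x).2⟩ : S.Po x))
  map_add' Y Z := by funext x; rfl
  map_smul' _ _ := by funext x; rfl

/-- Target T3 (evaluation). -/
def T3 (S : Sys ι A Q) : Prop :=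
  (∀ i x, x < i → S.E i x = 0) → (∀ i, S.E i i ≠ 0) →
  ∀ (q0 : ι → Q) (hq : ∀ x, S.rel (q0 x) = x ∧ S.var (q0 x) = x),
    DD (S.refR q0 hq) S.Jm ≠ 0

/-- Target T4 (localisation). -/
def T4 (S : Sys ι A Q) : Prop :=
  ∀ (M : S.VA), M ∈ unitary S.VA →
  (∀ σ : S.KA, σ ∈ unitary S.KA → ∃ x : ι,
    Module.finrank ℂ (LinearMap.ker (Matrix.mulVecLin (S.Jm σ x - M x))) < Fintype.card (S.Fa x)) →
  ∀ (q0 : ι → Q) (hq : ∀ x, S.rel (q0 x) = x ∧ S.var (q0 x) = x),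
    DD (S.refR q0 hq) (fun X => star M * S.Jm X) = 0

/-- Final statement (GR). -/
def GR (S : Sys ι A Q) : Prop :=
  (∀ i x, x < i → S.E i x = 0) → (∀ i, S.E i i ≠ 0) →
  ∀ (M : S.VA), M ∈ unitary S.VA →
    ∃ σ : S.KA, σ ∈ unitary S.KA ∧
      ∀ x : ι, Fintype.card (S.Fa x) ≤
        Module.finrank ℂ (LinearMap.ker (Matrix.mulVecLin (S.Jm σ x - M x)))

end concrete_part

end Crest.Agent.R174.GR
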