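import Mathlib
import Crest.Agent.R174.GRDefs

/-!
# R174 (KLH), block P3, G1: Haar integrals of derivatives; T2 (constants); T0 (trace of ad).
-/

set_option autoImplicit false
open MeasureTheory Topology Set

noncomputable section

namespace Crest.Agent.R174.GRHaar
open Crest.Agent.R174.GR

section general

variable {K : Type*} [TopologicalSpace K] [CompactSpace K] [MeasurableSpace K] [BorelSpace K]
variable {E : Type*} [NormedAddCommGroup E] [SecondCountableTopology E]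

/-- continuous functions on a compact space are integrable for finite measures. -/
theorem integrable_of_continuous (μ : Measure K) [IsFiniteMeasure μ] {f : K → E}
    (hf : Continuous f) : Integrable f μ := by
  obtain ⟨C, hC⟩ := (isCompact_range hf).isBounded.exists_norm_le
  exact (integrable_const C).mono' hf.aestronglyMeasurable
    (Filter.Eventually.of_forall fun x => hC _ ⟨x, rfl⟩)

variable [NormedSpace ℝ E]

omit [SecondCountableTopology E] in
/-- Continuity of parameter integrals over a compact space. -/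
theorem continuousOn_integral (μ : Measure K) [IsFiniteMeasure μ] {X : Type*} [TopologicalSpace X]
    {s : Set X} {F : X → K → E}
    (hF : ContinuousOn (fun p : X × K => F p.1 p.2) (s ×ˢ univ)) :
    ContinuousOn (fun x => ∫ σ, F x σ ∂μ) s :=
  continuousOn_integral_of_compact_support isCompact_univ hF (fun _ _ _ h => absurd (mem_univ _) h)

/-- Differentiation of parameter integrals over a compact space. -/
theorem hasDerivAt_integral (μ : Measure K) [IsFiniteMeasure μ] {F F' : ℝ → K → E} {s : Set ℝ}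
    {t₀ : ℝ} (hs : s ∈ 𝓝 t₀)
    (hF : ∀ t ∈ s, ∀ σ, HasDerivAt (fun t => F t σ) (F' t σ) t)
    (hFc : ∀ t ∈ s, Continuous (F t))
    (hF'c : ContinuousOn (fun p : ℝ × K => F' p.1 p.2) (s ×ˢ univ)) :
    HasDerivAt (fun t => ∫ σ, F t σ ∂μ) (∫ σ, F' t₀ σ ∂μ) t₀ := by
  obtain ⟨ε, hε, hball⟩ := Metric.nhds_basis_closedBall.mem_iff.1 hs
  have hcomp : IsCompact (Metric.closedBall t₀ ε ×ˢ (univ : Set K)) :=
    (isCompact_closedBall t₀ ε).prod isCompact_univ
  have hcont : ContinuousOn (fun p : ℝ × K => F' p.1 p.2) (Metric.closedBall t₀ ε ×ˢ univ) :=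
    hF'c.mono (prod_mono hball (Subset.refl _))
  obtain ⟨C, hC⟩ := (hcomp.image_of_continuousOn hcont).isBounded.exists_norm_le
  have hF'0 : Continuous (F' t₀) := by
    have h1 : ContinuousOn (fun σ : K => F' t₀ σ) univ := by
      refine hF'c.comp (f := fun σ : K => (t₀, σ)) (by fun_prop) ?_
      intro σ _
      exact ⟨mem_of_mem_nhds hs, mem_univ _⟩
    exact continuousOn_univ.1 h1
  refine (hasDerivAt_integral_of_dominated_loc_of_deriv_le (bound := fun _ => C)
    (Metric.closedBall_mem_nhds t₀ hε) ?_ ?_ ?_ ?_ ?_ ?_).2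
  · filter_upwards [hs] with t ht using (hFc t ht).aestronglyMeasurable
  · exact integrable_of_continuous μ (hFc t₀ (mem_of_mem_nhds hs))
  · exact hF'0.aestronglyMeasurable
  · exact Filter.Eventually.of_forall fun σ t ht => hC _ ⟨(t, σ), ⟨ht, mem_univ _⟩, rfl⟩
  · exact integrable_const C
  · exact Filter.Eventually.of_forall fun σ t ht => hF t (hball ht) σ

/-- The integral of a derivative along left translations is zero. -/
theorem integral_deriv_eq_zero [Group K] [IsTopologicalGroup K] (μ : Measure K)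
    [IsFiniteMeasure μ] [μ.IsMulLeftInvariant] {f : K → E} (hf : Continuous f) (γ : ℝ → K)
    {F' : ℝ → K → E}
    (hF : ∀ t σ, HasDerivAt (fun t => f (γ t * σ)) (F' t σ) t)
    (hF'c : Continuous (fun p : ℝ × K => F' p.1 p.2)) :
    ∫ σ, F' 0 σ ∂μ = 0 := by
  have h1 : HasDerivAt (fun t => ∫ σ, f (γ t * σ) ∂μ) (∫ σ, F' 0 σ ∂μ) 0 :=
    hasDerivAt_integral μ (s := univ) Filter.univ_mem (fun t _ σ => hF t σ)
      (fun t _ => hf.comp (continuous_const_mul (γ t))) hF'c.continuousOn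
  have h2 : (fun t => ∫ σ, f (γ t * σ) ∂μ) = fun _ => ∫ σ, f σ ∂μ := by
    funext t
    exact integral_mul_left_eq_self f (γ t)
  rw [h2] at h1
  exact h1.unique (hasDerivAt_const _ _)

end general

section unitary_part

variable {𝔸 : Type} [NormedRing 𝔸] [StarRing 𝔸] [CStarRing 𝔸] [NormedAlgebra ℂ 𝔸]
  [StarModule ℂ 𝔸] [FiniteDimensional ℂ 𝔸]
variable {E : Type*} [NormedAddCommGroup E] [NormedSpace ℂ E] [FiniteDimensional ℂ E]

/-- the one parameter group of unitaries generated by a skew-adjoint element -/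
def expU {ξ : 𝔸} (hξ : ξ ∈ skewAdjoint 𝔸) (t : ℝ) : UG 𝔸 :=
  ⟨NormedSpace.exp (t • ξ), by
    have : CompleteSpace 𝔸 := FiniteDimensional.complete ℂ 𝔸
    let _ : NormedAlgebra ℚ 𝔸 := NormedAlgebra.restrictScalars ℚ ℂ 𝔸
    refine NormedSpace.exp_mem_unitary_of_mem_skewAdjoint ?_
    rw [skewAdjoint.mem_iff] at hξ ⊢
    have h1 : t • ξ = (t : ℂ) • ξ := rfl
    rw [h1, star_smul, hξ]
    simp⟩

theorem expU_val {ξ : 𝔸} (hξ : ξ ∈ skewAdjoint 𝔸) (t : ℝ) :
    (expU hξ t).val = NormedSpace.exp (t • ξ) := rfl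

omit [CStarRing 𝔸] [NormedAlgebra ℂ 𝔸] [StarModule ℂ 𝔸] [FiniteDimensional ℂ 𝔸] in
theorem mul_val (σ τ : UG 𝔸) : (σ * τ).val = σ.val * τ.val := rfl

theorem integral_fderiv_eq_zero_of_skew {F : 𝔸 → E}
    (hF : ∀ σ ∈ unitary 𝔸, ContDiffAt ℂ 1 F σ) {ξ : 𝔸} (hξ : ξ ∈ skewAdjoint 𝔸) :
    ∫ σ : UG 𝔸, fderiv ℂ F σ.val (ξ * σ.val) ∂(haarU 𝔸) = 0 := by
  have : CompleteSpace 𝔸 := FiniteDimensional.complete ℂ 𝔸
  have : ProperSpace E := FiniteDimensional.proper ℂ E
  have hFcont : Continuous fun σ : UG 𝔸 => F σ.val := by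
    rw [continuous_iff_continuousAt]
    intro σ
    exact (hF σ.val σ.val_mem).continuousAt.comp UG.continuous_val.continuousAt
  have hdcont : ∀ σ ∈ unitary 𝔸, ContinuousAt (fderiv ℂ F) σ := by
    intro σ hσ
    exact ((hF σ hσ).fderiv_right (m := 0) (by norm_num)).continuousAt
  have hexp : Continuous fun t : ℝ => NormedSpace.exp (t • ξ) :=
    continuous_iff_continuousAt.2 fun t => (hasDerivAt_exp_smul_const ξ t).continuousAt
  have key := integral_deriv_eq_zero (K := UG 𝔸) (haarU 𝔸) (f := fun σ => F σ.val) hFcont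
    (expU hξ) (F' := fun t σ => fderiv ℂ F (NormedSpace.exp (t • ξ) * σ.val)
      (ξ * (NormedSpace.exp (t • ξ) * σ.val))) ?_ ?_
  · simpa using key
  · intro t σ
    have hmem : NormedSpace.exp (t • ξ) * σ.val ∈ unitary 𝔸 := (expU hξ t * σ).val_mem
    have h1 : HasDerivAt (fun t : ℝ => NormedSpace.exp (t • ξ) * σ.val)
        (ξ * (NormedSpace.exp (t • ξ) * σ.val)) t := by
      have := (hasDerivAt_exp_smul_const' ξ t).mul_const σ.val
      simpa [mul_assoc] using this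
    have h2 : HasFDerivAt F ((fderiv ℂ F (NormedSpace.exp (t • ξ) * σ.val)).restrictScalars ℝ)
        (NormedSpace.exp (t • ξ) * σ.val) :=
      ((hF _ hmem).differentiableAt (by norm_num)).hasFDerivAt.restrictScalars ℝ
    exact h2.comp_hasDerivAt t h1
  · rw [continuous_iff_continuousAt]
    rintro ⟨t, σ⟩
    have hmem : NormedSpace.exp (t • ξ) * σ.val ∈ unitary 𝔸 := (expU hξ t * σ).val_mem
    have hc : Continuous fun p : ℝ × UG 𝔸 => NormedSpace.exp (p.1 • ξ) * p.2.val :=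
      (hexp.comp continuous_fst).mul (UG.continuous_val.comp continuous_snd)
    have h1 : ContinuousAt (fun p : ℝ × UG 𝔸 =>
        fderiv ℂ F (NormedSpace.exp (p.1 • ξ) * p.2.val)) (t, σ) :=
      ContinuousAt.comp (f := fun p : ℝ × UG 𝔸 => NormedSpace.exp (p.1 • ξ) * p.2.val)
        (hdcont _ hmem) hc.continuousAt
    exact h1.clm_apply ((continuous_const.mul hc).continuousAt)

/-- **G1**: for `F` complex differentiable near the unitary group, the Haar integral of the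
derivative of `F` in direction `ξ σ` vanishes (for complex `ξ`). -/
theorem integral_fderiv_eq_zero {F : 𝔸 → E}
    (hF : ∀ σ ∈ unitary 𝔸, ContDiffAt ℂ 1 F σ) (ξ : 𝔸) :
    ∫ σ : UG 𝔸, fderiv ℂ F σ.val (ξ * σ.val) ∂(haarU 𝔸) = 0 := by
  have : ProperSpace E := FiniteDimensional.proper ℂ E
  have hdcont : ∀ σ ∈ unitary 𝔸, ContinuousAt (fderiv ℂ F) σ := by
    intro σ hσ
    exact ((hF σ hσ).fderiv_right (m := 0) (by norm_num)).continuousAt
  have hc : ∀ η : 𝔸, Continuous fun σ : UG 𝔸 => fderiv ℂ F σ.val (η * σ.val) := by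
    intro η
    rw [continuous_iff_continuousAt]
    intro σ
    have h1 : ContinuousAt (fun σ : UG 𝔸 => fderiv ℂ F σ.val) σ :=
      ContinuousAt.comp (f := fun σ : UG 𝔸 => σ.val) (hdcont _ σ.val_mem)
        UG.continuous_val.continuousAt
    exact h1.clm_apply ((continuous_const.mul UG.continuous_val).continuousAt)
  -- decompose ξ
  set a : 𝔸 := (1 / 2 : ℂ) • (ξ - star ξ) with ha
  set b : 𝔸 := (Complex.I / 2) • (ξ + star ξ) with hb
  have ha' : a ∈ skewAdjoint 𝔸 := by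
    rw [skewAdjoint.mem_iff, ha, star_smul, star_sub, star_star]
    have : star (1 / 2 : ℂ) = 1 / 2 := by simp
    rw [this, ← smul_neg, neg_sub]
  have hb' : b ∈ skewAdjoint 𝔸 := by
    rw [skewAdjoint.mem_iff, hb, star_smul, star_add, star_star]
    have : star (Complex.I / 2 : ℂ) = -(Complex.I / 2) := by
      simp [neg_div]
    rw [this, neg_smul, add_comm]
  have hdec : ξ = a + (-Complex.I) • b := by
    rw [ha, hb, smul_smul]
    have : -Complex.I * (Complex.I / 2) = 1 / 2 := by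
      have h := Complex.I_mul_I
      linear_combination (-1 / 2 : ℂ) * h
    rw [this, ← smul_add]
    have : ξ - star ξ + (ξ + star ξ) = (2 : ℂ) • ξ := by
      rw [two_smul]; abel
    rw [this, smul_smul]; norm_num
  have h1 := integral_fderiv_eq_zero_of_skew hF ha'
  have h2 := integral_fderiv_eq_zero_of_skew hF hb'
  have h3 : (fun σ : UG 𝔸 => fderiv ℂ F σ.val (ξ * σ.val))
      = fun σ => fderiv ℂ F σ.val (a * σ.val) + (-Complex.I) • fderiv ℂ F σ.val (b * σ.val) := by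
    funext σ
    calc fderiv ℂ F σ.val (ξ * σ.val)
        = fderiv ℂ F σ.val ((a + (-Complex.I) • b) * σ.val) := by rw [← hdec]
      _ = _ := by
        rw [add_mul, map_add, smul_mul_assoc (-Complex.I) b σ.val,
          map_smul (fderiv ℂ F σ.val) (-Complex.I) (b * σ.val)]
  have h4 : Integrable (fun σ : UG 𝔸 => (-Complex.I) • fderiv ℂ F σ.val (b * σ.val)) (haarU 𝔸) :=
    (integrable_of_continuous _ (hc b)).smul _
  rw [h3, integral_add (integrable_of_continuous _ (hc a)) h4, integral_smul, h1, h2]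
  simp

/-! ### T2 -/

variable {𝕍 : Type} [NormedRing 𝕍] [StarRing 𝕍] [CStarRing 𝕍] [NormedAlgebra ℂ 𝕍]
  [StarModule ℂ 𝕍] [FiniteDimensional ℂ 𝕍]

omit [CStarRing 𝕍] [StarModule ℂ 𝕍] [FiniteDimensional ℂ 𝕍] [NormedAlgebra ℂ 𝕍] in
theorem ring_inverse_unitary_mul {M : 𝕍} (hM : M ∈ unitary 𝕍) (x : 𝕍) :
    Ring.inverse (M * x) = Ring.inverse x * star M := by
  have hMM : M * star M = 1 := Unitary.mul_star_self_of_mem hM
  have hMM' : star M * M = 1 := Unitary.star_mul_self_of_mem hM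
  let u : 𝕍ˣ := ⟨M, star M, hMM, hMM'⟩
  by_cases hx : IsUnit x
  · obtain ⟨v, rfl⟩ := hx
    have h1 : M * (v : 𝕍) = ((u * v : 𝕍ˣ) : 𝕍) := rfl
    rw [h1, Ring.inverse_unit, Ring.inverse_unit, mul_inv_rev, Units.val_mul]
    rfl
  · have h2 : ¬ IsUnit (M * x) := by
      intro h
      apply hx
      have : x = star M * (M * x) := by rw [← mul_assoc, hMM', one_mul]
      rw [this]
      exact (u⁻¹).isUnit.mul h
    rw [Ring.inverse_non_unit _ hx, Ring.inverse_non_unit _ h2, zero_mul]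

omit [StarRing 𝔸] [CStarRing 𝔸] [StarModule ℂ 𝔸] [FiniteDimensional ℂ 𝔸] [CStarRing 𝕍]
  [StarModule ℂ 𝕍] [FiniteDimensional ℂ 𝕍] in
theorem Aop_const_mul {Φ : 𝔸 → 𝕍} {M : 𝕍} (hM : M ∈ unitary 𝕍) {σ : 𝔸}
    (hΦ : DifferentiableAt ℂ Φ σ) (ξ : 𝔸) :
    Aop (fun X => M * Φ X) σ ξ = M * Aop Φ σ ξ * star M := by
  change fderiv ℂ (fun X => M * Φ X) σ (ξ * σ) * Ring.inverse (M * Φ σ)
    = M * (fderiv ℂ Φ σ (ξ * σ) * Ring.inverse (Φ σ)) * star M
  rw [fderiv_const_mul hΦ, ring_inverse_unitary_mul hM]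
  simp [mul_assoc]

/-- a unitary element as an element of `UG` -/
def toUG (M : 𝕍) (hM : M ∈ unitary 𝕍) : UG 𝕍 := ⟨M, hM⟩

theorem t2 : T2 𝔸 𝕍 := by
  intro ρ Φ M hM hΦ
  unfold DD
  congr 1
  funext σ
  have h1 : ∀ U : UG 𝕍, (Cop ρ U.val ∘ₗ Aop (fun X => M * Φ X) σ.val)
      = Cop ρ ((toUG (star M) (Unitary.star_mem hM) * U).val) ∘ₗ Aop Φ σ.val := by
    intro U
    ext ξ
    change ρ (star U.val * (Aop (fun X => M * Φ X) σ.val ξ) * U.val)
      = ρ (star (star M * U.val) * (Aop Φ σ.val ξ) * (star M * U.val))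
    rw [Aop_const_mul hM (hΦ _ σ.val_mem), star_mul, star_star]
    simp only [mul_assoc]
  simp only [h1]
  exact integral_mul_left_eq_self
    (fun U : UG 𝕍 => LinearMap.det (Cop ρ U.val ∘ₗ Aop Φ σ.val))
    (toUG (star M) (Unitary.star_mem hM))

end unitary_part

/-! ### T0 -/

section trace_part

theorem pi_basis_toMatrix {ι : Type*} [Fintype ι] [DecidableEq ι] {n : ι → Type*}
    [∀ i, Fintype (n i)] [∀ i, DecidableEq (n i)]
    (f : Module.End ℂ (∀ i, Matrix (n i) (n i) ℂ)) (p q : (i : ι) × (n i × n i)) :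
    LinearMap.toMatrix (Pi.basis fun i => Matrix.stdBasis ℂ (n i) (n i))
      (Pi.basis fun i => Matrix.stdBasis ℂ (n i) (n i)) f p q
      = f (Pi.single q.1 (Matrix.single q.2.1 q.2.2 1)) p.1 p.2.1 p.2.2 := by
  rcases q with ⟨j, k, l⟩
  rw [LinearMap.toMatrix_apply, Pi.basis_apply, Matrix.stdBasis_eq_single, Pi.basis_repr]
  rfl

theorem trace_ad_pi {ι : Type*} [Fintype ι] [DecidableEq ι] {n : ι → Type*}
    [∀ i, Fintype (n i)] [∀ i, DecidableEq (n i)] (ξ : ∀ i, Matrix (n i) (n i) ℂ) :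
    LinearMap.trace ℂ (∀ i, Matrix (n i) (n i) ℂ)
      (LinearMap.mulLeft ℂ ξ - LinearMap.mulRight ℂ ξ) = 0 := by
  rw [LinearMap.trace_eq_matrix_trace ℂ (Pi.basis fun i => Matrix.stdBasis ℂ (n i) (n i))]
  simp only [Matrix.trace, Matrix.diag, pi_basis_toMatrix, LinearMap.sub_apply,
    LinearMap.mulLeft_apply, LinearMap.mulRight_apply, Pi.sub_apply, Matrix.sub_apply,
    Pi.mul_apply, Pi.single_eq_same]
  rw [Fintype.sum_sigma]
  refine Finset.sum_eq_zero fun i _ => ?_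
  rw [Fintype.sum_prod_type]
  simp only [Matrix.mul_single_apply_same, Matrix.single_mul_apply_same, mul_one, one_mul,
    Finset.sum_sub_distrib]
  rw [Finset.sum_comm]
  simp

end trace_part

section concrete
open scoped Matrix.Norms.L2Operator

variable {ι A Q : Type} [Fintype ι] [LinearOrder ι] [Fintype A] [DecidableEq A]
  [Fintype Q] [DecidableEq Q]

/-- **T0** -/
theorem t0 (S : Sys ι A Q) (ξ : S.KA) :
    LinearMap.trace ℂ S.KA (LinearMap.mulLeft ℂ ξ - LinearMap.mulRight ℂ ξ) = 0 :=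
  trace_ad_pi ξ

example (S : Sys ι A Q) (h : T1 S.KA S.VA) (ρ : S.VA →ₗ[ℂ] S.KA) (Ψ : ℂ × S.KA → S.VA)
    (h1 : ∀ s : ℝ, s ∈ Set.Icc (0:ℝ) 1 → ∀ σ ∈ unitary S.KA, ContDiffAt ℂ ⊤ Ψ ((s : ℂ), σ))
    (h2 : ∀ s : ℝ, s ∈ Set.Icc (0:ℝ) 1 → ∀ σ ∈ unitary S.KA, IsUnit (Ψ ((s : ℂ), σ))) :
    DD ρ (fun X => Ψ (0, X)) = DD ρ (fun X => Ψ (1, X)) :=
  h (t0 S) ρ Ψ h1 h2

end concrete

end Crest.Agent.R174.GRHaar
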