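import Mathlib

/-!
R174, block G2 (algebraic core of the homotopy invariance).
`w` is an alternating form on an associative `ℂ`-algebra `g` (with the commutator bracket) that is
infinitesimally Ad-invariant.  If `d0A i = dB i + [B, A i]` and
`dA i j - dA j i = ∑ k, c i j k • A k + [A i, A j]` with unimodular antisymmetric constants, then
`∑ i, w (A with d0A i at i) = ∑ i, (w (A with dB i at i) + ∑ j ≠ i, w (A with B at i, dA i j at j))`.
-/

set_option autoImplicit false
set_option linter.unusedSectionVars false

namespace Crest.Agent.R174.HInv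

open Function Finset

variable {ι g : Type*} [Fintype ι] [DecidableEq ι] [Ring g] [Algebra ℂ g]

/-- Infinitesimal Ad-invariance of an alternating form. -/
def AdInv (w : g [⋀^ι]→ₗ[ℂ] ℂ) : Prop :=
  ∀ (B : g) (A : ι → g), ∑ i, w (update A i (B * A i - A i * B)) = 0

/-- the value of `w` at `A` with `x` at `i` and `y` at `j`. -/
private def W (w : g [⋀^ι]→ₗ[ℂ] ℂ) (A : ι → g) (i j : ι) (x y : g) : ℂ :=
  w (update (update A i x) j y)

private lemma W_swap (w : g [⋀^ι]→ₗ[ℂ] ℂ) (A : ι → g) {i j : ι} (hij : i ≠ j) (x y : g) :
    W w A j i x y = - W w A i j x y := by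
  unfold W
  rw [← w.map_swap _ hij]
  congr 1
  funext k
  simp only [comp_apply, update_apply]
  by_cases hki : k = i
  · subst hki
    simp
  · by_cases hkj : k = j
    · subst hkj
      simp [hki, hij]
    · simp [Equiv.swap_apply_of_ne_of_ne hki hkj, hki, hkj]

private lemma W_add (w : g [⋀^ι]→ₗ[ℂ] ℂ) (A : ι → g) (i j : ι) (x y z : g) :
    W w A i j x (y + z) = W w A i j x y + W w A i j x z := by
  unfold W; exact w.map_update_add _ _ _ _

private lemma W_sub (w : g [⋀^ι]→ₗ[ℂ] ℂ) (A : ι → g) (i j : ι) (x y z : g) :
    W w A i j x (y - z) = W w A i j x y - W w A i j x z := by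
  unfold W; exact w.map_update_sub _ _ _ _

private lemma W_smul (w : g [⋀^ι]→ₗ[ℂ] ℂ) (A : ι → g) (i j : ι) (x y : g) (a : ℂ) :
    W w A i j x (a • y) = a * W w A i j x y := by
  unfold W; rw [w.map_update_smul]; rfl

private lemma W_sum (w : g [⋀^ι]→ₗ[ℂ] ℂ) (A : ι → g) (i j : ι) (x : g) (y : ι → g) :
    W w A i j x (∑ k, y k) = ∑ k, W w A i j x (y k) := by
  unfold W; exact w.toMultilinearMap.map_update_sum _ _ _ _

/-- `w` with `B` at `i` and `A k` at `j`, for `i ≠ j`. -/
private lemma W_self (w : g [⋀^ι]→ₗ[ℂ] ℂ) (A : ι → g) {i j : ι} (hij : i ≠ j) (B : g) (k : ι) :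
    W w A i j B (A k) =
      if k = j then w (update A i B) else if k = i then - w (update A j B) else 0 := by
  split_ifs with h1 h2
  · subst h1
    unfold W
    congr 1
    rw [update_comm hij]
    rw [update_eq_self]
  · subst h2
    rw [← neg_neg (W w A k j B (A k)), ← W_swap w A hij]
    congr 1
    unfold W
    congr 1
    rw [update_comm hij.symm]
    rw [update_eq_self]
  · unfold W
    refine w.map_eq_zero_of_eq _ (i := k) (j := j) ?_ h1
    rw [update_of_ne h1, update_of_ne h2, update_self]

theorem alg_core (w : g [⋀^ι]→ₗ[ℂ] ℂ) (hw : AdInv w) (A : ι → g) (B : g) (dB d0A : ι → g)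
    (dA : ι → ι → g) (c : ι → ι → ι → ℂ)
    (h0 : ∀ i, d0A i = dB i + (B * A i - A i * B))
    (h1 : ∀ i j, dA i j - dA j i = ∑ k, c i j k • A k + (A i * A j - A j * A i))
    (hc : ∀ i j k, c i j k = - c j i k) (htr : ∀ i, ∑ j, c i j j = 0) :
    ∑ i, w (update A i (d0A i)) =
      ∑ i, (w (update A i (dB i)) +
        ∑ j ∈ univ.erase i, w (update (update A i B) j (dA i j))) := by
  -- the left hand side is `∑ w(.. dB i ..)`
  have hL : ∑ i, w (update A i (d0A i)) = ∑ i, w (update A i (dB i)) := by
    have : ∀ i, w (update A i (d0A i)) =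
        w (update A i (dB i)) + w (update A i (B * A i - A i * B)) := by
      intro i; rw [h0 i]; exact w.map_update_add _ _ _ _
    simp_rw [this]
    rw [sum_add_distrib, hw B A, add_zero]
  rw [hL, sum_add_distrib]
  rw [left_eq_add]
  change ∑ i, ∑ j ∈ univ.erase i, W w A i j B (dA i j) = 0
  -- double the sum and symmetrise
  set S := ∑ i, ∑ j ∈ univ.erase i, W w A i j B (dA i j) with hS
  have hconv : ∀ f : ι → ι → ℂ, ∑ i, ∑ j ∈ univ.erase i, f i j =
      ∑ i, ∑ j, if i = j then 0 else f i j := by
    intro f
    refine sum_congr rfl fun i _ => ?_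
    rw [← sum_filter_add_sum_filter_not univ (fun j => i = j) (fun j => if i = j then 0 else f i j)]
    rw [sum_eq_zero (s := univ.filter (fun j => i = j))]
    · rw [zero_add]
      apply sum_congr
      · ext j; simp [eq_comm]
      · intro j hj
        simp only [mem_filter, mem_univ, true_and] at hj
        simp [hj]
    · intro j hj
      simp only [mem_filter, mem_univ, true_and] at hj
      simp [hj]
  have h2S : S + S = ∑ i, ∑ j ∈ univ.erase i, W w A i j B (dA i j - dA j i) := by
    have e2 : S = ∑ i, ∑ j ∈ univ.erase i, (- W w A i j B (dA j i)) := by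
      rw [hS, hconv, hconv, sum_comm]
      refine sum_congr rfl fun i _ => sum_congr rfl fun j _ => ?_
      by_cases hij : i = j
      · simp [hij]
      · have hji : ¬ j = i := fun h => hij h.symm
        rw [if_neg hji, if_neg hij]
        exact W_swap w A hij B (dA j i)
    calc S + S = ∑ i, ∑ j ∈ univ.erase i, W w A i j B (dA i j)
          + ∑ i, ∑ j ∈ univ.erase i, (- W w A i j B (dA j i)) := by rw [← e2]
      _ = _ := by
        rw [← sum_add_distrib]
        refine sum_congr rfl fun i _ => ?_
        rw [← sum_add_distrib]
        refine sum_congr rfl fun j _ => ?_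
        rw [W_sub]; ring
  have hfirst : ∑ i, ∑ j ∈ univ.erase i, W w A i j B (∑ k, c i j k • A k) = 0 := by
    have e : ∀ i, ∀ j ∈ univ.erase i, W w A i j B (∑ k, c i j k • A k) =
        c i j j * w (update A i B) - c i j i * w (update A j B) := by
      intro i j hj
      have hij : i ≠ j := fun h => by simp [h] at hj
      rw [W_sum]
      simp_rw [W_smul, W_self w A hij]
      have : ∀ k, c i j k * (if k = j then w (update A i B) else
          if k = i then - w (update A j B) else 0) =
          (if k = j then c i j k * w (update A i B) else 0) +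
          (if k = i then - (c i j k * w (update A j B)) else 0) := by
        intro k
        by_cases h1 : k = j
        · have : ¬ k = i := fun h => hij (h.symm.trans h1)
          simp [h1, hij.symm]
        · by_cases h2 : k = i
          · simp [h2, hij]
          · simp [h1, h2]
      simp_rw [this]
      rw [sum_add_distrib, sum_ite_eq' univ j, sum_ite_eq' univ i]
      simp only [mem_univ, if_true]
      ring
    rw [sum_congr rfl fun i _ => sum_congr rfl (e i)]
    have hcc : ∀ i k, c i i k = 0 := by
      intro i k
      have := hc i i k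
      linear_combination (1/2 : ℂ) * this
    have e3 : ∑ i, ∑ j ∈ univ.erase i, (c i j j * w (update A i B) - c i j i * w (update A j B)) =
        ∑ i, ∑ j, (c i j j * w (update A i B) - c i j i * w (update A j B)) := by
      refine sum_congr rfl fun i _ => ?_
      rw [sum_erase]
      rw [hcc]; ring
    rw [e3]
    simp_rw [sum_sub_distrib]
    have e4 : ∑ i, ∑ j, c i j j * w (update A i B) = 0 := by
      apply sum_eq_zero
      intro i _
      rw [← sum_mul, htr, zero_mul]
    have e5 : ∑ i, ∑ j, c i j i * w (update A j B) = 0 := by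
      rw [sum_comm]
      apply sum_eq_zero
      intro j _
      rw [← sum_mul]
      have : ∑ i, c i j i = 0 := by
        have := htr j
        rw [show ∑ i, c i j i = - ∑ i, c j i i by
          rw [← sum_neg_distrib]; exact sum_congr rfl fun i _ => hc i j i]
        rw [this, neg_zero]
      rw [this, zero_mul]
    rw [e4, e5, sub_zero]
  have hsecond : ∑ i, ∑ j ∈ univ.erase i, W w A i j B (A i * A j - A j * A i) = 0 := by
    have e : ∀ i, ∑ j ∈ univ.erase i, W w A i j B (A i * A j - A j * A i) =
        w (update A i (B * A i - A i * B)) := by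
      intro i
      have := hw (A i) (update A i B)
      rw [← add_sum_erase univ _ (mem_univ i)] at this
      have e1 : w (update (update A i B) i (A i * (update A i B) i - (update A i B) i * A i)) =
          - w (update A i (B * A i - A i * B)) := by
        rw [update_idem, update_self]
        rw [← neg_sub, show update A i (-(B * A i - A i * B)) =
          update A i ((-1 : ℂ) • (B * A i - A i * B)) by simp]
        rw [w.map_update_smul]; simp
      rw [e1] at this
      have e2 : ∀ j ∈ univ.erase i, w (update (update A i B) j
          (A i * (update A i B) j - (update A i B) j * A i)) =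
          W w A i j B (A i * A j - A j * A i) := by
        intro j hj
        have hij : j ≠ i := by simpa using hj
        unfold W
        rw [update_of_ne hij]
      rw [sum_congr rfl e2] at this
      linear_combination this
    rw [sum_congr rfl fun i _ => e i]
    exact hw B A
  have : S + S = 0 := by
    rw [h2S]
    have e : ∀ i, ∀ j ∈ univ.erase i, W w A i j B (dA i j - dA j i) =
        W w A i j B (∑ k, c i j k • A k) + W w A i j B (A i * A j - A j * A i) := by
      intro i j _
      rw [h1, W_add]
    rw [sum_congr rfl fun i _ => sum_congr rfl (e i)]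
    simp_rw [sum_add_distrib]
    rw [hfirst, hsecond, add_zero]
  linear_combination (1/2 : ℂ) * this

end Crest.Agent.R174.HInv
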