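import Mathlib
import Crest.Agent.R174.HInvAlg

/-!
R174, block G2 (calculus part of the homotopy invariance): Maurer-Cartan identity for
`Θ_X = (D_X Φ) Φ⁻¹` and derivative of `w (A_1, …, A_n)`.
-/

set_option autoImplicit false
set_option linter.unusedSectionVars false

namespace Crest.Agent.R174.HInv

open Function Finset

section MC

variable {H g : Type*} [NormedAddCommGroup H] [NormedSpace ℂ H]
  [NormedRing g] [NormedAlgebra ℂ g] [CompleteSpace g]

/-- `Θ_X = (D_X Φ) Φ⁻¹`. -/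
noncomputable def theta (Φ : H → g) (X : H → H) (q : H) : g :=
  fderiv ℂ Φ q (X q) * Ring.inverse (Φ q)

lemma theta_hasFDerivAt {Φ : H → g} {X : H → H} {p : H} (hΦ : ContDiffAt ℂ 2 Φ p)
    (hu : IsUnit (Φ p)) (hX : DifferentiableAt ℂ X p) :
    DifferentiableAt ℂ (theta Φ X) p ∧ ∀ v, fderiv ℂ (theta Φ X) p v =
      (fderiv ℂ (fderiv ℂ Φ) p v (X p) + fderiv ℂ Φ p (fderiv ℂ X p v)) * Ring.inverse (Φ p)
      - fderiv ℂ Φ p (X p) * Ring.inverse (Φ p) * (fderiv ℂ Φ p v) * Ring.inverse (Φ p) := by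
  obtain ⟨u, hu⟩ := hu
  have h1 : HasFDerivAt Φ (fderiv ℂ Φ p) p := (hΦ.differentiableAt (by norm_num)).hasFDerivAt
  have h2 : HasFDerivAt (fderiv ℂ Φ) (fderiv ℂ (fderiv ℂ Φ) p) p := by
    have : ContDiffAt ℂ 1 (fderiv ℂ Φ) p := hΦ.fderiv_right (by norm_num)
    exact (this.differentiableAt (by norm_num)).hasFDerivAt
  have h3 := h2.clm_apply hX.hasFDerivAt
  have h4 : HasFDerivAt (fun q => Ring.inverse (Φ q))
      ((-ContinuousLinearMap.mulLeftRight ℂ g ↑u⁻¹ ↑u⁻¹).comp (fderiv ℂ Φ p)) p := by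
    have := (hasFDerivAt_ringInverse (𝕜 := ℂ) u)
    rw [hu] at this
    exact this.comp p h1
  have h5 := h3.mul' h4
  have hinv : Ring.inverse (Φ p) = ((u⁻¹ : gˣ) : g) := by rw [← hu, Ring.inverse_unit]
  refine ⟨h5.differentiableAt, fun v => ?_⟩
  have e : fderiv ℂ (theta Φ X) p = _ := h5.fderiv
  rw [e]
  simp [hinv, ContinuousLinearMap.mulLeftRight_apply]
  noncomm_ring

/-- Maurer–Cartan identity. -/
lemma maurer_cartan {Φ : H → g} {X Y : H → H} {p : H} (hΦ : ContDiffAt ℂ 2 Φ p)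
    (hu : IsUnit (Φ p)) (hX : DifferentiableAt ℂ X p) (hY : DifferentiableAt ℂ Y p) :
    fderiv ℂ (theta Φ Y) p (X p) - fderiv ℂ (theta Φ X) p (Y p) =
      fderiv ℂ Φ p (fderiv ℂ Y p (X p) - fderiv ℂ X p (Y p)) * Ring.inverse (Φ p) +
      (theta Φ X p * theta Φ Y p - theta Φ Y p * theta Φ X p) := by
  rw [(theta_hasFDerivAt hΦ hu hY).2, (theta_hasFDerivAt hΦ hu hX).2]
  have hsymm : fderiv ℂ (fderiv ℂ Φ) p (X p) (Y p) = fderiv ℂ (fderiv ℂ Φ) p (Y p) (X p) := by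
    have : IsSymmSndFDerivAt ℂ Φ p := hΦ.isSymmSndFDerivAt (by simp)
    exact this.eq _ _
  rw [hsymm]
  unfold theta
  rw [map_sub]
  noncomm_ring

lemma theta_contDiffAt {Φ : H → g} {X : H → H} {p : H} {n : WithTop ℕ∞}
    (hΦ : ContDiffAt ℂ (n + 1) Φ p)
    (hu : IsUnit (Φ p)) (hX : ContDiffAt ℂ n X p) : ContDiffAt ℂ n (theta Φ X) p := by
  obtain ⟨u, hu⟩ := hu
  have h2 : ContDiffAt ℂ n (fderiv ℂ Φ) p := hΦ.fderiv_right le_rfl
  have h3 : ContDiffAt ℂ n (fun q => fderiv ℂ Φ q (X q)) p := h2.clm_apply hX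
  have h4 : ContDiffAt ℂ n (fun q => Ring.inverse (Φ q)) p := by
    have := contDiffAt_ringInverse (n := n) ℂ u
    rw [hu] at this
    exact this.comp p (hΦ.of_le le_self_add)
  exact h3.mul h4

end MC

section Alt

variable {ι H g : Type*} [Fintype ι] [DecidableEq ι] [NormedAddCommGroup H] [NormedSpace ℂ H]
  [NormedRing g] [NormedAlgebra ℂ g]

lemma alt_hasFDerivAt (w : g [⋀^ι]→L[ℂ] ℂ) {A : ι → H → g} {p : H}
    (hA : ∀ i, DifferentiableAt ℂ (A i) p) :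
    DifferentiableAt ℂ (fun q => w (fun i => A i q)) p ∧
    ∀ v, fderiv ℂ (fun q => w (fun i => A i q)) p v =
      ∑ i, w (update (fun i => A i p) i (fderiv ℂ (A i) p v)) := by
  have := HasFDerivAt.multilinear_comp (𝕜 := ℂ) (g := A) (x := p)
    w.toContinuousMultilinearMap (fun i => (hA i).hasFDerivAt)
  have h' : HasFDerivAt (fun q => w (fun i => A i q)) _ p := this
  refine ⟨h'.differentiableAt, fun v => ?_⟩
  rw [h'.fderiv]
  simp [ContinuousMultilinearMap.toContinuousLinearMap]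

lemma alt_contDiffAt (w : g [⋀^ι]→L[ℂ] ℂ) {A : ι → H → g} {p : H} {n : WithTop ℕ∞}
    (hA : ∀ i, ContDiffAt ℂ n (A i) p) :
    ContDiffAt ℂ n (fun q => w (fun i => A i q)) p := by
  have h1 : ContDiffAt ℂ n (fun q => (fun i => A i q)) p := contDiffAt_pi.2 hA
  have h2 : ContDiff ℂ n w.toContinuousMultilinearMap := w.toContinuousMultilinearMap.contDiff
  exact h2.contDiffAt.comp p h1

end Alt

end Crest.Agent.R174.HInv
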