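import Mathlib
import Crest.Agent.R174.HInvCalc

/-!
R174, block G2: the pointwise divergence identity
`∂_s w(A_1, …, A_n) = ∑ i, E_i (w(A_1, …, B at i, …, A_n))` on `ℂ × 𝔸`, where
`A_i = (D_{(0, ξ_i σ)} Φ) Φ⁻¹`, `B = (D_{(1,0)} Φ) Φ⁻¹`.
-/

set_option autoImplicit false
set_option linter.unusedSectionVars false

namespace Crest.Agent.R174.HInv

open Function Finset

section

variable {ι 𝔸 g : Type*} [Fintype ι] [DecidableEq ι]
  [NormedRing 𝔸] [NormedAlgebra ℂ 𝔸]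
  [NormedRing g] [NormedAlgebra ℂ g] [CompleteSpace g]

/-- the vector field `∂_s` on `ℂ × 𝔸`. -/
def X0 : ℂ × 𝔸 → ℂ × 𝔸 := fun _ => (1, 0)

/-- the vector field `(0, ξ σ)` on `ℂ × 𝔸`. -/
def XX (ξ : 𝔸) : ℂ × 𝔸 → ℂ × 𝔸 := fun q => (0, ξ * q.2)

lemma XX_eq (ξ : 𝔸) : (XX ξ : ℂ × 𝔸 → ℂ × 𝔸) =
    (ContinuousLinearMap.inr ℂ ℂ 𝔸 ∘L (ContinuousLinearMap.mul ℂ 𝔸 ξ) ∘L
      ContinuousLinearMap.snd ℂ ℂ 𝔸 : ℂ × 𝔸 →L[ℂ] ℂ × 𝔸) := by
  funext q; simp [XX]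

lemma XX_contDiff (ξ : 𝔸) (n : WithTop ℕ∞) : ContDiff ℂ n (XX ξ : ℂ × 𝔸 → ℂ × 𝔸) := by
  rw [XX_eq]; exact ContinuousLinearMap.contDiff _

lemma XX_fderiv (ξ : 𝔸) (p v : ℂ × 𝔸) : fderiv ℂ (XX ξ : ℂ × 𝔸 → ℂ × 𝔸) p v = (0, ξ * v.2) := by
  rw [XX_eq, ContinuousLinearMap.fderiv]; simp

lemma X0_contDiff (n : WithTop ℕ∞) : ContDiff ℂ n (X0 : ℂ × 𝔸 → ℂ × 𝔸) := contDiff_const

lemma X0_fderiv (p v : ℂ × 𝔸) : fderiv ℂ (X0 : ℂ × 𝔸 → ℂ × 𝔸) p v = 0 := by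
  have : (X0 : ℂ × 𝔸 → ℂ × 𝔸) = fun _ => (1, 0) := rfl
  rw [this]; simp

/-- the form `w` evaluated on `A_i = (D_{ξ_i σ} Φ) Φ⁻¹`. -/
noncomputable def wA (w : g [⋀^ι]→L[ℂ] ℂ) (b : ι → 𝔸) (Φ : ℂ × 𝔸 → g) (q : ℂ × 𝔸) : ℂ :=
  w (fun i => theta Φ (XX (b i)) q)

/-- the form `w` evaluated on `A` with `B` at the place `i`. -/
noncomputable def wB (w : g [⋀^ι]→L[ℂ] ℂ) (b : ι → 𝔸) (Φ : ℂ × 𝔸 → g) (i : ι) (q : ℂ × 𝔸) : ℂ :=
  w (fun j => (update (fun j => theta Φ (XX (b j))) i (theta Φ X0)) j q)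

lemma wA_contDiffAt (w : g [⋀^ι]→L[ℂ] ℂ) (b : ι → 𝔸) {Φ : ℂ × 𝔸 → g} {p : ℂ × 𝔸}
    {n : WithTop ℕ∞} (hΦ : ContDiffAt ℂ (n + 1) Φ p) (hu : IsUnit (Φ p)) :
    ContDiffAt ℂ n (wA w b Φ) p :=
  alt_contDiffAt w fun i => theta_contDiffAt hΦ hu (XX_contDiff (b i) n).contDiffAt

lemma wB_contDiffAt (w : g [⋀^ι]→L[ℂ] ℂ) (b : ι → 𝔸) {Φ : ℂ × 𝔸 → g} {p : ℂ × 𝔸}
    {n : WithTop ℕ∞} (hΦ : ContDiffAt ℂ (n + 1) Φ p) (hu : IsUnit (Φ p)) (i : ι) :
    ContDiffAt ℂ n (wB w b Φ i) p := by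
  refine alt_contDiffAt w fun j => ?_
  by_cases hj : j = i
  · subst hj
    rw [update_self]
    exact theta_contDiffAt hΦ hu (X0_contDiff n).contDiffAt
  · rw [update_of_ne hj]
    exact theta_contDiffAt hΦ hu (XX_contDiff (b j) n).contDiffAt

theorem div_identity (w : g [⋀^ι]→L[ℂ] ℂ) (hw : AdInv w.toAlternatingMap)
    (b : Module.Basis ι ℂ 𝔸)
    (htr : ∀ ξ : 𝔸, LinearMap.trace ℂ 𝔸 (LinearMap.mulLeft ℂ ξ - LinearMap.mulRight ℂ ξ) = 0)
    {Φ : ℂ × 𝔸 → g} {p : ℂ × 𝔸} (hΦ : ContDiffAt ℂ 2 Φ p) (hu : IsUnit (Φ p)) :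
    fderiv ℂ (wA w b Φ) p (1, 0) = ∑ i, fderiv ℂ (wB w b Φ i) p (0, b i * p.2) := by
  have hX : ∀ i, DifferentiableAt ℂ (XX (b i) : ℂ × 𝔸 → ℂ × 𝔸) p := fun i =>
    ((XX_contDiff (b i) 1).differentiable (by norm_num)).differentiableAt
  have hX0 : DifferentiableAt ℂ (X0 : ℂ × 𝔸 → ℂ × 𝔸) p :=
    ((X0_contDiff 1).differentiable (by norm_num)).differentiableAt
  have hA : ∀ i, DifferentiableAt ℂ (theta Φ (XX (b i))) p := fun i =>
    (theta_hasFDerivAt hΦ hu (hX i)).1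
  have hB : DifferentiableAt ℂ (theta Φ X0) p := (theta_hasFDerivAt hΦ hu hX0).1
  set A : ι → g := fun i => theta Φ (XX (b i)) p with hAdef
  set B : g := theta Φ X0 p with hBdef
  set d0A : ι → g := fun i => fderiv ℂ (theta Φ (XX (b i))) p (1, 0) with hd0
  set dB : ι → g := fun i => fderiv ℂ (theta Φ X0) p (0, b i * p.2) with hdB
  set dA : ι → ι → g := fun i j => fderiv ℂ (theta Φ (XX (b j))) p (0, b i * p.2) with hdA
  set c : ι → ι → ι → ℂ := fun i j k => b.repr (b j * b i - b i * b j) k with hc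
  have hL : fderiv ℂ (wA w b Φ) p (1, 0) = ∑ i, w (update A i (d0A i)) :=
    (alt_hasFDerivAt w hA).2 (1, 0)
  have hR : ∀ i, fderiv ℂ (wB w b Φ i) p (0, b i * p.2) =
      w (update A i (dB i)) + ∑ j ∈ univ.erase i, w (update (update A i B) j (dA i j)) := by
    intro i
    have hd : ∀ j, DifferentiableAt ℂ ((update (fun j => theta Φ (XX (b j))) i (theta Φ X0)) j) p := by
      intro j
      by_cases hj : j = i
      · subst hj; rw [update_self]; exact hB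
      · rw [update_of_ne hj]; exact hA j
    have h1 := (alt_hasFDerivAt w hd).2 (0, b i * p.2)
    have h2 : (fun j => (update (fun j => theta Φ (XX (b j))) i (theta Φ X0)) j p) =
        update A i B := by
      funext j
      by_cases hj : j = i
      · subst hj; simp [hBdef]
      · simp [hj, hAdef]
    have h3 : fderiv ℂ (wB w b Φ i) p (0, b i * p.2) = _ := h1
    rw [h3, h2, ← add_sum_erase univ _ (mem_univ i)]
    congr 1
    · rw [update_self, update_idem]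
    · refine sum_congr rfl fun j hj => ?_
      have hj' : j ≠ i := by simpa using hj
      rw [update_of_ne hj']
  rw [hL, sum_congr rfl fun i _ => hR i]
  refine alg_core w.toAlternatingMap hw A B dB d0A dA c ?_ ?_ ?_ ?_
  · intro i
    have := maurer_cartan hΦ hu hX0 (hX i)
    rw [XX_fderiv, X0_fderiv] at this
    simp only [X0, XX, mul_zero, sub_zero] at this
    have h0 : (fderiv ℂ Φ p) ((0 : ℂ), (0 : 𝔸)) = 0 := by
      rw [← Prod.zero_eq_mk]; simp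
    rw [h0, zero_mul, zero_add] at this
    rw [sub_eq_iff_eq_add] at this
    simp only [hd0, hdB, hBdef, hAdef]
    rw [this]
    rw [add_comm]
  · intro i j
    have := maurer_cartan hΦ hu (hX i) (hX j)
    rw [XX_fderiv, XX_fderiv] at this
    simp only [hdA, hAdef]
    have h4 : fderiv ℂ (theta Φ (XX (b j))) p (0, b i * p.2) -
        fderiv ℂ (theta Φ (XX (b i))) p (0, b j * p.2) = _ := this
    rw [h4]
    congr 1
    have h5 : (((0 : ℂ), b j * (XX (b i) p).2) - ((0 : ℂ), b i * (XX (b j) p).2) : ℂ × 𝔸) =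
        ∑ k, c i j k • ((0 : ℂ), b k * p.2) := by
      have h6 : b j * b i - b i * b j = ∑ k, c i j k • b k := (b.sum_repr _).symm
      have h7 : ∑ k, c i j k • ((0 : ℂ), b k * p.2) =
          (0, (∑ k, c i j k • b k) * p.2) := by
        rw [sum_mul]
        ext
        · simp [Prod.fst_sum]
        · simp [Prod.snd_sum]
      rw [h7, ← h6]
      simp [XX, sub_mul, mul_assoc]
    rw [h5, map_sum, sum_mul]
    refine sum_congr rfl fun k _ => ?_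
    rw [map_smul, smul_mul_assoc]
    rfl
  · intro i j k
    simp only [hc]
    rw [← neg_sub (b i * b j) (b j * b i), map_neg]
    simp
  · intro i
    have h8 := htr (b i)
    rw [LinearMap.trace_eq_matrix_trace ℂ b, Matrix.trace] at h8
    have h9 : ∀ j, c i j j = - (Matrix.diag (LinearMap.toMatrix b b
        (LinearMap.mulLeft ℂ (b i) - LinearMap.mulRight ℂ (b i))) j) := by
      intro j
      simp only [hc, Matrix.diag, LinearMap.toMatrix_apply]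
      simp
    rw [sum_congr rfl fun j _ => h9 j, sum_neg_distrib, h8, neg_zero]

end

end Crest.Agent.R174.HInv
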