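import Mathlib
import Crest.Agent.R174.HInvCalc
import Crest.Agent.R174.GRDefs

/-!
R174, block G3: the averaged determinant `w(v) = ∫_U det (ξ_i ↦ ρ (U* v_i U))` is a continuous
alternating form, infinitesimally Ad-invariant.
-/

set_option autoImplicit false
set_option linter.unusedSectionVars false

namespace Crest.Agent.R174.HInv

open Function Finset MeasureTheory
open Crest.Agent.R174.GR

noncomputable section

variable {𝔸 : Type} [NormedRing 𝔸] [StarRing 𝔸] [CStarRing 𝔸] [NormedAlgebra ℂ 𝔸]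
  [StarModule ℂ 𝔸] [FiniteDimensional ℂ 𝔸]
variable {𝕍 : Type} [NormedRing 𝕍] [StarRing 𝕍] [CStarRing 𝕍] [NormedAlgebra ℂ 𝕍]
  [StarModule ℂ 𝕍] [FiniteDimensional ℂ 𝕍]
variable {ι : Type} [Fintype ι] [hι : DecidableEq ι]

/-- the integrand -/
def wI (ρ : 𝕍 →ₗ[ℂ] 𝔸) (b : Module.Basis ι ℂ 𝔸) (v : ι → 𝕍) (U : 𝕍) : ℂ :=
  b.det (fun i => Cop ρ U (v i))

lemma wI_continuous (ρ : 𝕍 →ₗ[ℂ] 𝔸) (b : Module.Basis ι ℂ 𝔸) :
    Continuous fun p : (ι → 𝕍) × UG 𝕍 => wI ρ b p.1 p.2.val := by
  unfold wI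
  simp only [Module.Basis.det_apply]
  apply Continuous.matrix_det
  apply continuous_matrix
  intro i j
  simp only [Module.Basis.toMatrix_apply]
  have h1 : Continuous (fun x : 𝔸 => b.repr x i) :=
    (LinearMap.continuous_of_finiteDimensional (b.coord i))
  refine h1.comp ?_
  have h2 : Continuous ρ := LinearMap.continuous_of_finiteDimensional ρ
  change Continuous fun p : (ι → 𝕍) × UG 𝕍 => ρ (star p.2.val * p.1 j * p.2.val)
  refine h2.comp ?_
  have h3 : Continuous fun p : (ι → 𝕍) × UG 𝕍 => p.2.val := UG.continuous_val.comp continuous_snd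
  have h4 : Continuous fun p : (ι → 𝕍) × UG 𝕍 => p.1 j := (continuous_apply j).comp continuous_fst
  exact ((continuous_star.comp h3).mul h4).mul h3

lemma wI_continuous_right (ρ : 𝕍 →ₗ[ℂ] 𝔸) (b : Module.Basis ι ℂ 𝔸) (v : ι → 𝕍) :
    Continuous fun U : UG 𝕍 => wI ρ b v U.val :=
  (wI_continuous ρ b).comp (by fun_prop : Continuous fun U : UG 𝕍 => (v, U))

lemma integrable_UG {E : Type*} [NormedAddCommGroup E] [SecondCountableTopology E]
    {f : UG 𝕍 → E} (hf : Continuous f) :
    Integrable f (haarU 𝕍) :=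
  hf.integrable_of_hasCompactSupport (HasCompactSupport.of_compactSpace f)

/-- the averaged determinant as an alternating map -/
def wAlt (ρ : 𝕍 →ₗ[ℂ] 𝔸) (b : Module.Basis ι ℂ 𝔸) : 𝕍 [⋀^ι]→ₗ[ℂ] ℂ where
  toFun v := ∫ U : UG 𝕍, wI ρ b v U.val ∂(haarU 𝕍)
  map_update_add' := by
    intro dd v i x y
    obtain rfl : dd = hι := Subsingleton.elim _ _
    have h1 := integrable_UG (wI_continuous_right ρ b (update v i x))
    have h2 := integrable_UG (wI_continuous_right ρ b (update v i y))
    refine Eq.trans ?_ (integral_add h1 h2)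
    refine integral_congr_ae (Filter.Eventually.of_forall fun U => ?_)
    exact (b.det.compLinearMap (Cop ρ U.val)).map_update_add v i x y
  map_update_smul' := by
    intro dd v i c x
    obtain rfl : dd = hι := Subsingleton.elim _ _
    refine Eq.trans ?_ (integral_smul c _)
    refine integral_congr_ae (Filter.Eventually.of_forall fun U => ?_)
    exact (b.det.compLinearMap (Cop ρ U.val)).map_update_smul v i c x
  map_eq_zero_of_eq' := by
    intro v i j hv hij
    have : ∀ U : UG 𝕍, wI ρ b v U.val = 0 := fun U =>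
      (b.det.compLinearMap (Cop ρ U.val)).map_eq_zero_of_eq v hv hij
    simp [this]

/-- the averaged determinant as a continuous alternating map -/
def wC (ρ : 𝕍 →ₗ[ℂ] 𝔸) (b : Module.Basis ι ℂ 𝔸) : 𝕍 [⋀^ι]→L[ℂ] ℂ :=
  { wAlt ρ b with
    cont := by
      have h := continuous_parametric_integral_of_continuous (μ := haarU 𝕍)
        (f := fun (v : ι → 𝕍) (U : UG 𝕍) => wI ρ b v U.val) (wI_continuous ρ b) isCompact_univ
      have h2 : Continuous fun v : ι → 𝕍 => ∫ U : UG 𝕍, wI ρ b v U.val ∂(haarU 𝕍) := by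
        simpa using h
      exact h2 }

lemma wC_apply (ρ : 𝕍 →ₗ[ℂ] 𝔸) (b : Module.Basis ι ℂ 𝔸) (v : ι → 𝕍) :
    wC ρ b v = ∫ U : UG 𝕍, wI ρ b v U.val ∂(haarU 𝕍) := rfl

/-- invariance under unitary conjugation -/
lemma wC_conj (ρ : 𝕍 →ₗ[ℂ] 𝔸) (b : Module.Basis ι ℂ 𝔸) (v : ι → 𝕍) (V : 𝕍)
    (hV : V ∈ unitary 𝕍) : wC ρ b (fun i => V * v i * star V) = wC ρ b v := by
  rw [wC_apply, wC_apply]
  let V' : UG 𝕍 := ⟨star V, Unitary.star_mem hV⟩
  rw [← integral_mul_left_eq_self (fun U : UG 𝕍 => wI ρ b v U.val) V']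
  refine integral_congr_ae (Filter.Eventually.of_forall fun U => ?_)
  have h1 : (V' * U).val = star V * U.val := rfl
  simp only [wI, h1]
  congr 1
  funext i
  change ρ (star U.val * (V * v i * star V) * U.val) =
    ρ (star (star V * U.val) * v i * (star V * U.val))
  rw [star_mul, star_star]
  simp only [mul_assoc]

lemma wC_adInv_skew (ρ : 𝕍 →ₗ[ℂ] 𝔸) (b : Module.Basis ι ℂ 𝔸) (v : ι → 𝕍) (B : 𝕍)
    (hB : B ∈ skewAdjoint 𝕍) : ∑ i, wC ρ b (update v i (B * v i - v i * B)) = 0 := by
  have : CompleteSpace 𝕍 := FiniteDimensional.complete ℂ 𝕍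
  set F : ι → ℂ → 𝕍 := fun i z => NormedSpace.exp (z • B) * v i * NormedSpace.exp (z • (-B)) with hF
  have hF' : ∀ i, HasDerivAt (F i) (B * v i - v i * B) 0 := by
    intro i
    have h1 : HasDerivAt (fun z : ℂ => NormedSpace.exp (z • B)) B 0 := by
      have := hasDerivAt_exp_smul_const (𝕂 := ℂ) B 0
      simpa using this
    have h2 : HasDerivAt (fun z : ℂ => NormedSpace.exp (z • (-B))) (-B) 0 := by
      have := hasDerivAt_exp_smul_const (𝕂 := ℂ) (-B) 0
      simpa using this
    have h3 := (h1.mul_const (v i)).mul h2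
    have e : B * v i - v i * B = B * v i * NormedSpace.exp ((0 : ℂ) • -B) +
        NormedSpace.exp ((0 : ℂ) • B) * v i * -B := by
      rw [zero_smul, zero_smul, NormedSpace.exp_zero, mul_one, one_mul, mul_neg, sub_eq_add_neg]
    rw [e]
    exact h3
  have hF0 : ∀ i, F i 0 = v i := by intro i; simp [hF]
  have hd := alt_hasFDerivAt (wC ρ b) (p := (0 : ℂ)) (fun i => (hF' i).differentiableAt)
  have hval : fderiv ℂ (fun z => wC ρ b (fun i => F i z)) 0 1 =
      ∑ i, wC ρ b (update v i (B * v i - v i * B)) := by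
    rw [hd.2 1]
    refine sum_congr rfl fun i _ => ?_
    have e1 : (fun i => F i 0) = v := funext hF0
    rw [e1]
    have e2 : fderiv ℂ (F i) 0 1 = B * v i - v i * B := by
      have := (hF' i).deriv
      rw [← this]; rfl
    rw [e2]
  have hderiv : HasDerivAt (fun z => wC ρ b (fun i => F i z))
      (∑ i, wC ρ b (update v i (B * v i - v i * B))) (0 : ℂ) := by
    rw [← hval]
    exact hd.1.hasDerivAt
  have hreal : HasDerivAt (fun t : ℝ => wC ρ b (fun i => F i (t : ℂ)))
      (∑ i, wC ρ b (update v i (B * v i - v i * B))) (0 : ℝ) := by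
    have h0 : HasDerivAt (fun z => wC ρ b (fun i => F i z))
      (∑ i, wC ρ b (update v i (B * v i - v i * B))) ((0 : ℝ) : ℂ) := by simpa using hderiv
    exact h0.comp_ofReal
  have hconst : (fun t : ℝ => wC ρ b (fun i => F i (t : ℂ))) = fun _ => wC ρ b v := by
    funext t
    have hsk : t • B ∈ skewAdjoint 𝕍 := skewAdjoint.smul_mem t hB
    letI : NormedAlgebra ℚ 𝕍 := NormedAlgebra.restrictScalars ℚ ℂ 𝕍
    have hu := NormedSpace.exp_mem_unitary_of_mem_skewAdjoint hsk
    have e1 : ∀ i, F i (t : ℂ) = NormedSpace.exp (t • B) * v i * star (NormedSpace.exp (t • B)) := by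
      intro i
      simp only [hF]
      rw [NormedSpace.star_exp, skewAdjoint.mem_iff.1 hsk]
      simp
    simp_rw [e1]
    exact wC_conj ρ b v _ hu
  rw [hconst] at hreal
  exact hreal.unique (hasDerivAt_const _ _)

/-- the averaged determinant is infinitesimally Ad-invariant. -/
theorem wC_adInv (ρ : 𝕍 →ₗ[ℂ] 𝔸) (b : Module.Basis ι ℂ 𝔸) :
    AdInv (wC ρ b).toAlternatingMap := by
  intro B v
  have hadd : ∀ B C : 𝕍, ∑ i, wC ρ b (update v i ((B + C) * v i - v i * (B + C))) =
      ∑ i, wC ρ b (update v i (B * v i - v i * B)) +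
      ∑ i, wC ρ b (update v i (C * v i - v i * C)) := by
    intro B C
    rw [← sum_add_distrib]
    refine sum_congr rfl fun i _ => ?_
    rw [← ContinuousAlternatingMap.map_update_add]
    congr 2
    noncomm_ring
  have hsmul : ∀ (c : ℂ) (B : 𝕍), ∑ i, wC ρ b (update v i ((c • B) * v i - v i * (c • B))) =
      c • ∑ i, wC ρ b (update v i (B * v i - v i * B)) := by
    intro c B
    rw [smul_sum]
    refine sum_congr rfl fun i _ => ?_
    rw [← ContinuousAlternatingMap.map_update_smul]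
    congr 2
    rw [smul_sub, smul_mul_assoc, mul_smul_comm]
  set B1 : 𝕍 := (1/2 : ℂ) • (B - star B) with hB1
  set B2 : 𝕍 := (-(Complex.I / 2)) • (B + star B) with hB2
  have h1 : B1 ∈ skewAdjoint 𝕍 := by
    rw [skewAdjoint.mem_iff, hB1, star_smul, star_sub, star_star]
    simp only [one_div, RCLike.star_def, map_inv₀, map_ofNat]
    rw [← smul_neg, neg_sub]
  have h2 : B2 ∈ skewAdjoint 𝕍 := by
    rw [skewAdjoint.mem_iff, hB2, star_smul, star_add, star_star]
    simp only [RCLike.star_def, map_neg, map_div₀, Complex.conj_I, map_ofNat]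
    rw [← neg_smul, add_comm B]
    congr 1
    ring
  have hB : B = B1 + Complex.I • B2 := by
    rw [hB1, hB2, smul_smul]
    have : Complex.I * (-(Complex.I / 2)) = 1/2 := by
      have := Complex.I_mul_I
      linear_combination (-1/2 : ℂ) * this
    rw [this, ← smul_add]
    have : B - star B + (B + star B) = (2 : ℂ) • B := by
      rw [two_smul]; abel
    rw [this, smul_smul]
    norm_num
  change ∑ i, wC ρ b (update v i (B * v i - v i * B)) = 0
  rw [hB, hadd B1 (Complex.I • B2), hsmul Complex.I B2, wC_adInv_skew ρ b v B1 h1,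
    wC_adInv_skew ρ b v B2 h2]
  simp

end

end Crest.Agent.R174.HInv
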