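import Mathlib
import Crest.Agent.R174.HInvDiv
import Crest.Agent.R174.HInvW
import Crest.Agent.R174.GRHaar

/-!
R174, block G2 + G3: homotopy invariance `T1`.
-/

set_option autoImplicit false
set_option linter.unusedSectionVars false

namespace Crest.Agent.R174.HInv

open Function Finset MeasureTheory
open Crest.Agent.R174.GR Crest.Agent.R174.GRHaar

noncomputable section

variable {𝔸 : Type} [NormedRing 𝔸] [StarRing 𝔸] [CStarRing 𝔸] [NormedAlgebra ℂ 𝔸]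
  [StarModule ℂ 𝔸] [FiniteDimensional ℂ 𝔸]
variable {𝕍 : Type} [NormedRing 𝕍] [StarRing 𝕍] [CStarRing 𝕍] [NormedAlgebra ℂ 𝕍]
  [StarModule ℂ 𝕍] [FiniteDimensional ℂ 𝕍]
variable {ι : Type} [Fintype ι] [hι : DecidableEq ι]

lemma det_comp_eq (ρ : 𝕍 →ₗ[ℂ] 𝔸) (b : Module.Basis ι ℂ 𝔸) (L : 𝔸 →ₗ[ℂ] 𝕍) (U : 𝕍) :
    LinearMap.det (Cop ρ U ∘ₗ L) = wI ρ b (fun i => L (b i)) U := by
  rw [← LinearMap.det_toMatrix b, wI, Module.Basis.det_apply]
  congr 1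
  ext i j
  rw [LinearMap.toMatrix_apply, Module.Basis.toMatrix_apply]
  rfl

lemma Aop_eq_theta {Ψ : ℂ × 𝔸 → 𝕍} {s : ℂ} {σ : 𝔸} (hΨ : DifferentiableAt ℂ Ψ (s, σ)) (ξ : 𝔸) :
    Aop (fun X => Ψ (s, X)) σ ξ = theta Ψ (XX ξ) (s, σ) := by
  have h1 : HasFDerivAt (fun X : 𝔸 => ((s, X) : ℂ × 𝔸)) (ContinuousLinearMap.inr ℂ ℂ 𝔸) σ :=
    hasFDerivAt_prodMk_right s σ
  have h2 : HasFDerivAt (fun X => Ψ (s, X))
      ((fderiv ℂ Ψ (s, σ)).comp (ContinuousLinearMap.inr ℂ ℂ 𝔸)) σ :=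
    hΨ.hasFDerivAt.comp σ h1
  change fderiv ℂ (fun X => Ψ (s, X)) σ (ξ * σ) * Ring.inverse (Ψ (s, σ)) = _
  rw [h2.fderiv]
  rfl

lemma DD_eq (ρ : 𝕍 →ₗ[ℂ] 𝔸) (b : Module.Basis ι ℂ 𝔸) {Ψ : ℂ × 𝔸 → 𝕍} {s : ℂ}
    (hΨ : ∀ σ ∈ unitary 𝔸, DifferentiableAt ℂ Ψ (s, σ)) :
    DD ρ (fun X => Ψ (s, X)) = ∫ σ : UG 𝔸, wA (wC ρ b) b Ψ (s, σ.val) ∂(haarU 𝔸) := by
  unfold DD
  refine integral_congr_ae (Filter.Eventually.of_forall fun σ => ?_)
  simp only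
  rw [wA, wC_apply]
  refine integral_congr_ae (Filter.Eventually.of_forall fun U => ?_)
  simp only
  rw [det_comp_eq ρ b]
  congr 1
  funext i
  exact Aop_eq_theta (hΨ _ σ.val_mem) (b i)

theorem t1 : T1 𝔸 𝕍 := by
  intro htr ρ Ψ hsm hu
  have hcA : CompleteSpace 𝔸 := FiniteDimensional.complete ℂ 𝔸
  have hcV : CompleteSpace 𝕍 := FiniteDimensional.complete ℂ 𝕍
  let b := Module.finBasis ℂ 𝔸
  set w := wC ρ b with hw
  have hsm' : ∀ (n : WithTop ℕ∞) (s : ℝ), s ∈ Set.Icc (0:ℝ) 1 → ∀ σ ∈ unitary 𝔸,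
      ContDiffAt ℂ n Ψ ((s : ℂ), σ) := fun n s hs σ hσ => (hsm s hs σ hσ).of_le le_top
  -- the function of `s`
  set F : ℝ → ℂ := fun s => ∫ σ : UG 𝔸, wA w b Ψ ((s : ℂ), σ.val) ∂(haarU 𝔸) with hF
  have hDD : ∀ s : ℝ, s ∈ Set.Icc (0:ℝ) 1 → DD ρ (fun X => Ψ ((s : ℂ), X)) = F s := by
    intro s hs
    exact DD_eq ρ b fun σ hσ => (hsm' 1 s hs σ hσ).differentiableAt (by norm_num)
  have hemb : Continuous fun p : ℝ × UG 𝔸 => ((p.1 : ℂ), p.2.val) :=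
    (Complex.continuous_ofReal.comp continuous_fst).prodMk (UG.continuous_val.comp continuous_snd)
  have hwA : ∀ s : ℝ, s ∈ Set.Icc (0:ℝ) 1 → ∀ σ ∈ unitary 𝔸,
      ContDiffAt ℂ 1 (wA w b Ψ) ((s : ℂ), σ) := fun s hs σ hσ =>
    wA_contDiffAt w b (hsm' (1 + 1) s hs σ hσ) (hu s hs σ hσ)
  have hwB : ∀ s : ℝ, s ∈ Set.Icc (0:ℝ) 1 → ∀ σ ∈ unitary 𝔸, ∀ i,
      ContDiffAt ℂ 1 (wB w b Ψ i) ((s : ℂ), σ) := fun s hs σ hσ i =>
    wB_contDiffAt w b (hsm' (1 + 1) s hs σ hσ) (hu s hs σ hσ) i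
  -- continuity
  have hcont : ContinuousOn (fun p : ℝ × UG 𝔸 => wA w b Ψ ((p.1 : ℂ), p.2.val))
      (Set.Icc (0:ℝ) 1 ×ˢ Set.univ) := by
    intro p hp
    have h1 : ContinuousAt (wA w b Ψ) ((p.1 : ℂ), p.2.val) :=
      (hwA p.1 hp.1 p.2.val p.2.val_mem).continuousAt
    exact (ContinuousAt.comp (f := fun p : ℝ × UG 𝔸 => ((p.1 : ℂ), p.2.val)) h1
      hemb.continuousAt).continuousWithinAt
  have hcont' : ContinuousOn (fun p : ℝ × UG 𝔸 => fderiv ℂ (wA w b Ψ) ((p.1 : ℂ), p.2.val) (1, 0))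
      (Set.Icc (0:ℝ) 1 ×ˢ Set.univ) := by
    intro p hp
    have h1 : ContinuousAt (fderiv ℂ (wA w b Ψ)) ((p.1 : ℂ), p.2.val) :=
      ((hwA p.1 hp.1 p.2.val p.2.val_mem).fderiv_right (m := 0) (by norm_num)).continuousAt
    have h2 : ContinuousAt (fun q => fderiv ℂ (wA w b Ψ) q (1, 0)) ((p.1 : ℂ), p.2.val) :=
      h1.clm_apply continuousAt_const
    exact (ContinuousAt.comp (f := fun p : ℝ × UG 𝔸 => ((p.1 : ℂ), p.2.val)) h2
      hemb.continuousAt).continuousWithinAt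
  have hFc : ContinuousOn F (Set.Icc (0:ℝ) 1) :=
    continuousOn_integral (haarU 𝔸) (F := fun (s : ℝ) σ => wA w b Ψ ((s : ℂ), σ.val)) hcont
  -- derivative zero
  have hFd : ∀ s ∈ Set.Ioo (0:ℝ) 1, HasDerivAt F 0 s := by
    intro s hs
    have hs' : s ∈ Set.Icc (0:ℝ) 1 := Set.Ioo_subset_Icc_self hs
    have hd := hasDerivAt_integral (haarU 𝔸) (F := fun s σ => wA w b Ψ ((s : ℂ), σ.val))
      (F' := fun s σ => fderiv ℂ (wA w b Ψ) ((s : ℂ), σ.val) (1, 0)) (s := Set.Icc (0:ℝ) 1)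
      (t₀ := s) (Icc_mem_nhds hs.1 hs.2) ?_ ?_ hcont'
    · have hzero : ∫ σ : UG 𝔸, fderiv ℂ (wA w b Ψ) ((s : ℂ), σ.val) (1, 0) ∂(haarU 𝔸) = 0 := by
        have e1 : ∀ σ : UG 𝔸, fderiv ℂ (wA w b Ψ) ((s : ℂ), σ.val) (1, 0) =
            ∑ i, fderiv ℂ (fun X => wB w b Ψ i ((s : ℂ), X)) σ.val (b i * σ.val) := by
          intro σ
          rw [div_identity w (wC_adInv ρ b) b htr (hsm' 2 s hs' _ σ.val_mem) (hu s hs' _ σ.val_mem)]
          refine sum_congr rfl fun i _ => ?_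
          have h1 : HasFDerivAt (fun X : 𝔸 => (((s : ℂ), X) : ℂ × 𝔸))
              (ContinuousLinearMap.inr ℂ ℂ 𝔸) σ.val := hasFDerivAt_prodMk_right _ _
          have h2 : HasFDerivAt (fun X => wB w b Ψ i ((s : ℂ), X))
              ((fderiv ℂ (wB w b Ψ i) ((s : ℂ), σ.val)).comp (ContinuousLinearMap.inr ℂ ℂ 𝔸))
              σ.val :=
            ((hwB s hs' _ σ.val_mem i).differentiableAt (by norm_num)).hasFDerivAt.comp σ.val h1
          rw [h2.fderiv]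
          rfl
        have e2 : ∀ i, ∀ σ ∈ unitary 𝔸, ContDiffAt ℂ 1 (fun X => wB w b Ψ i ((s : ℂ), X)) σ := by
          intro i σ hσ
          have h3 : ContDiffAt ℂ 1 (fun X : 𝔸 => (((s : ℂ), X) : ℂ × 𝔸)) σ :=
            contDiffAt_const.prodMk contDiffAt_id
          exact ContDiffAt.comp (f := fun X : 𝔸 => (((s : ℂ), X) : ℂ × 𝔸)) σ (hwB s hs' σ hσ i) h3
        have e3 : ∀ i, Continuous fun σ : UG 𝔸 =>
            fderiv ℂ (fun X => wB w b Ψ i ((s : ℂ), X)) σ.val (b i * σ.val) := by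
          intro i
          rw [continuous_iff_continuousAt]
          intro σ
          have h4 : ContinuousAt (fderiv ℂ (fun X => wB w b Ψ i ((s : ℂ), X))) σ.val :=
            ((e2 i σ.val σ.val_mem).fderiv_right (m := 0) (by norm_num)).continuousAt
          have h5 : ContinuousAt (fun σ : UG 𝔸 =>
              fderiv ℂ (fun X => wB w b Ψ i ((s : ℂ), X)) σ.val) σ :=
            ContinuousAt.comp (f := fun σ : UG 𝔸 => σ.val) h4 UG.continuous_val.continuousAt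
          exact h5.clm_apply (continuousAt_const.mul UG.continuous_val.continuousAt)
        simp_rw [e1]
        rw [integral_finsetSum]
        · exact sum_eq_zero fun i _ => integral_fderiv_eq_zero (e2 i) (b i)
        · exact fun i _ => integrable_UG (e3 i)
      rw [hzero] at hd
      exact hd
    · intro t ht σ
      have h1 : HasFDerivAt (wA w b Ψ) (fderiv ℂ (wA w b Ψ) ((t : ℂ), σ.val)) ((t : ℂ), σ.val) :=
        ((hwA t ht _ σ.val_mem).differentiableAt (by norm_num)).hasFDerivAt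
      have h2 : HasDerivAt (fun z : ℂ => ((z, σ.val) : ℂ × 𝔸)) (1, 0) (t : ℂ) :=
        (hasDerivAt_id _).prodMk (hasDerivAt_const _ _)
      have h3 : HasDerivAt (fun z : ℂ => wA w b Ψ (z, σ.val))
          (fderiv ℂ (wA w b Ψ) ((t : ℂ), σ.val) (1, 0)) (t : ℂ) :=
        HasFDerivAt.comp_hasDerivAt (f := fun z : ℂ => ((z, σ.val) : ℂ × 𝔸)) (t : ℂ) h1 h2
      exact h3.comp_ofReal
    · intro t ht
      rw [continuous_iff_continuousAt]
      intro σ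
      have h1 : ContinuousAt (wA w b Ψ) ((t : ℂ), σ.val) := (hwA t ht _ σ.val_mem).continuousAt
      have h2 : Continuous fun σ : UG 𝔸 => (((t : ℂ), σ.val) : ℂ × 𝔸) :=
        continuous_const.prodMk UG.continuous_val
      exact ContinuousAt.comp (f := fun σ : UG 𝔸 => (((t : ℂ), σ.val) : ℂ × 𝔸)) h1
        h2.continuousAt
  -- constant on the open interval
  have hconst : Set.EqOn F (fun _ => F (1/2)) (Set.Ioo (0:ℝ) 1) := by
    intro s hs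
    have hdiff : DifferentiableOn ℝ F (Set.Ioo (0:ℝ) 1) := fun x hx =>
      (hFd x hx).differentiableAt.differentiableWithinAt
    exact isOpen_Ioo.is_const_of_deriv_eq_zero (𝕜 := ℝ) (s := Set.Ioo (0:ℝ) 1)
      isPreconnected_Ioo hdiff (fun x hx => (hFd x hx).deriv) hs (by norm_num)
  have hclos : Set.EqOn F (fun _ => F (1/2)) (Set.Icc (0:ℝ) 1) :=
    hconst.of_subset_closure hFc continuousOn_const Set.Ioo_subset_Icc_self
      (by rw [closure_Ioo (by norm_num)])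
  have h0 := hDD 0 (by norm_num)
  have h1 := hDD 1 (by norm_num)
  simp only [Complex.ofReal_zero, Complex.ofReal_one] at h0 h1
  rw [h0, h1, hclos (by norm_num : (0:ℝ) ∈ Set.Icc (0:ℝ) 1),
    hclos (by norm_num : (1:ℝ) ∈ Set.Icc (0:ℝ) 1)]

end

end Crest.Agent.R174.HInv
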