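import Crest.Agent.R174.G4Link
import Crest.Agent.R174.HInvMain
import Crest.Agent.R174.GRHaar

/-! # R174, T3 unconditionally (T1: helper337, T0: helper802, G4a: helper661, G4b: helper850). -/

set_option autoImplicit false
open scoped Matrix.Norms.L2Operator

namespace Crest.Agent.R174.GR

variable {ι A Q : Type} [Fintype ι] [LinearOrder ι] [Fintype A] [DecidableEq A]
  [Fintype Q] [DecidableEq Q]

theorem t3 (S : Sys ι A Q) : T3 S :=
  T3_holds S Crest.Agent.R174.HInv.t1 (Crest.Agent.R174.GRHaar.t0 S)

end Crest.Agent.R174.GR
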