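import Mathlib

/-!
# R174, P3 (GR), block G6: the scalar localising function

`hA n a m s x = x * (1 + (s/m * I) • uA n a x)^m` in a star algebra, where
`uA n a x = ∑_{j<n} (a j • x^(j+1) + star (a j) • (star x)^(j+1))`.
-/

set_option autoImplicit false

namespace Crest.Agent.R174.GRLoc

open Complex Finset

section defs
variable {A : Type*} [Ring A] [StarRing A] [Algebra ℂ A]

/-- the self-adjoint trigonometric polynomial `2 Re ∑_{j<n} a_j x^{j+1}` -/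
noncomputable def uA (n : ℕ) (a : ℕ → ℂ) (x : A) : A :=
  ∑ j ∈ range n, (a j • x ^ (j + 1) + star (a j) • (star x) ^ (j + 1))

/-- the localising function `x (1 + i s u(x)/m)^m` -/
noncomputable def hA (n : ℕ) (a : ℕ → ℂ) (m : ℕ) (s : ℝ) (x : A) : A :=
  x * (1 + (((s / m : ℝ) : ℂ) * I) • uA n a x) ^ m

end defs

/-! ### scalar facts -/

lemma uA_real (n : ℕ) (a : ℕ → ℂ) (z : ℂ) : star (uA n a z) = uA n a z := by
  unfold uA
  rw [star_sum]
  refine sum_congr rfl fun j _ => ?_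
  simp only [smul_eq_mul, star_add, star_mul', star_star, star_pow]
  ring

/-- the real value of `u` -/
noncomputable def uR (n : ℕ) (a : ℕ → ℂ) (z : ℂ) : ℝ := (uA n a z).re

lemma uA_eq_uR (n : ℕ) (a : ℕ → ℂ) (z : ℂ) : uA n a z = (uR n a z : ℂ) := by
  have h := uA_real n a z
  rw [Complex.star_def, Complex.conj_eq_iff_re] at h
  exact h.symm

lemma norm_one_add_I (t : ℝ) : ‖(1 : ℂ) + (t : ℂ) * I‖ ^ 2 = 1 + t ^ 2 := by
  rw [← Complex.normSq_eq_norm_sq, Complex.normSq_apply]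
  simp
  ring

lemma one_le_norm_one_add_I (t : ℝ) : 1 ≤ ‖(1 : ℂ) + (t : ℂ) * I‖ := by
  have h := norm_one_add_I t
  nlinarith [norm_nonneg ((1 : ℂ) + (t : ℂ) * I), sq_nonneg t]

lemma hA_scalar (n : ℕ) (a : ℕ → ℂ) (m : ℕ) (s : ℝ) (z : ℂ) :
    hA n a m s z = z * (1 + ((s / m * uR n a z : ℝ) : ℂ) * I) ^ m := by
  unfold hA
  rw [uA_eq_uR, smul_eq_mul]
  push_cast
  ring_nf

lemma one_le_norm_hA (n : ℕ) (a : ℕ → ℂ) (m : ℕ) (s : ℝ) {z : ℂ} (hz : ‖z‖ = 1) :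
    1 ≤ ‖hA n a m s z‖ := by
  rw [hA_scalar, norm_mul, hz, one_mul, norm_pow]
  exact one_le_pow₀ (one_le_norm_one_add_I _)

/-! ### the explicit coefficients -/

/-- `r k j = C(2k,k+j)/C(2k,k)` -/
noncomputable def rk (k j : ℕ) : ℝ := ((2 * k).choose (k + j) : ℝ) / (Nat.centralBinom k : ℝ)

/-- coefficients of `u` from the real cosine coefficients `r` of its derivative -/
noncomputable def ck (r : ℕ → ℝ) (j : ℕ) : ℂ := (r (j + 1) : ℂ) / (((j + 1 : ℕ) : ℂ) * I)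

/-- `p = (2+2cos)^k/centralBinom` -/
noncomputable def pk (k : ℕ) (θ : ℝ) : ℝ := (2 + 2 * Real.cos θ) ^ k / (Nat.centralBinom k : ℝ)

/-- the cosine polynomial `1 + ∑ 2 r_j cos (jθ)` -/
noncomputable def pr (r : ℕ → ℝ) (k : ℕ) (θ : ℝ) : ℝ :=
  1 + ∑ j ∈ range k, 2 * r (j + 1) * Real.cos ((j + 1 : ℕ) * θ)

lemma rk_nonneg (k j : ℕ) : 0 ≤ rk k j := by unfold rk; positivity

lemma rk_le_one (k j : ℕ) : rk k j ≤ 1 := by
  unfold rk
  rw [div_le_one (by exact_mod_cast Nat.centralBinom_pos k)]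
  exact_mod_cast Nat.choose_le_centralBinom (k + j) k

section genkernel
variable {r : ℕ → ℝ} (hr : ∀ j, |r j| ≤ 1)
include hr

lemma norm_ck_le (j : ℕ) : ‖ck r j‖ ≤ 1 := by
  unfold ck
  rw [norm_div, norm_mul, Complex.norm_I, mul_one, Complex.norm_real, Complex.norm_natCast,
    Real.norm_eq_abs]
  rw [div_le_one (by positivity)]
  refine (hr _).trans ?_
  push_cast
  linarith [(Nat.cast_nonneg j : (0:ℝ) ≤ j)]

lemma norm_uA_ck_le (k : ℕ) {z : ℂ} (hz : ‖z‖ = 1) : ‖uA k (ck r) z‖ ≤ 2 * k := by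
  unfold uA
  refine (norm_sum_le _ _).trans ?_
  have : ∀ j ∈ range k, ‖ck r j • z ^ (j + 1) + star (ck r j) • (star z) ^ (j + 1)‖ ≤ 2 := by
    intro j _
    refine (norm_add_le _ _).trans ?_
    simp only [smul_eq_mul, norm_mul, norm_pow, norm_star, hz, one_pow, mul_one]
    linarith [norm_ck_le hr j]
  refine (sum_le_sum this).trans ?_
  simp
  linarith

lemma abs_uR_ck_le (k : ℕ) {z : ℂ} (hz : ‖z‖ = 1) : |uR k (ck r) z| ≤ 2 * k := by
  have := norm_uA_ck_le hr k hz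
  rw [uA_eq_uR, Complex.norm_real, Real.norm_eq_abs] at this
  exact this

end genkernel

lemma exp_mul_exp_neg (θ : ℝ) : exp (θ * I) * exp (-(θ * I)) = 1 := by
  rw [← exp_add]; simp

lemma binom_aux {z w : ℂ} (hzw : z * w = 1) (k : ℕ) :
    ((1 + z) ^ 2 * w) ^ k = (Nat.centralBinom k : ℂ) +
      ∑ j ∈ range k, ((2 * k).choose (k + (j + 1)) : ℂ) * (z ^ (j + 1) + w ^ (j + 1)) := by
  have h1 : ((1 + z) ^ 2 * w) ^ k = (∑ l ∈ range (2 * k + 1), z ^ l * ((2 * k).choose l : ℂ)) * w ^ k := by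
    rw [mul_pow, ← pow_mul]
    congr 1
    rw [add_comm, add_pow]
    simp
  rw [h1, show 2 * k + 1 = k + (k + 1) by ring]
  rw [sum_range_add, sum_range_succ' _ k, add_mul, add_mul]
  have hk : z ^ k * w ^ k = 1 := by rw [← mul_pow, hzw, one_pow]
  have e1 : (∑ l ∈ range k, z ^ l * ((2 * k).choose l : ℂ)) * w ^ k
      = ∑ j ∈ range k, ((2 * k).choose (k + (j + 1)) : ℂ) * w ^ (j + 1) := by
    rw [← sum_range_reflect, sum_mul]
    refine sum_congr rfl fun j hj => ?_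
    have hj' := mem_range.1 hj
    have hc : ((2 * k).choose (k - 1 - j) : ℂ) = ((2 * k).choose (k + (j + 1)) : ℂ) := by
      norm_cast
      rw [← Nat.choose_symm_of_eq_add]
      omega
    rw [hc]
    have : w ^ k = w ^ (k - 1 - j) * w ^ (j + 1) := by rw [← pow_add]; congr 1; omega
    have h2 : z ^ (k - 1 - j) * w ^ (k - 1 - j) = 1 := by rw [← mul_pow, hzw, one_pow]
    rw [this]
    linear_combination ((2 * k).choose (k + (j + 1)) : ℂ) * w ^ (j + 1) * h2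
  have e2 : (∑ j ∈ range k, z ^ (k + (j + 1)) * ((2 * k).choose (k + (j + 1)) : ℂ)) * w ^ k
      = ∑ j ∈ range k, ((2 * k).choose (k + (j + 1)) : ℂ) * z ^ (j + 1) := by
    rw [sum_mul]
    refine sum_congr rfl fun j _ => ?_
    rw [pow_add]
    linear_combination ((2 * k).choose (k + (j + 1)) : ℂ) * z ^ (j + 1) * hk
  have e3 : (z ^ (k + 0) * ((2 * k).choose (k + 0) : ℂ)) * w ^ k = (Nat.centralBinom k : ℂ) := by
    rw [add_zero, Nat.centralBinom]
    linear_combination ((2 * k).choose k : ℂ) * hk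
  rw [e1, e2, e3]
  simp only [mul_add, sum_add_distrib]
  ring

/-- the binomial identity -/
lemma binom_identity (k : ℕ) (θ : ℝ) : pr (rk k) k θ = pk k θ := by
  unfold pr
  have hcb : (Nat.centralBinom k : ℝ) ≠ 0 := by exact_mod_cast (Nat.centralBinom_pos k).ne'
  have hcb' : (Nat.centralBinom k : ℂ) ≠ 0 := by exact_mod_cast (Nat.centralBinom_pos k).ne'
  have hcos : (2 : ℂ) + 2 * Real.cos θ = (1 + exp (θ * I)) ^ 2 * exp (-(θ * I)) := by
    have h := exp_mul_exp_neg θ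
    rw [Complex.ofReal_cos, Complex.cos]
    rw [show -(θ : ℂ) * I = -(θ * I) by ring]
    linear_combination (-2 - exp (θ * I)) * h
  have hj : ∀ j : ℕ, (2 : ℂ) * Real.cos ((j + 1 : ℕ) * θ)
      = exp (θ * I) ^ (j + 1) + exp (-(θ * I)) ^ (j + 1) := by
    intro j
    rw [Complex.ofReal_cos, Complex.cos, ← exp_nat_mul, ← exp_nat_mul]
    push_cast
    ring_nf
  have key := binom_aux (exp_mul_exp_neg θ) k
  rw [← hcos] at key
  apply Complex.ofReal_injective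
  unfold pk rk
  push_cast at key hj ⊢
  rw [key]
  rw [add_div, div_self hcb', sum_div]
  congr 1
  refine sum_congr rfl fun j _ => ?_
  rw [← hj j]
  ring

lemma pk_nonneg (k : ℕ) (θ : ℝ) : 0 ≤ pk k θ := by
  unfold pk
  have : 0 ≤ 2 + 2 * Real.cos θ := by linarith [Real.neg_one_le_cos θ]
  positivity

lemma pk_le {k : ℕ} (hk : 0 < k) {θ c : ℝ} (hc : Real.cos θ ≤ c) :
    pk k θ ≤ 2 * k * ((1 + c) / 2) ^ k := by
  unfold pk
  have h0 : 0 ≤ 2 + 2 * Real.cos θ := by linarith [Real.neg_one_le_cos θ]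
  have hcb : (0 : ℝ) < (Nat.centralBinom k : ℝ) := by exact_mod_cast (Nat.centralBinom_pos k)
  rw [div_le_iff₀ hcb]
  have h4 : (4 : ℝ) ^ k ≤ 2 * k * Nat.centralBinom k := by
    exact_mod_cast Nat.four_pow_le_two_mul_self_mul_centralBinom k hk
  calc (2 + 2 * Real.cos θ) ^ k ≤ (2 + 2 * c) ^ k :=
        pow_le_pow_left₀ h0 (by linarith) k
    _ = 4 ^ k * ((1 + c) / 2) ^ k := by rw [← mul_pow]; ring_nf
    _ ≤ (2 * k * Nat.centralBinom k) * ((1 + c) / 2) ^ k := by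
        refine mul_le_mul_of_nonneg_right h4 (pow_nonneg ?_ k)
        linarith
    _ = _ := by ring

/-- derivative along the circle of `u` -/
lemma hasDerivAt_uA_ck (r : ℕ → ℝ) (k : ℕ) (θ : ℝ) :
    HasDerivAt (fun t : ℝ => uA k (ck r) (exp (t * I))) (((pr r k θ - 1 : ℝ) : ℂ)) θ := by
  have hexp : HasDerivAt (fun t : ℝ => exp (t * I)) (exp (θ * I) * I) θ := by
    have := ((hasDerivAt_id (θ : ℂ)).mul_const I).cexp.comp_ofReal
    simpa using this
  have hstar : ∀ t : ℝ, star (exp (t * I)) = exp (-(t * I)) := by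
    intro t
    rw [Complex.star_def, ← exp_conj]
    simp
  have hexp' : HasDerivAt (fun t : ℝ => exp (-(t * I))) (-(exp (-(θ * I)) * I)) θ := by
    have := ((hasDerivAt_id (θ : ℂ)).mul_const I).neg.cexp.comp_ofReal
    simpa using this
  have hterm : ∀ j ∈ range k, HasDerivAt
      (fun t : ℝ => ck r j • (exp (t * I)) ^ (j + 1) + star (ck r j) • (star (exp (t * I))) ^ (j + 1))
      ((2 * r (j + 1) * Real.cos ((j + 1 : ℕ) * θ) : ℝ) : ℂ) θ := by
    intro j _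
    have h1 := (hexp.pow (j + 1)).const_mul (ck r j)
    have h2 := (hexp'.pow (j + 1)).const_mul (star (ck r j))
    have h3 := h1.add h2
    simp only [smul_eq_mul, hstar]
    refine h3.congr_deriv ?_
    have hcos : ((Real.cos ((j + 1 : ℕ) * θ) : ℝ) : ℂ)
        = (exp (θ * I) ^ (j + 1) + exp (-(θ * I)) ^ (j + 1)) / 2 := by
      rw [Complex.ofReal_cos, Complex.cos, ← exp_nat_mul, ← exp_nat_mul]
      push_cast
      ring_nf
    rw [Complex.ofReal_mul, Complex.ofReal_mul, hcos]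
    have hj0 : ((j + 1 : ℕ) : ℂ) ≠ 0 := by exact_mod_cast Nat.succ_ne_zero j
    have ha : ck r j * ((j + 1 : ℕ) : ℂ) * I = (r (j + 1) : ℂ) := by
      unfold ck; field_simp
    have ha' : star (ck r j) * ((j + 1 : ℕ) : ℂ) * (-I) = (r (j + 1) : ℂ) := by
      have := congrArg star ha
      simpa [Complex.star_def] using this
    have e1 : ∀ x : ℂ, x ^ (j + 1) = x ^ j * x := fun x => pow_succ x j
    have hsub : j + 1 - 1 = j := by omega
    rw [hsub]
    simp only [Complex.ofReal_ofNat]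
    rw [e1 (exp (θ * I)), e1 (exp (-(θ * I)))]
    linear_combination (exp (θ * I) ^ j * exp (θ * I)) * ha
      + (exp (-(θ * I)) ^ j * exp (-(θ * I))) * ha'
  unfold uA
  refine (HasDerivAt.fun_sum hterm).congr_deriv ?_
  unfold pr
  push_cast
  ring

/-- the derivative along the circle of `h` -/
noncomputable def gd (r : ℕ → ℝ) (k m : ℕ) (θ : ℝ) : ℂ :=
  exp (θ * I) * I * (1 + ((uR k (ck r) (exp (θ * I)) / m : ℝ) : ℂ) * I) ^ (m - 1) *
    (((pr r k θ : ℝ) : ℂ) + ((uR k (ck r) (exp (θ * I)) / m : ℝ) : ℂ) * I)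

lemma hasDerivAt_hA (r : ℕ → ℝ) (k m : ℕ) (hm : 0 < m) (θ : ℝ) :
    HasDerivAt (fun t : ℝ => hA k (ck r) m 1 (exp (t * I))) (gd r k m θ) θ := by
  have hexp : HasDerivAt (fun t : ℝ => exp (t * I)) (exp (θ * I) * I) θ := by
    have := ((hasDerivAt_id (θ : ℂ)).mul_const I).cexp.comp_ofReal
    simpa using this
  have hu := ((hasDerivAt_uA_ck r k θ).const_mul ((((1 / m : ℝ) : ℝ) : ℂ) * I)).const_add 1
  have := hexp.mul (hu.pow m)
  unfold hA
  simp only [smul_eq_mul]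
  refine this.congr_deriv ?_
  unfold gd
  simp only [Pi.pow_apply]
  rw [uA_eq_uR]
  have hm' : (m : ℂ) ≠ 0 := by exact_mod_cast hm.ne'
  obtain ⟨q, rfl⟩ : ∃ q, m = q + 1 := ⟨m - 1, by omega⟩
  have hsub : q + 1 - 1 = q := by omega
  rw [hsub, pow_succ]
  push_cast
  push_cast at hm'
  field_simp
  ring

lemma norm_gd_le {r : ℕ → ℝ} (hr : ∀ j, |r j| ≤ 1) (k m : ℕ) (θ : ℝ) (hm : 0 < m)
    (h : 4 * k ^ 2 ≤ m) :
    ‖gd r k m θ‖ ≤ 2 * (|pr r k θ| + 2 * k / m) := by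
  have hz : ‖exp (θ * I)‖ = 1 := Complex.norm_exp_ofReal_mul_I θ
  have hu := abs_uR_ck_le hr k hz
  have hm' : (0 : ℝ) < m := by exact_mod_cast hm
  set u := uR k (ck r) (exp (θ * I)) with hudef
  unfold gd
  rw [← hudef]
  rw [norm_mul, norm_mul, norm_mul, hz, Complex.norm_I, one_mul, one_mul, norm_pow]
  have h1 : ‖(1 : ℂ) + ((u / m : ℝ) : ℂ) * I‖ ^ (m - 1) ≤ 2 := by
    have h2 : ‖(1 : ℂ) + ((u / m : ℝ) : ℂ) * I‖ ^ (m - 1) ≤ ‖(1 : ℂ) + ((u / m : ℝ) : ℂ) * I‖ ^ m :=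
      pow_le_pow_right₀ (one_le_norm_one_add_I _) (by omega)
    refine h2.trans ?_
    have h3 : (‖(1 : ℂ) + ((u / m : ℝ) : ℂ) * I‖ ^ m) ^ 2 ≤ 4 := by
      rw [← pow_mul, mul_comm m 2, pow_mul, norm_one_add_I]
      have h4 : 1 + (u / m) ^ 2 ≤ Real.exp ((u / m) ^ 2) := by
        linarith [Real.add_one_le_exp ((u / m) ^ 2)]
      calc (1 + (u / m) ^ 2) ^ m ≤ Real.exp ((u / m) ^ 2) ^ m :=
            pow_le_pow_left₀ (by positivity) h4 m
        _ = Real.exp (u ^ 2 / m) := by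
            rw [← Real.exp_nat_mul]; congr 1; field_simp
        _ ≤ Real.exp 1 := by
            apply Real.exp_le_exp.2
            rw [div_le_one hm']
            have : u ^ 2 ≤ (2 * k) ^ 2 := sq_le_sq' (by linarith [abs_le.1 hu]) (abs_le.1 hu).2
            have h5 : ((4 * k ^ 2 : ℕ) : ℝ) ≤ m := by exact_mod_cast h
            push_cast at h5
            nlinarith
        _ ≤ 4 := by linarith [Real.exp_one_lt_d9]
    nlinarith [norm_nonneg ((1 : ℂ) + ((u / m : ℝ) : ℂ) * I),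
      pow_nonneg (norm_nonneg ((1 : ℂ) + ((u / m : ℝ) : ℂ) * I)) m]
  have h6 : ‖((pr r k θ : ℝ) : ℂ) + ((u / m : ℝ) : ℂ) * I‖ ≤ |pr r k θ| + 2 * k / m := by
    refine (norm_add_le _ _).trans ?_
    rw [norm_mul, Complex.norm_I, mul_one, Complex.norm_real, Complex.norm_real,
      Real.norm_eq_abs, Real.norm_eq_abs, abs_div, abs_of_pos hm']
    gcongr
  exact mul_le_mul h1 h6 (norm_nonneg _) (by norm_num)

lemma norm_exp_sub_exp (α β : ℝ) : ‖exp (α * I) - exp (β * I)‖ = 2 * |Real.sin ((β - α) / 2)| := by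
  have h : exp (α * I) - exp (β * I) = -(exp (α * I) * (exp (I * ((β - α : ℝ) : ℂ)) - 1)) := by
    have : exp (β * I) = exp (α * I) * exp (I * ((β - α : ℝ) : ℂ)) := by
      rw [← exp_add]; congr 1; push_cast; ring
    rw [this]; ring
  rw [h, norm_neg, norm_mul, Complex.norm_exp_ofReal_mul_I, one_mul,
    Complex.norm_exp_I_mul_ofReal_sub_one, norm_mul]
  simp

lemma exists_angles {z w : ℂ} (hz : ‖z‖ = 1) (hw : ‖w‖ = 1) :
    ∃ α β : ℝ, exp (α * I) = z ∧ exp (β * I) = w ∧ |β - α| ≤ Real.pi := by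
  have hz' : exp (z.arg * I) = z := by
    have := Complex.norm_mul_exp_arg_mul_I z
    rwa [hz, ofReal_one, one_mul] at this
  have hwz : ‖w / z‖ = 1 := by rw [norm_div, hz, hw, div_one]
  have h2 : exp ((w / z).arg * I) = w / z := by
    have := Complex.norm_mul_exp_arg_mul_I (w / z)
    rwa [hwz, ofReal_one, one_mul] at this
  have hz0 : z ≠ 0 := by intro h; simp [h] at hz
  refine ⟨z.arg, z.arg + (w / z).arg, hz', ?_, ?_⟩
  · push_cast
    rw [add_mul, exp_add, hz', h2]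
    field_simp
  · rw [add_sub_cancel_left]
    exact Complex.abs_arg_le_pi _

lemma exists_angle_off {δ : ℝ} (hδ : 0 < δ) (hδ' : δ ≤ Real.pi / 2) {z : ℂ} (hz : ‖z‖ = 1)
    (hre : z.re ≤ Real.cos δ) :
    ∃ α : ℝ, exp (α * I) = z ∧ δ ≤ α ∧ α ≤ 2 * Real.pi - δ := by
  have hπ := Real.pi_pos
  have hz' : exp (z.arg * I) = z := by
    have := Complex.norm_mul_exp_arg_mul_I z
    rwa [hz, ofReal_one, one_mul] at this
  have hcos : Real.cos z.arg = z.re := by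
    conv_rhs => rw [← hz']
    rw [Complex.exp_ofReal_mul_I_re]
  have habs : δ ≤ |z.arg| := by
    by_contra hlt
    push Not at hlt
    have : Real.cos δ < Real.cos |z.arg| :=
      Real.cos_lt_cos_of_nonneg_of_le_pi (abs_nonneg _) (by linarith) hlt
    rw [Real.cos_abs, hcos] at this
    linarith
  have hle := Complex.abs_arg_le_pi z
  by_cases h0 : 0 ≤ z.arg
  · rw [abs_of_nonneg h0] at habs hle
    exact ⟨z.arg, hz', habs, by linarith⟩
  · push Not at h0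
    rw [abs_of_neg h0] at habs hle
    refine ⟨z.arg + 2 * Real.pi, ?_, by linarith, by linarith⟩
    push_cast
    rw [add_mul, exp_add, hz', Complex.exp_two_pi_mul_I, mul_one]

lemma cos_le_of_mem {δ t : ℝ} (hδ : 0 < δ) (h1 : δ ≤ t)
    (h2 : t ≤ 2 * Real.pi - δ) : Real.cos t ≤ Real.cos δ := by
  have hπ := Real.pi_pos
  by_cases h : t ≤ Real.pi
  · exact Real.cos_le_cos_of_nonneg_of_le_pi hδ.le h h1
  · push Not at h
    have : Real.cos t = Real.cos (2 * Real.pi - t) := by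
      rw [Real.cos_two_pi_sub]
    rw [this]
    exact Real.cos_le_cos_of_nonneg_of_le_pi hδ.le (by linarith) (by linarith)

lemma global_two_point {g g' : ℝ → ℂ} {h : ℂ → ℂ} {B : ℝ} (hB : 0 ≤ B)
    (hgh : ∀ t : ℝ, g t = h (exp (t * I)))
    (hg : ∀ t, HasDerivAt g (g' t) t) (hb : ∀ t, ‖g' t‖ ≤ B) {z w : ℂ} (hz : ‖z‖ = 1)
    (hw : ‖w‖ = 1) : ‖h z - h w‖ ≤ (Real.pi / 2 * B) * ‖z - w‖ := by
  obtain ⟨α, β, rfl, rfl, hαβ⟩ := exists_angles hz hw
  have hπ := Real.pi_pos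
  rw [← hgh, ← hgh, norm_exp_sub_exp]
  have h1 : ‖g α - g β‖ ≤ B * ‖α - β‖ :=
    convex_univ.norm_image_sub_le_of_norm_hasDerivWithin_le
      (fun x _ => (hg x).hasDerivWithinAt) (fun x _ => hb x) (Set.mem_univ β) (Set.mem_univ α)
  refine h1.trans ?_
  have h2 : 2 / Real.pi * (|β - α| / 2) ≤ Real.sin (|β - α| / 2) :=
    Real.mul_le_sin (by positivity) (by linarith)
  have h3 : |Real.sin ((β - α) / 2)| = Real.sin (|β - α| / 2) := by
    have h5 : 0 ≤ Real.sin (|β - α| / 2) :=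
      Real.sin_nonneg_of_nonneg_of_le_pi (by positivity) (by linarith [abs_nonneg (β - α)])
    rcases abs_cases (β - α) with ⟨h4, _⟩ | ⟨h4, _⟩
    · rw [h4] at h5 ⊢; exact abs_of_nonneg h5
    · rw [h4] at h5 ⊢
      rw [neg_div, Real.sin_neg] at h5 ⊢
      exact abs_of_nonpos (by linarith)
  rw [h3, Real.norm_eq_abs, abs_sub_comm]
  have h6 : |β - α| ≤ Real.pi * Real.sin (|β - α| / 2) := by
    calc |β - α| = Real.pi * (2 / Real.pi * (|β - α| / 2)) := by field_simp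
      _ ≤ _ := by gcongr
  calc B * |β - α| ≤ B * (Real.pi * Real.sin (|β - α| / 2)) := by gcongr
    _ = _ := by ring

lemma off_two_point {g g' : ℝ → ℂ} {h : ℂ → ℂ} {b δ : ℝ} (hb0 : 0 ≤ b)
    (hδ : 0 < δ) (hδ' : δ ≤ Real.pi / 2)
    (hgh : ∀ t : ℝ, g t = h (exp (t * I)))
    (hg : ∀ t, HasDerivAt g (g' t) t) (hb : ∀ t, Real.cos t ≤ Real.cos δ → ‖g' t‖ ≤ b) {z w : ℂ}
    (hz : ‖z‖ = 1) (hw : ‖w‖ = 1) (hzr : z.re ≤ Real.cos δ) (hwr : w.re ≤ Real.cos δ) :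
    ‖h z - h w‖ ≤ (Real.pi / Real.sin δ * b) * ‖z - w‖ := by
  obtain ⟨α, rfl, hα1, hα2⟩ := exists_angle_off hδ hδ' hz hzr
  obtain ⟨β, rfl, hβ1, hβ2⟩ := exists_angle_off hδ hδ' hw hwr
  have hπ := Real.pi_pos
  rw [← hgh, ← hgh, norm_exp_sub_exp]
  have hsin : 0 < Real.sin δ := Real.sin_pos_of_pos_of_lt_pi hδ (by linarith)
  have h1 : ‖g α - g β‖ ≤ b * ‖α - β‖ :=
    (convex_Icc δ (2 * Real.pi - δ)).norm_image_sub_le_of_norm_hasDerivWithin_le
      (fun x _ => (hg x).hasDerivWithinAt)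
      (fun x hx => hb x (cos_le_of_mem hδ hx.1 hx.2)) ⟨hβ1, hβ2⟩ ⟨hα1, hα2⟩
  refine h1.trans ?_
  have hle : |β - α| ≤ 2 * Real.pi - 2 * δ := abs_le.2 ⟨by linarith, by linarith⟩
  have h3 : |Real.sin ((β - α) / 2)| = Real.sin (|β - α| / 2) := by
    have h5 : 0 ≤ Real.sin (|β - α| / 2) :=
      Real.sin_nonneg_of_nonneg_of_le_pi (by positivity) (by linarith [abs_nonneg (β - α)])
    rcases abs_cases (β - α) with ⟨h4, _⟩ | ⟨h4, _⟩
    · rw [h4] at h5 ⊢; exact abs_of_nonneg h5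
    · rw [h4] at h5 ⊢
      rw [neg_div, Real.sin_neg] at h5 ⊢
      exact abs_of_nonpos (by linarith)
  have h6 : |β - α| * Real.sin δ ≤ 2 * Real.pi * Real.sin (|β - α| / 2) := by
    by_cases hx : |β - α| / 2 ≤ Real.pi / 2
    · have h2 : 2 / Real.pi * (|β - α| / 2) ≤ Real.sin (|β - α| / 2) :=
        Real.mul_le_sin (by positivity) hx
      have h7 : |β - α| ≤ Real.pi * Real.sin (|β - α| / 2) := by
        calc |β - α| = Real.pi * (2 / Real.pi * (|β - α| / 2)) := by field_simp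
          _ ≤ _ := by gcongr
      have h8 := Real.sin_le_one δ
      nlinarith [abs_nonneg (β - α)]
    · push Not at hx
      have h9 : Real.sin δ ≤ Real.sin (|β - α| / 2) := by
        rw [← Real.sin_pi_sub (|β - α| / 2)]
        exact Real.sin_le_sin_of_le_of_le_pi_div_two (by linarith) (by linarith) (by linarith)
      have h10 : |β - α| ≤ 2 * Real.pi := by linarith
      calc |β - α| * Real.sin δ ≤ (2 * Real.pi) * Real.sin (|β - α| / 2) :=
            mul_le_mul h10 h9 hsin.le (by positivity)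
        _ = _ := rfl
  rw [h3, Real.norm_eq_abs, abs_sub_comm]
  have h7 : |β - α| ≤ Real.pi / Real.sin δ * (2 * Real.sin (|β - α| / 2)) := by
    rw [div_mul_eq_mul_div, le_div_iff₀ hsin]
    linarith
  calc b * |β - α| ≤ b * (Real.pi / Real.sin δ * (2 * Real.sin (|β - α| / 2))) := by gcongr
    _ = _ := by ring

/-- the properties of a localising function with constants `B` (global) and `b` (off the arc);
the arc is `{z : ‖z‖ = 1, cos δ < re z}`. -/
structure LocFn (δ : ℝ) (n : ℕ) (a : ℕ → ℂ) (m : ℕ) (B b : ℝ) : Prop where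
  pos : 0 ≤ B
  nonneg : 0 ≤ b
  der : ∃ g' : ℝ → ℂ, (∀ θ, HasDerivAt (fun t : ℝ => hA n a m 1 (exp (t * I))) (g' θ) θ) ∧
    (∀ θ, ‖g' θ‖ ≤ B) ∧ (∀ θ, Real.cos θ ≤ Real.cos δ → ‖g' θ‖ ≤ b)
  two : ∀ z w : ℂ, ‖z‖ = 1 → ‖w‖ = 1 → ‖hA n a m 1 z - hA n a m 1 w‖ ≤ B * ‖z - w‖
  off : ∀ z w : ℂ, ‖z‖ = 1 → ‖w‖ = 1 → z.re ≤ Real.cos δ → w.re ≤ Real.cos δ →
        ‖hA n a m 1 z - hA n a m 1 w‖ ≤ b * ‖z - w‖

/-- localising functions from a cosine kernel -/
theorem locFn_of_kernel {r : ℕ → ℝ} (hr : ∀ j, |r j| ≤ 1) {δ : ℝ} (hδ : 0 < δ)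
    (hδ' : δ ≤ Real.pi / 2) (k : ℕ) {P p1 η : ℝ} (hη : 0 < η) (hP : ∀ θ, |pr r k θ| ≤ P)
    (hp0 : 0 ≤ p1) (hp1 : ∀ θ, Real.cos θ ≤ Real.cos δ → |pr r k θ| ≤ p1) :
    ∃ m : ℕ, LocFn δ k (ck r) m (Real.pi / Real.sin δ * (2 * (P + η)))
      (Real.pi / Real.sin δ * (2 * (p1 + η))) := by
  have hπ := Real.pi_pos
  have hsin : 0 < Real.sin δ := Real.sin_pos_of_pos_of_lt_pi hδ (by linarith)
  have hP0 : 0 ≤ P := (abs_nonneg _).trans (hP 0)
  set C : ℝ := Real.pi / Real.sin δ with hC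
  have hC1 : 1 ≤ C := by
    rw [hC, le_div_iff₀ hsin]
    linarith [Real.sin_le_one δ, Real.pi_gt_three]
  obtain ⟨m1, hm1⟩ := exists_nat_ge (2 * k / η)
  set m : ℕ := max (4 * k ^ 2) m1 + 1 with hm
  have hm0 : 0 < m := by omega
  have hm4 : 4 * k ^ 2 ≤ m := by
    have := le_max_left (4 * k ^ 2) m1; omega
  have hmr : 2 * k / (m : ℝ) ≤ η := by
    have h1 : (m1 : ℝ) ≤ m := by
      have := le_max_right (4 * k ^ 2) m1
      exact_mod_cast (by omega : m1 ≤ m)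
    have h2 : 2 * k / η ≤ (m : ℝ) := hm1.trans h1
    rw [div_le_iff₀ hη] at h2
    rw [div_le_iff₀ (by exact_mod_cast hm0)]
    linarith
  have hg1 : ∀ θ, ‖gd r k m θ‖ ≤ 2 * (P + η) := fun θ =>
    (norm_gd_le hr k m θ hm0 hm4).trans (by linarith [hP θ])
  have hg2 : ∀ θ, Real.cos θ ≤ Real.cos δ → ‖gd r k m θ‖ ≤ 2 * (p1 + η) := fun θ hθ =>
    (norm_gd_le hr k m θ hm0 hm4).trans (by linarith [hp1 θ hθ])
  refine ⟨m, by positivity, by positivity, ⟨gd r k m, hasDerivAt_hA r k m hm0, ?_, ?_⟩, ?_, ?_⟩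
  · intro θ; exact (hg1 θ).trans (by nlinarith)
  · intro θ hθ; exact (hg2 θ hθ).trans (by nlinarith)
  · intro z w hz hw
    refine (global_two_point (h := hA k (ck r) m 1) (by positivity) (fun t => rfl)
      (hasDerivAt_hA r k m hm0) hg1 hz hw).trans ?_
    refine mul_le_mul_of_nonneg_right (mul_le_mul_of_nonneg_right ?_ (by positivity)) (norm_nonneg _)
    rw [hC]
    exact div_le_div_of_nonneg_left hπ.le hsin (by linarith [Real.sin_le_one δ])
  · intro z w hz hw hzr hwr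
    exact off_two_point (h := hA k (ck r) m 1) (by positivity) hδ hδ' (fun t => rfl)
      (hasDerivAt_hA r k m hm0) hg2 hz hw hzr hwr

/-! ### the smoothed kernel -/

/-- box-smoothed coefficients -/
noncomputable def rs (k : ℕ) (δ : ℝ) (j : ℕ) : ℝ :=
  rk k j * (Real.sin (j * (δ / 2)) / (j * (δ / 2)))

lemma abs_rs_le (k : ℕ) (δ : ℝ) (j : ℕ) : |rs k δ j| ≤ 1 := by
  unfold rs
  rw [abs_mul, abs_of_nonneg (rk_nonneg k j)]
  have h1 : |Real.sin (j * (δ / 2)) / (j * (δ / 2))| ≤ 1 := by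
    rw [abs_div]
    exact div_le_one_of_le₀ (Real.abs_sin_le_abs) (abs_nonneg _)
  have h2 := rk_le_one k j
  have h3 := rk_nonneg k j
  nlinarith [abs_nonneg (Real.sin (j * (δ / 2)) / (j * (δ / 2)))]

/-- the primitive `G(x) = x + U(x)` of the kernel -/
noncomputable def GG (k : ℕ) (x : ℝ) : ℝ :=
  x + ∑ j ∈ range k, 2 * rk k (j + 1) * (Real.sin ((j + 1 : ℕ) * x) / (j + 1 : ℕ))

lemma hasDerivAt_GG (k : ℕ) (x : ℝ) : HasDerivAt (GG k) (pk k x) x := by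
  rw [← binom_identity]
  unfold GG pr
  refine (hasDerivAt_id x).fun_add (HasDerivAt.fun_sum fun j _ => ?_)
  have h1 : HasDerivAt (fun y : ℝ => ((j + 1 : ℕ) : ℝ) * y) ((j + 1 : ℕ) : ℝ) x := by
    simpa using (hasDerivAt_id x).const_mul ((j + 1 : ℕ) : ℝ)
  have h2 := ((h1.sin).div_const ((j + 1 : ℕ) : ℝ)).const_mul (2 * rk k (j + 1))
  refine h2.congr_deriv ?_
  have : ((j + 1 : ℕ) : ℝ) ≠ 0 := by positivity
  field_simp

lemma GG_mono (k : ℕ) : Monotone (GG k) :=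
  monotone_of_hasDerivAt_nonneg (fun x => hasDerivAt_GG k x) (fun x => pk_nonneg k x)

lemma GG_add_two_pi (k : ℕ) (x : ℝ) : GG k (x + 2 * Real.pi) = GG k x + 2 * Real.pi := by
  unfold GG
  have : ∀ j ∈ range k, 2 * rk k (j + 1) * (Real.sin ((j + 1 : ℕ) * (x + 2 * Real.pi)) / (j + 1 : ℕ))
      = 2 * rk k (j + 1) * (Real.sin ((j + 1 : ℕ) * x) / (j + 1 : ℕ)) := by
    intro j _
    congr 2
    rw [mul_add]
    exact Real.sin_add_nat_mul_two_pi _ (j + 1)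
  rw [sum_congr rfl this]
  ring

lemma pr_rs (k : ℕ) {δ : ℝ} (hδ : 0 < δ) (θ : ℝ) :
    pr (rs k δ) k θ = (GG k (θ + δ / 2) - GG k (θ - δ / 2)) / δ := by
  unfold pr GG
  have h1 : (θ + δ / 2 + ∑ j ∈ range k, 2 * rk k (j + 1) *
        (Real.sin ((j + 1 : ℕ) * (θ + δ / 2)) / (j + 1 : ℕ)))
      - (θ - δ / 2 + ∑ j ∈ range k, 2 * rk k (j + 1) *
        (Real.sin ((j + 1 : ℕ) * (θ - δ / 2)) / (j + 1 : ℕ)))
      = δ + ∑ j ∈ range k, 2 * rk k (j + 1) *
        (2 * Real.cos ((j + 1 : ℕ) * θ) * Real.sin ((j + 1 : ℕ) * (δ / 2)) / (j + 1 : ℕ)) := by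
    have : ∀ j : ℕ, 2 * rk k (j + 1) *
        (2 * Real.cos ((j + 1 : ℕ) * θ) * Real.sin ((j + 1 : ℕ) * (δ / 2)) / (j + 1 : ℕ))
        = 2 * rk k (j + 1) * (Real.sin ((j + 1 : ℕ) * (θ + δ / 2)) / (j + 1 : ℕ))
          - 2 * rk k (j + 1) * (Real.sin ((j + 1 : ℕ) * (θ - δ / 2)) / (j + 1 : ℕ)) := by
      intro j
      rw [mul_add, mul_sub, Real.sin_add, Real.sin_sub]
      ring
    rw [sum_congr rfl fun j _ => this j, sum_sub_distrib]
    ring
  rw [h1, add_div, div_self hδ.ne', sum_div]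
  congr 1
  refine sum_congr rfl fun j _ => ?_
  unfold rs
  have : ((j + 1 : ℕ) : ℝ) ≠ 0 := by positivity
  field_simp

lemma pr_rs_nonneg (k : ℕ) {δ : ℝ} (hδ : 0 < δ) (θ : ℝ) : 0 ≤ pr (rs k δ) k θ := by
  rw [pr_rs k hδ]
  have := GG_mono k (by linarith : θ - δ / 2 ≤ θ + δ / 2)
  exact div_nonneg (by linarith) hδ.le

lemma pr_rs_le (k : ℕ) {δ : ℝ} (hδ : 0 < δ) (hδ' : δ ≤ 2 * Real.pi) (θ : ℝ) :
    pr (rs k δ) k θ ≤ 2 * Real.pi / δ := by
  rw [pr_rs k hδ]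
  have h1 := GG_mono k (by linarith : θ + δ / 2 ≤ θ - δ / 2 + 2 * Real.pi)
  rw [GG_add_two_pi] at h1
  gcongr
  linarith

lemma cos_shift {δ θ t : ℝ} (hδ : 0 < δ) (hδ' : δ ≤ Real.pi / 2) (hθ : Real.cos θ ≤ Real.cos δ)
    (ht : |t - θ| ≤ δ / 2) : Real.cos t ≤ Real.cos (δ / 2) := by
  by_contra hcon
  push Not at hcon
  have hπ := Real.pi_pos
  set s := θ - t with hs
  have hst : θ = t + s := by rw [hs]; ring
  have hs' : |s| ≤ δ / 2 := by rw [hs, abs_sub_comm]; exact ht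
  have hc2 : 0 ≤ Real.cos (δ / 2) := Real.cos_nonneg_of_mem_Icc ⟨by linarith, by linarith⟩
  have hs2 : 0 < Real.sin (δ / 2) := Real.sin_pos_of_pos_of_lt_pi (by linarith) (by linarith)
  have hcs : Real.cos (δ / 2) ≤ Real.cos s := by
    rw [← Real.cos_abs s]
    exact Real.cos_le_cos_of_nonneg_of_le_pi (abs_nonneg _) (by linarith) hs'
  have hss : |Real.sin s| ≤ Real.sin (δ / 2) := by
    have e1 := Real.sin_sq_add_cos_sq s
    have e2 := Real.sin_sq_add_cos_sq (δ / 2)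
    have : Real.sin s ^ 2 ≤ Real.sin (δ / 2) ^ 2 := by nlinarith
    exact abs_le_of_sq_le_sq this hs2.le
  have hst' : |Real.sin t| ≤ Real.sin (δ / 2) := by
    have e1 := Real.sin_sq_add_cos_sq t
    have e2 := Real.sin_sq_add_cos_sq (δ / 2)
    have : Real.sin t ^ 2 ≤ Real.sin (δ / 2) ^ 2 := by nlinarith
    exact abs_le_of_sq_le_sq this hs2.le
  have hprod : Real.sin t * Real.sin s ≤ Real.sin (δ / 2) * Real.sin (δ / 2) := by
    calc Real.sin t * Real.sin s ≤ |Real.sin t * Real.sin s| := le_abs_self _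
      _ = |Real.sin t| * |Real.sin s| := abs_mul _ _
      _ ≤ _ := mul_le_mul hst' hss (abs_nonneg _) hs2.le
  have hcos : Real.cos δ = Real.cos (δ / 2) * Real.cos (δ / 2)
      - Real.sin (δ / 2) * Real.sin (δ / 2) := by
    rw [← Real.cos_add]; congr 1; ring
  have hcpos : 0 < Real.cos (δ / 2) := Real.cos_pos_of_mem_Ioo ⟨by linarith, by linarith⟩
  have : Real.cos δ < Real.cos θ := by
    rw [hst, Real.cos_add, hcos]
    have : Real.cos (δ / 2) * Real.cos (δ / 2) < Real.cos t * Real.cos s := by nlinarith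
    linarith
  linarith

lemma pr_rs_off {k : ℕ} (hk : 0 < k) {δ : ℝ} (hδ : 0 < δ) (hδ' : δ ≤ Real.pi / 2) {θ : ℝ}
    (hθ : Real.cos θ ≤ Real.cos δ) :
    pr (rs k δ) k θ ≤ 2 * k * ((1 + Real.cos (δ / 2)) / 2) ^ k := by
  rw [pr_rs k hδ, div_le_iff₀ hδ]
  have h1 : ‖GG k (θ + δ / 2) - GG k (θ - δ / 2)‖
      ≤ (2 * k * ((1 + Real.cos (δ / 2)) / 2) ^ k) * ‖(θ + δ / 2) - (θ - δ / 2)‖ := by
    refine (convex_Icc (θ - δ / 2) (θ + δ / 2)).norm_image_sub_le_of_norm_hasDerivWithin_le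
      (f' := pk k) (fun x _ => (hasDerivAt_GG k x).hasDerivWithinAt) (fun x hx => ?_)
      ⟨le_refl _, by linarith⟩ ⟨by linarith, le_refl _⟩
    rw [Real.norm_of_nonneg (pk_nonneg k x)]
    exact pk_le hk (cos_shift hδ hδ' hθ (abs_le.2 ⟨by linarith [hx.1], by linarith [hx.2]⟩))
  have h2 : ‖(θ + δ / 2) - (θ - δ / 2)‖ = δ := by
    rw [show (θ + δ / 2) - (θ - δ / 2) = δ by ring, Real.norm_of_nonneg hδ.le]
  rw [h2] at h1
  exact (le_abs_self _).trans h1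

/-- **G6**: the localising functions, with a bound `B` depending only on `δ`. -/
theorem exists_locFn {δ : ℝ} (hδ : 0 < δ) (hδ' : δ ≤ Real.pi / 2) :
    ∃ B : ℝ, 0 ≤ B ∧ ∀ ε : ℝ, 0 < ε → ∃ (n : ℕ) (a : ℕ → ℂ) (m : ℕ) (b : ℝ),
      LocFn δ n a m B b ∧ b ≤ ε := by
  have hπ := Real.pi_pos
  have hsin : 0 < Real.sin δ := Real.sin_pos_of_pos_of_lt_pi hδ (by linarith)
  set C : ℝ := Real.pi / Real.sin δ with hC
  have hC0 : 0 < C := by positivity
  refine ⟨C * (2 * (2 * Real.pi / δ + 1)), by positivity, fun ε hε => ?_⟩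
  set q : ℝ := (1 + Real.cos (δ / 2)) / 2 with hq
  have hcos0 : 0 ≤ Real.cos (δ / 2) := Real.cos_nonneg_of_mem_Icc ⟨by linarith, by linarith⟩
  have hcos1 : Real.cos (δ / 2) < 1 := by
    have := Real.cos_lt_cos_of_nonneg_of_le_pi (le_refl (0:ℝ)) (by linarith : δ / 2 ≤ Real.pi)
      (by linarith)
    rwa [Real.cos_zero] at this
  have hq0 : 0 < q := by rw [hq]; linarith
  have hq1 : q < 1 := by rw [hq]; linarith
  have hlim := (tendsto_self_mul_const_pow_of_abs_lt_one (r := q)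
    (by rw [abs_of_pos hq0]; exact hq1)).const_mul 2
  rw [mul_zero] at hlim
  set η : ℝ := min 1 (ε / (4 * C)) with hη
  have hη0 : 0 < η := by rw [hη]; positivity
  obtain ⟨k, hk, hk1⟩ := ((hlim.eventually_lt_const hη0).and (Filter.eventually_ge_atTop 1)).exists
  have hk' : 2 * (k : ℝ) * q ^ k ≤ η := by linarith
  have habs : ∀ θ, |pr (rs k δ) k θ| = pr (rs k δ) k θ := fun θ =>
    abs_of_nonneg (pr_rs_nonneg k hδ θ)
  obtain ⟨m, hm⟩ := locFn_of_kernel (abs_rs_le k δ) hδ hδ' k hη0 (P := 2 * Real.pi / δ) (p1 := η)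
    (fun θ => by rw [habs]; exact pr_rs_le k hδ (by linarith) θ) hη0.le
    (fun θ hθ => by rw [habs]; exact (pr_rs_off (by omega) hδ hδ' hθ).trans hk')
  have hη1 : η ≤ 1 := min_le_left _ _
  have hη2 : η ≤ ε / (4 * C) := min_le_right _ _
  refine ⟨k, ck (rs k δ), m, C * (2 * (η + η)), ?_, ?_⟩
  · refine ⟨by positivity, hm.nonneg, ?_, ?_, hm.off⟩
    · obtain ⟨g', h1, h2, h3⟩ := hm.der
      exact ⟨g', h1, fun θ => (h2 θ).trans (by gcongr), h3⟩
    · intro z w hz hw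
      refine (hm.two z w hz hw).trans (mul_le_mul_of_nonneg_right ?_ (norm_nonneg _))
      gcongr
  · rw [le_div_iff₀ (by positivity)] at hη2
    linarith

end Crest.Agent.R174.GRLoc
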