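import Mathlib
import Crest.Agent.R174.GRLoc1

/-!
# R174, P3 (GR), block G7a: the matrix part of the localisation

* `unitary_diag`: orthonormal diagonalisation of a unitary matrix;
* `MD`: entrywise derivative of a curve of matrices;
* `Good`: closure under algebra operations of "divided difference" derivatives in an eigenbasis.
-/

set_option autoImplicit false
set_option linter.unusedSectionVars false

namespace Crest.Agent.R174.GRLoc

open Complex Finset Matrix

variable {P : Type*} [Fintype P] [DecidableEq P]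

/-- two-variable version of `uA` -/
noncomputable def uB {A : Type*} [Ring A] [Algebra ℂ A] (n : ℕ) (a : ℕ → ℂ) (x y : A) : A :=
  ∑ j ∈ range n, (a j • x ^ (j + 1) + star (a j) • y ^ (j + 1))

/-- two-variable version of `hA` (`y` plays the role of `x⁻¹`) -/
noncomputable def hB {A : Type*} [Ring A] [Algebra ℂ A] (n : ℕ) (a : ℕ → ℂ) (m : ℕ) (c : ℂ)
    (x y : A) : A :=
  x * (1 + (c * I) • uB n a x y) ^ m

lemma hB_eq_hA {A : Type*} [Ring A] [StarRing A] [Algebra ℂ A] (n : ℕ) (a : ℕ → ℂ) (m : ℕ) (s : ℝ)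
    (x : A) : hB n a m ((s / m : ℝ) : ℂ) x (star x) = hA n a m s x := rfl

/-! ### spectral theorem for unitary matrices -/

/-- orthonormal diagonalisation of a unitary matrix -/
theorem unitary_diag {R : Matrix P P ℂ} (hR : R ∈ Matrix.unitaryGroup P ℂ) :
    ∃ (V : Matrix P P ℂ) (d : P → ℂ), V ∈ Matrix.unitaryGroup P ℂ ∧ (∀ p, ‖d p‖ = 1) ∧
      R = V * Matrix.diagonal d * star V := by
  classical
  have hRR : R * star R = 1 := Matrix.mem_unitaryGroup_iff.1 hR
  have hRR' : star R * R = 1 := Matrix.mem_unitaryGroup_iff'.1 hR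
  set A : Matrix P P ℂ := R + star R with hAdef
  set B : Matrix P P ℂ := I • (R - star R) with hBdef
  have hA : A.IsHermitian := by
    show Aᴴ = A
    rw [hAdef, ← Matrix.star_eq_conjTranspose, star_add, star_star, add_comm]
  have hB : B.IsHermitian := by
    show Bᴴ = B
    rw [hBdef, ← Matrix.star_eq_conjTranspose, star_smul, star_sub, star_star]
    rw [Complex.star_def, Complex.conj_I, neg_smul, ← smul_neg, neg_sub]
  have hAB : A * B = B * A := by
    rw [hAdef, hBdef]
    simp only [add_mul, mul_add, mul_sub, sub_mul, smul_mul_assoc, mul_smul_comm, smul_sub,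
      smul_add, hRR, hRR']
    abel
  set TA := Matrix.toEuclideanLin A with hTA
  set TB := Matrix.toEuclideanLin B with hTB
  have sA : TA.IsSymmetric := Matrix.isSymmetric_toEuclideanLin_iff.2 hA
  have sB : TB.IsSymmetric := Matrix.isSymmetric_toEuclideanLin_iff.2 hB
  have hc : Commute TA TB := by
    apply LinearMap.ext
    intro v
    show TA (TB v) = TB (TA v)
    rw [hTA, hTB]
    simp only [Matrix.toLpLin_apply, Matrix.mulVec_mulVec, hAB]
  let V : ℂ × ℂ → Submodule ℂ (EuclideanSpace ℂ P) := fun i =>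
    Module.End.eigenspace TA i.2 ⊓ Module.End.eigenspace TB i.1
  have hV : DirectSum.IsInternal V := LinearMap.IsSymmetric.directSum_isInternal_of_commute sA sB hc
  have hV' : OrthogonalFamily ℂ (fun i => V i) fun i => (V i).subtypeₗᵢ :=
    LinearMap.IsSymmetric.orthogonalFamily_eigenspace_inf_eigenspace sA sB
  have hfin : {i | V i ≠ ⊥}.Finite := WellFoundedGT.finite_ne_bot_of_iSupIndep
    hV.submodule_iSupIndep
  have : Fintype {i // V i ≠ ⊥} := hfin.fintype
  have hW : DirectSum.IsInternal (fun i : {i // V i ≠ ⊥} => V i) := DirectSum.isInternal_ne_bot_iff.2 hV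
  have hW' : OrthogonalFamily ℂ (fun i : {i // V i ≠ ⊥} => V i) fun i => (V i).subtypeₗᵢ :=
    hV'.comp Subtype.val_injective
  have hn : Module.finrank ℂ (EuclideanSpace ℂ P) = Fintype.card P := finrank_euclideanSpace
  let b0 := hW.subordinateOrthonormalBasis hn hW'
  let eq := Fintype.equivFin P
  let b := b0.reindex eq.symm
  let ix := fun a : P => hW.subordinateOrthonormalBasisIndex hn (eq a) hW'
  have hb : ∀ a : P, b a ∈ V (ix a) := fun a => by
    have := hW.subordinateOrthonormalBasis_subordinate hn (eq a) hW'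
    show (b0.reindex eq.symm) a ∈ V (ix a)
    rw [OrthonormalBasis.reindex_apply]
    exact this
  have hbA : ∀ a, TA (b a) = (ix a).1.2 • b a := fun a =>
    Module.End.mem_eigenspace_iff.1 (Submodule.mem_inf.1 (hb a)).1
  have hbB : ∀ a, TB (b a) = (ix a).1.1 • b a := fun a =>
    Module.End.mem_eigenspace_iff.1 (Submodule.mem_inf.1 (hb a)).2
  let U0 : Matrix P P ℂ := Matrix.of fun j k => b k j
  have hU0 : star U0 * U0 = 1 := by
    ext k l
    rw [Matrix.mul_apply, Matrix.one_apply]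
    have h1 := orthonormal_iff_ite.1 b.orthonormal k l
    rw [PiLp.inner_apply] at h1
    rw [← h1]
    refine Finset.sum_congr rfl fun j _ => ?_
    simp [U0, Matrix.star_apply, mul_comm]
  have hU0' : U0 * star U0 = 1 := mul_eq_one_comm.1 hU0
  have hUmem : U0 ∈ Matrix.unitaryGroup P ℂ := Matrix.mem_unitaryGroup_iff.2 hU0'
  -- the eigenvalues of R
  set d : P → ℂ := fun a => ((ix a).1.2 + (-I) * (ix a).1.1) / 2 with hd
  have hRAB : R = (1 / 2 : ℂ) • (A + (-I) • B) := by
    rw [hAdef, hBdef, smul_smul, neg_mul, I_mul_I, neg_neg, one_smul]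
    rw [show R + star R + (R - star R) = (2 : ℂ) • R by rw [two_smul]; abel, smul_smul]
    norm_num
  have hR' : ∀ a, R *ᵥ (fun j => b a j) = d a • (fun j => b a j) := by
    intro a
    have e1 : A *ᵥ (fun j => b a j) = (ix a).1.2 • (fun j => b a j) := by
      have := congrArg (fun v : EuclideanSpace ℂ P => (fun j => v j)) (hbA a)
      simp only [hTA, Matrix.toLpLin_apply] at this
      exact this
    have e2 : B *ᵥ (fun j => b a j) = (ix a).1.1 • (fun j => b a j) := by
      have := congrArg (fun v : EuclideanSpace ℂ P => (fun j => v j)) (hbB a)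
      simp only [hTB, Matrix.toLpLin_apply] at this
      exact this
    rw [hRAB, Matrix.smul_mulVec, Matrix.add_mulVec, Matrix.smul_mulVec, e1, e2, hd]
    ext j
    simp only [Pi.smul_apply, Pi.add_apply, smul_eq_mul]
    ring
  have hRU : R = U0 * Matrix.diagonal d * star U0 := by
    have h1 : R * U0 = U0 * Matrix.diagonal d := by
      ext j k
      rw [Matrix.mul_diagonal, Matrix.mul_apply]
      have h2 := congrFun (hR' k) j
      simp only [Matrix.mulVec, dotProduct, Pi.smul_apply, smul_eq_mul] at h2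
      rw [mul_comm (U0 j k)]
      exact h2
    rw [← h1, mul_assoc, hU0', mul_one]
  refine ⟨U0, d, hUmem, ?_, hRU⟩
  -- modulus one
  have hD : Matrix.diagonal d = star U0 * R * U0 := by
    rw [hRU]
    simp only [mul_assoc]
    rw [hU0, mul_one, ← mul_assoc, hU0, one_mul]
  have hDm : Matrix.diagonal d ∈ Matrix.unitaryGroup P ℂ := by
    rw [hD]
    exact mul_mem (mul_mem (Unitary.star_mem hUmem) hR) hUmem
  intro p
  have h3 := congrFun (congrFun (Matrix.mem_unitaryGroup_iff.1 hDm) p) p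
  rw [Matrix.star_eq_conjTranspose, Matrix.diagonal_conjTranspose, Matrix.diagonal_mul_diagonal,
    Matrix.diagonal_apply_eq, Matrix.one_apply_eq] at h3
  have h4 : d p * star (d p) = 1 := h3
  rw [Complex.star_def, Complex.mul_conj, Complex.normSq_eq_norm_sq] at h4
  have h5 : ‖d p‖ ^ 2 = 1 := by exact_mod_cast h4
  nlinarith [norm_nonneg (d p)]

/-! ### entrywise derivatives -/

/-- entrywise derivative of a curve of matrices -/
def MD {m n : Type*} (F : ℝ → Matrix m n ℂ) (F' : Matrix m n ℂ) (t : ℝ) : Prop :=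
  ∀ i j, HasDerivAt (fun s => F s i j) (F' i j) t

lemma MD.unique {m n : Type*} {F : ℝ → Matrix m n ℂ} {F' F'' : Matrix m n ℂ} {t : ℝ}
    (h : MD F F' t) (h' : MD F F'' t) : F' = F'' := by
  ext i j
  exact (h i j).unique (h' i j)

lemma MD.const {m n : Type*} (C : Matrix m n ℂ) (t : ℝ) : MD (fun _ => C) 0 t := fun i j => by
  simpa using hasDerivAt_const t (C i j)

lemma MD.add {m n : Type*} {F G : ℝ → Matrix m n ℂ} {F' G' : Matrix m n ℂ} {t : ℝ}
    (hF : MD F F' t) (hG : MD G G' t) : MD (fun s => F s + G s) (F' + G') t := fun i j => by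
  simpa using (hF i j).fun_add (hG i j)

lemma MD.smul {m n : Type*} {F : ℝ → Matrix m n ℂ} {F' : Matrix m n ℂ} {t : ℝ} (c : ℂ)
    (hF : MD F F' t) : MD (fun s => c • F s) (c • F') t := fun i j => by
  simpa using (hF i j).const_mul c

lemma MD.mul {l m n : Type*} [Fintype m] {F : ℝ → Matrix l m ℂ} {G : ℝ → Matrix m n ℂ}
    {F' : Matrix l m ℂ} {G' : Matrix m n ℂ} {t : ℝ}
    (hF : MD F F' t) (hG : MD G G' t) : MD (fun s => F s * G s) (F' * G t + F t * G') t := by
  intro i j
  simp only [Matrix.mul_apply, Matrix.add_apply]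
  rw [← sum_add_distrib]
  exact HasDerivAt.fun_sum fun k _ => (hF i k).mul (hG k j)

lemma MD.star {m n : Type*} {F : ℝ → Matrix m n ℂ} {F' : Matrix m n ℂ} {t : ℝ}
    (hF : MD F F' t) : MD (fun s => (F s)ᴴ) (F')ᴴ t := fun i j => by
  simpa using (hF j i).star

/-! ### divided differences in an eigenbasis -/

/-- `Good` relates a curve of matrices `F` and a scalar function `f` at the time `t0`, for the base
derivative `R'` and (co)eigenvectors `v`, `w` with eigenvalues `exp (α I)`, `μ`. -/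
def Good (t0 : ℝ) (R' : Matrix P P ℂ) (v w : P → ℂ) (α : ℝ) (μ : ℂ)
    (F : ℝ → Matrix P P ℂ) (f : ℂ → ℂ) : Prop :=
  ∃ (F' : Matrix P P ℂ) (fd : ℂ), MD F F' t0 ∧
    star v ᵥ* (F t0) = f (exp (α * I)) • star v ∧ (F t0) *ᵥ w = f μ • w ∧
    star v ⬝ᵥ (F' *ᵥ w) = fd * (star v ⬝ᵥ (R' *ᵥ w)) ∧
    fd * (exp (α * I) - μ) = f (exp (α * I)) - f μ ∧
    (exp (α * I) = μ → HasDerivAt (fun t : ℝ => f (exp (t * I))) (fd * (exp (α * I) * I)) α)

section good
variable {t0 : ℝ} {R' : Matrix P P ℂ} {v w : P → ℂ} {α : ℝ} {μ : ℂ}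

lemma Good.const (c : ℂ) : Good t0 R' v w α μ (fun _ => c • 1) (fun _ => c) := by
  refine ⟨0, 0, MD.const _ _, ?_, ?_, ?_, ?_, ?_⟩
  · rw [Matrix.vecMul_smul, Matrix.vecMul_one]
  · rw [Matrix.smul_mulVec, Matrix.one_mulVec]
  · simp
  · simp
  · intro _; simpa using hasDerivAt_const α c

lemma Good.add {F G : ℝ → Matrix P P ℂ} {f g : ℂ → ℂ} (hF : Good t0 R' v w α μ F f)
    (hG : Good t0 R' v w α μ G g) :
    Good t0 R' v w α μ (fun s => F s + G s) (fun z => f z + g z) := by
  obtain ⟨F', fd, h1, h2, h3, h4, h5, h6⟩ := hF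
  obtain ⟨G', gd, k1, k2, k3, k4, k5, k6⟩ := hG
  refine ⟨F' + G', fd + gd, h1.add k1, ?_, ?_, ?_, ?_, ?_⟩
  · rw [Matrix.vecMul_add, h2, k2, add_smul]
  · rw [Matrix.add_mulVec, h3, k3, add_smul]
  · rw [Matrix.add_mulVec, dotProduct_add, h4, k4]; ring
  · linear_combination h5 + k5
  · intro h
    exact ((h6 h).fun_add (k6 h)).congr_deriv (by ring)

lemma Good.mul {F G : ℝ → Matrix P P ℂ} {f g : ℂ → ℂ} (hF : Good t0 R' v w α μ F f)
    (hG : Good t0 R' v w α μ G g) :
    Good t0 R' v w α μ (fun s => F s * G s) (fun z => f z * g z) := by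
  obtain ⟨F', fd, h1, h2, h3, h4, h5, h6⟩ := hF
  obtain ⟨G', gd, k1, k2, k3, k4, k5, k6⟩ := hG
  refine ⟨F' * G t0 + F t0 * G', fd * g μ + f (exp (α * I)) * gd, h1.mul k1, ?_, ?_, ?_, ?_, ?_⟩
  · rw [← Matrix.vecMul_vecMul, h2, Matrix.smul_vecMul, k2, smul_smul]
  · rw [← Matrix.mulVec_mulVec, k3, Matrix.mulVec_smul, h3, smul_smul, mul_comm]
  · rw [Matrix.add_mulVec, dotProduct_add, ← Matrix.mulVec_mulVec, k3, Matrix.mulVec_smul,
      dotProduct_smul, h4, ← Matrix.mulVec_mulVec, dotProduct_mulVec (star v) (F t0), h2,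
      smul_dotProduct, k4]
    simp only [smul_eq_mul]; ring
  · linear_combination g μ * h5 + f (exp (α * I)) * k5
  · intro h
    refine ((h6 h).mul (k6 h)).congr_deriv ?_
    rw [← h]; ring

lemma Good.smul {F : ℝ → Matrix P P ℂ} {f : ℂ → ℂ} (c : ℂ) (hF : Good t0 R' v w α μ F f) :
    Good t0 R' v w α μ (fun s => c • F s) (fun z => c • f z) := by
  have := (Good.const (t0 := t0) (R' := R') (v := v) (w := w) (α := α) (μ := μ) c).mul hF
  simpa only [smul_mul_assoc, one_mul, smul_eq_mul] using this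

lemma Good.pow {F : ℝ → Matrix P P ℂ} {f : ℂ → ℂ} (hF : Good t0 R' v w α μ F f) (n : ℕ) :
    Good t0 R' v w α μ (fun s => F s ^ n) (fun z => f z ^ n) := by
  induction n with
  | zero =>
    have := (Good.const (t0 := t0) (R' := R') (v := v) (w := w) (α := α) (μ := μ) 1)
    simpa only [pow_zero, one_smul] using this
  | succ n ih => simpa only [pow_succ] using ih.mul hF

lemma Good.sum {ι : Type*} (s : Finset ι) {F : ι → ℝ → Matrix P P ℂ} {f : ι → ℂ → ℂ}
    (h : ∀ i ∈ s, Good t0 R' v w α μ (F i) (f i)) :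
    Good t0 R' v w α μ (fun t => ∑ i ∈ s, F i t) (fun z => ∑ i ∈ s, f i z) := by
  classical
  induction s using Finset.induction_on with
  | empty =>
    have := (Good.const (t0 := t0) (R' := R') (v := v) (w := w) (α := α) (μ := μ) 0)
    simpa only [Finset.sum_empty, zero_smul] using this
  | insert a s ha ih =>
    have h1 := (h a (mem_insert_self a s)).add (ih fun i hi => h i (mem_insert_of_mem hi))
    simpa only [Finset.sum_insert ha] using h1

/-- the localising function preserves `Good` -/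
lemma Good.hB {R S : ℝ → Matrix P P ℂ} (hR : Good t0 R' v w α μ R (fun z => z))
    (hS : Good t0 R' v w α μ S (fun z => star z)) (n : ℕ) (a : ℕ → ℂ) (m : ℕ)
    (c : ℂ) :
    Good t0 R' v w α μ (fun t => GRLoc.hB n a m c (R t) (S t))
      (fun z => GRLoc.hB n a m c z (star z)) := by
  unfold GRLoc.hB uB
  refine hR.mul (Good.pow ?_ m)
  have h1 : Good t0 R' v w α μ (fun _ => (1 : Matrix P P ℂ)) (fun _ => (1 : ℂ)) := by
    have := (Good.const (t0 := t0) (R' := R') (v := v) (w := w) (α := α) (μ := μ) 1)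
    simpa only [one_smul] using this
  refine h1.add (Good.smul _ (Good.sum _ fun j _ => ?_))
  exact (Good.smul _ (hR.pow _)).add (Good.smul _ (hS.pow _))

/-- base cases: the curve itself and its inverse -/
lemma Good.base {R S : ℝ → Matrix P P ℂ} (hMD : MD R R' t0)
    (hU : R t0 ∈ Matrix.unitaryGroup P ℂ) (hS0 : S t0 = star (R t0))
    (hMDS : MD S (-(star (R t0) * R' * star (R t0))) t0)
    (hv : (R t0) *ᵥ v = exp (α * I) • v) (hw : (R t0) *ᵥ w = μ • w) (hμ : ‖μ‖ = 1) :
    Good t0 R' v w α μ R (fun z => z) ∧ Good t0 R' v w α μ S (fun z => star z) := by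
  have hlam : ‖exp (α * I)‖ = 1 := Complex.norm_exp_ofReal_mul_I α
  have hconj : ∀ z : ℂ, ‖z‖ = 1 → star z * z = 1 := by
    intro z hz
    rw [Complex.star_def, mul_comm, Complex.mul_conj, Complex.normSq_eq_norm_sq, hz]; simp
  have hUU : star (R t0) * R t0 = 1 := Matrix.mem_unitaryGroup_iff'.1 hU
  have hUU' : R t0 * star (R t0) = 1 := Matrix.mem_unitaryGroup_iff.1 hU
  -- action of the adjoint on eigenvectors
  have hadj : ∀ (x : P → ℂ) (z : ℂ), ‖z‖ = 1 → (R t0) *ᵥ x = z • x →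
      (star (R t0)) *ᵥ x = star z • x := by
    intro x z hz hx
    have h1 : star (R t0) *ᵥ (z • x) = x := by
      rw [← hx, Matrix.mulVec_mulVec, hUU, Matrix.one_mulVec]
    rw [Matrix.mulVec_smul] at h1
    calc (star (R t0)) *ᵥ x = (star z * z) • ((star (R t0)) *ᵥ x) := by rw [hconj z hz, one_smul]
      _ = star z • x := by rw [← smul_smul, h1]
  have hv' := hadj v _ hlam hv
  have hw' := hadj w _ hμ hw
  have hvl : star v ᵥ* (R t0) = exp (α * I) • star v := by
    have := congrArg star hv'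
    rw [Matrix.star_mulVec, star_smul, star_star, Matrix.star_eq_conjTranspose,
      Matrix.conjTranspose_conjTranspose] at this
    exact this
  have hvl' : star v ᵥ* (star (R t0)) = star (exp (α * I)) • star v := by
    have := congrArg star hv
    rw [Matrix.star_mulVec, star_smul] at this
    exact this
  have hexp : HasDerivAt (fun t : ℝ => exp (t * I)) (exp (α * I) * I) α := by
    have := ((hasDerivAt_id (α : ℂ)).mul_const I).cexp.comp_ofReal
    simpa using this
  constructor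
  · refine ⟨R', 1, hMD, hvl, hw, by rw [one_mul], by ring, fun _ => ?_⟩
    simpa using hexp
  · refine ⟨_, -(star (exp (α * I)) * star μ), hMDS, by rw [hS0]; exact hvl', by rw [hS0]; exact hw',
      ?_, ?_, ?_⟩
    · rw [Matrix.neg_mulVec, dotProduct_neg, ← Matrix.mulVec_mulVec, hw', Matrix.mulVec_smul,
        dotProduct_smul, ← Matrix.mulVec_mulVec, dotProduct_mulVec (star v) (star (R t0)), hvl',
        smul_dotProduct]
      simp only [smul_eq_mul]; ring
    · have e1 := hconj _ hlam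
      have e2 := hconj _ hμ
      linear_combination (-star μ) * e1 + star (exp (α * I)) * e2
    · intro h
      have := hexp.star
      refine this.congr_deriv ?_
      rw [← h, star_mul']
      have e1 := hconj _ hlam
      have : star I = -I := by rw [Complex.star_def, Complex.conj_I]
      rw [this]
      linear_combination (star (exp (α * I)) * I) * e1

end good

/-! ### the localising functions on unitary matrices -/

lemma hA_mulVec {R : Matrix P P ℂ} (hR : R ∈ Matrix.unitaryGroup P ℂ) {w : P → ℂ} {μ : ℂ}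
    (hμ : ‖μ‖ = 1) (hw : R *ᵥ w = μ • w) (n : ℕ) (a : ℕ → ℂ) (m : ℕ) (s : ℝ) :
    (hA n a m s R) *ᵥ w = hA n a m s μ • w := by
  obtain ⟨h1, h2⟩ := Good.base (t0 := 0) (R' := 0) (v := 0) (w := w) (α := 0) (μ := μ)
    (R := fun _ => R) (S := fun _ => star R) (MD.const R 0) hR rfl
    (by simpa using MD.const (star R) 0) (by simp) hw hμ
  obtain ⟨_, _, _, _, h, _⟩ := Good.hB h1 h2 n a m ((s / m : ℝ) : ℂ)
  exact h

lemma hA_diag {R V : Matrix P P ℂ} {d : P → ℂ} (hV : V ∈ Matrix.unitaryGroup P ℂ)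
    (hd : ∀ p, ‖d p‖ = 1) (hR : R = V * Matrix.diagonal d * star V) (n : ℕ) (a : ℕ → ℂ) (m : ℕ)
    (s : ℝ) :
    hA n a m s R = V * Matrix.diagonal (fun p => hA n a m s (d p)) * star V := by
  have hVV : V * star V = 1 := Matrix.mem_unitaryGroup_iff.1 hV
  have hVV' : star V * V = 1 := Matrix.mem_unitaryGroup_iff'.1 hV
  have hdm : Matrix.diagonal d ∈ Matrix.unitaryGroup P ℂ := by
    rw [Matrix.mem_unitaryGroup_iff, Matrix.star_eq_conjTranspose, Matrix.diagonal_conjTranspose,
      Matrix.diagonal_mul_diagonal]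
    have : (fun i => d i * (star d) i) = fun _ => 1 := by
      funext i
      show d i * star (d i) = 1
      rw [Complex.star_def, Complex.mul_conj, Complex.normSq_eq_norm_sq, hd i]; simp
    rw [this, Matrix.diagonal_one]
  have hRm : R ∈ Matrix.unitaryGroup P ℂ := by
    rw [hR]; exact mul_mem (mul_mem hV hdm) (Unitary.star_mem hV)
  have hRV : R * V = V * Matrix.diagonal d := by
    rw [hR, mul_assoc, hVV', mul_one]
  have hcol : ∀ q, R *ᵥ (fun p => V p q) = d q • (fun p => V p q) := by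
    intro q
    ext p
    have := congrFun (congrFun hRV p) q
    rw [Matrix.mul_diagonal, Matrix.mul_apply] at this
    simp only [Matrix.mulVec, dotProduct, Pi.smul_apply, smul_eq_mul]
    rw [mul_comm (d q)]
    exact this
  have h1 : hA n a m s R * V = V * Matrix.diagonal (fun p => hA n a m s (d p)) := by
    ext p q
    have := congrFun (hA_mulVec hRm (hd q) (hcol q) n a m s) p
    simp only [Matrix.mulVec, dotProduct, Pi.smul_apply, smul_eq_mul] at this
    rw [Matrix.mul_diagonal, Matrix.mul_apply, mul_comm (V p q)]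
    exact this
  rw [← h1, mul_assoc, hVV, mul_one]

lemma hA_isUnit_det {R : Matrix P P ℂ} (hR : R ∈ Matrix.unitaryGroup P ℂ)
    (n : ℕ) (a : ℕ → ℂ) (m : ℕ) (s : ℝ) : IsUnit (hA n a m s R).det := by
  obtain ⟨V, d, hV, hd, hRV⟩ := unitary_diag hR
  have hVV : V * star V = 1 := Matrix.mem_unitaryGroup_iff.1 hV
  rw [hA_diag hV hd hRV, Matrix.det_mul, Matrix.det_mul, Matrix.det_diagonal]
  have h1 : V.det * (star V).det = 1 := by rw [← Matrix.det_mul, hVV, Matrix.det_one]
  have h2 : (∏ p, hA n a m s (d p)) ≠ 0 := by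
    rw [Finset.prod_ne_zero_iff]
    intro p _ h0
    have := one_le_norm_hA n a m s (hd p)
    rw [h0, norm_zero] at this
    linarith
  rw [isUnit_iff_ne_zero]
  intro h0
  have h3 : (∏ p, hA n a m s (d p)) = 0 := by
    calc (∏ p, hA n a m s (d p)) = (V.det * (star V).det) * (∏ p, hA n a m s (d p)) := by
          rw [h1, one_mul]
      _ = V.det * (∏ p, hA n a m s (d p)) * (star V).det := by ring
      _ = 0 := h0
  exact h2 h3

section loc
variable {δ : ℝ} {n : ℕ} {a : ℕ → ℂ} {m : ℕ} {B b : ℝ}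

/-- entries of the derivative of `h(R)` in an eigenbasis -/
lemma eig_bound (hL : LocFn δ n a m B b) {R S : ℝ → Matrix P P ℂ} {R' H' : Matrix P P ℂ} {t0 : ℝ}
    (hU : R t0 ∈ Matrix.unitaryGroup P ℂ) (hMD : MD R R' t0) (hS0 : S t0 = star (R t0))
    (hMDS : MD S (-(star (R t0) * R' * star (R t0))) t0)
    (hH : MD (fun t => hB n a m ((1 / m : ℝ) : ℂ) (R t) (S t)) H' t0) {v w : P → ℂ} {ν μ : ℂ} (hν : ‖ν‖ = 1)
    (hμ : ‖μ‖ = 1) (hv : (R t0) *ᵥ v = ν • v) (hw : (R t0) *ᵥ w = μ • w) :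
    ‖star v ⬝ᵥ (H' *ᵥ w)‖ ≤ B * ‖star v ⬝ᵥ (R' *ᵥ w)‖ ∧
      (ν.re ≤ Real.cos δ → μ.re ≤ Real.cos δ →
        ‖star v ⬝ᵥ (H' *ᵥ w)‖ ≤ b * ‖star v ⬝ᵥ (R' *ᵥ w)‖) := by
  have hν' : exp (ν.arg * I) = ν := by
    have := Complex.norm_mul_exp_arg_mul_I ν
    rwa [hν, ofReal_one, one_mul] at this
  obtain ⟨h1, h2⟩ := Good.base (α := ν.arg) hMD hU hS0 hMDS (by rw [hν']; exact hv) hw hμ
  obtain ⟨F', fd, hF', _, _, k1, k2, k3⟩ := Good.hB h1 h2 n a m ((1 / m : ℝ) : ℂ)
  simp only [hB_eq_hA] at k2 k3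
  have : F' = H' := hF'.unique hH
  subst this
  rw [k1, norm_mul]
  rw [hν'] at k2 k3
  by_cases hne : ν = μ
  · have k4 := k3 hne
    obtain ⟨g', hg1, hg2, hg3⟩ := hL.der
    have k5 : fd * (ν * I) = g' ν.arg := k4.unique (hg1 ν.arg)
    have k6 : ‖fd‖ = ‖g' ν.arg‖ := by
      rw [← k5, norm_mul, norm_mul, hν, Complex.norm_I]; ring
    rw [k6]
    refine ⟨mul_le_mul_of_nonneg_right (hg2 _) (norm_nonneg _), fun h _ => ?_⟩
    refine mul_le_mul_of_nonneg_right (hg3 _ ?_) (norm_nonneg _)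
    have : Real.cos ν.arg = ν.re := by
      conv_rhs => rw [← hν']
      rw [Complex.exp_ofReal_mul_I_re]
    rw [this]; exact h
  · have hpos : 0 < ‖ν - μ‖ := norm_pos_iff.2 (sub_ne_zero.2 hne)
    have k4 : ‖fd‖ * ‖ν - μ‖ = ‖hA n a m 1 ν - hA n a m 1 μ‖ := by rw [← norm_mul, k2]
    constructor
    · refine mul_le_mul_of_nonneg_right ?_ (norm_nonneg _)
      have := hL.two ν μ hν hμ
      rw [← k4] at this
      exact le_of_mul_le_mul_right this hpos
    · intro e1 e2
      refine mul_le_mul_of_nonneg_right ?_ (norm_nonneg _)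
      have := hL.off ν μ hν hμ e1 e2
      rw [← k4] at this
      exact le_of_mul_le_mul_right this hpos

/-- sum bound for a sesquilinear expression -/
lemma norm_triple_le {N : ℝ} {x y : P → ℂ} {M : Matrix P P ℂ} {X Y : ℝ} (hX0 : 0 ≤ X)
    (hx : ∀ p, ‖x p‖ ≤ X) (hy : ∀ p, ‖y p‖ ≤ Y) (hM : ∀ p q, x p ≠ 0 → y q ≠ 0 → ‖M p q‖ ≤ N)
    (hN : 0 ≤ N) :
    ‖star x ⬝ᵥ (M *ᵥ y)‖ ≤ (Fintype.card P : ℝ) ^ 2 * (X * N * Y) := by
  have hterm : ∀ p q, ‖star (x p) * (M p q * y q)‖ ≤ X * N * Y := by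
    intro p q
    have hY0 : 0 ≤ Y := (norm_nonneg _).trans (hy q)
    by_cases hp : x p = 0
    · rw [hp]; simp; positivity
    by_cases hq : y q = 0
    · rw [hq]; simp; positivity
    rw [norm_mul, norm_mul, norm_star, mul_assoc]
    exact mul_le_mul (hx p) (mul_le_mul (hM p q hp hq) (hy q) (norm_nonneg _) hN)
      (by positivity) hX0
  calc ‖star x ⬝ᵥ (M *ᵥ y)‖ = ‖∑ p, ∑ q, star (x p) * (M p q * y q)‖ := by
        congr 1
        simp only [dotProduct, Matrix.mulVec, Finset.mul_sum, Pi.star_apply]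
    _ ≤ ∑ p, ∑ q, ‖star (x p) * (M p q * y q)‖ :=
        (norm_sum_le _ _).trans (sum_le_sum fun p _ => norm_sum_le _ _)
    _ ≤ ∑ _p : P, ∑ _q : P, X * N * Y := sum_le_sum fun p _ => sum_le_sum fun q _ => hterm p q
    _ = _ := by simp; ring

/-- **G7a**: the matrix localisation estimate. `A = H' h(R)⁻¹`. -/
theorem matrix_loc (hL : LocFn δ n a m B b) {R S : ℝ → Matrix P P ℂ} {R' H' : Matrix P P ℂ}
    {t0 : ℝ} (hU : R t0 ∈ Matrix.unitaryGroup P ℂ) (hMD : MD R R' t0) (hS0 : S t0 = star (R t0))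
    (hMDS : MD S (-(star (R t0) * R' * star (R t0))) t0)
    (hH : MD (fun t => hB n a m ((1 / m : ℝ) : ℂ) (R t) (S t)) H' t0) {c : ℝ} (hc : ∀ p q, ‖R' p q‖ ≤ c) (hc0 : 0 ≤ c)
    {V : Matrix P P ℂ} {d : P → ℂ} (hV : V ∈ Matrix.unitaryGroup P ℂ) (hd : ∀ p, ‖d p‖ = 1)
    (hRV : R t0 = V * Matrix.diagonal d * star V) {x y : P → ℂ} {X : ℝ} (hX0 : 0 ≤ X)
    (hx : ∀ p, ‖x p‖ ≤ X) (hy : ∀ p, ‖y p‖ ≤ X) :
    ‖star x ⬝ᵥ ((H' * (hA n a m 1 (R t0))⁻¹) *ᵥ y)‖
        ≤ (Fintype.card P : ℝ) ^ 6 * X ^ 2 * c * B ∧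
      ((∀ p, Real.cos δ < (d p).re → (star V *ᵥ x) p = 0) →
       (∀ p, Real.cos δ < (d p).re → (star V *ᵥ y) p = 0) →
        ‖star x ⬝ᵥ ((H' * (hA n a m 1 (R t0))⁻¹) *ᵥ y)‖
          ≤ (Fintype.card P : ℝ) ^ 6 * X ^ 2 * c * b) := by
  have hVV : V * star V = 1 := Matrix.mem_unitaryGroup_iff.1 hV
  have hVV' : star V * V = 1 := Matrix.mem_unitaryGroup_iff'.1 hV
  have hB0 : 0 ≤ B := hL.pos
  have hb0 := hL.nonneg
  have hVe : ∀ i j, ‖V i j‖ ≤ 1 := fun i j => entry_norm_bound_of_unitary hV i j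
  have hcolV : ∀ q, (R t0) *ᵥ (fun p => V p q) = d q • (fun p => V p q) := by
    intro q
    have hRV' : R t0 * V = V * Matrix.diagonal d := by rw [hRV, mul_assoc, hVV', mul_one]
    ext p
    have := congrFun (congrFun hRV' p) q
    rw [Matrix.mul_diagonal, Matrix.mul_apply] at this
    simp only [Matrix.mulVec, dotProduct, Pi.smul_apply, smul_eq_mul]
    rw [mul_comm (d q)]
    exact this
  -- inverse of h(R)
  have hdet := hA_isUnit_det hU n a m 1
  have hne : ∀ q, hA n a m 1 (d q) ≠ 0 := fun q h0 => by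
    have := one_le_norm_hA n a m 1 (hd q)
    rw [h0, norm_zero] at this; linarith
  have hinvV : (hA n a m 1 (R t0))⁻¹ * V
      = V * Matrix.diagonal (fun q => (hA n a m 1 (d q))⁻¹) := by
    have h1 : hA n a m 1 (R t0) * V = V * Matrix.diagonal (fun q => hA n a m 1 (d q)) := by
      rw [hA_diag hV hd hRV, mul_assoc, hVV', mul_one]
    have h2 : V * Matrix.diagonal (fun q => (hA n a m 1 (d q))⁻¹)
        = (hA n a m 1 (R t0))⁻¹ * (hA n a m 1 (R t0) *
          (V * Matrix.diagonal (fun q => (hA n a m 1 (d q))⁻¹))) := by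
      rw [← mul_assoc, Matrix.nonsing_inv_mul _ hdet, one_mul]
    rw [h2, ← mul_assoc (hA n a m 1 (R t0)), h1, mul_assoc V, Matrix.diagonal_mul_diagonal]
    have h3 : (fun i => hA n a m 1 (d i) * (hA n a m 1 (d i))⁻¹) = fun _ => (1 : ℂ) := by
      funext i; exact mul_inv_cancel₀ (hne i)
    rw [h3, Matrix.diagonal_one, mul_one]
  -- the matrix in the eigenbasis
  set Ah : Matrix P P ℂ := star V * H' * V * Matrix.diagonal (fun q => (hA n a m 1 (d q))⁻¹)
    with hAh
  have hA_eq : H' * (hA n a m 1 (R t0))⁻¹ = V * Ah * star V := by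
    calc H' * (hA n a m 1 (R t0))⁻¹ = (V * star V) * (H' * ((hA n a m 1 (R t0))⁻¹ * V) * star V) := by
          rw [hVV, one_mul, mul_assoc H', mul_assoc _ V, hVV, mul_one]
      _ = _ := by rw [hinvV, hAh]; simp only [mul_assoc]
  have hsand : ∀ (M : Matrix P P ℂ) p q, (star V * M * V) p q
      = star (fun i => V i p) ⬝ᵥ (M *ᵥ (fun i => V i q)) := by
    intro M p q
    rw [mul_assoc, Matrix.mul_apply]
    simp only [Matrix.star_apply, dotProduct, Pi.star_apply, Matrix.mulVec, Matrix.mul_apply]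
  have hR'V : ∀ p q, ‖(star V * R' * V) p q‖ ≤ (Fintype.card P : ℝ) ^ 2 * c := by
    intro p q
    rw [hsand]
    have := norm_triple_le (x := fun i => V i p) (y := fun i => V i q) (M := R') (N := c)
      (X := 1) (Y := 1) zero_le_one (fun i => hVe i p) (fun i => hVe i q)
      (fun i j _ _ => hc i j) hc0
    simpa using this
  have hinvle : ∀ q, ‖(hA n a m 1 (d q))⁻¹‖ ≤ 1 := by
    intro q
    rw [norm_inv]
    exact inv_le_one_of_one_le₀ (one_le_norm_hA n a m 1 (hd q))
  have hAhB : ∀ p q, ‖Ah p q‖ ≤ (Fintype.card P : ℝ) ^ 2 * c * B := by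
    intro p q
    rw [hAh, Matrix.mul_diagonal, norm_mul, hsand]
    have h1 := (eig_bound hL hU hMD hS0 hMDS hH (hd p) (hd q) (hcolV p) (hcolV q)).1
    rw [← hsand R'] at h1
    have h2 := hR'V p q
    have h3 := hinvle q
    calc _ ≤ (B * ((Fintype.card P : ℝ) ^ 2 * c)) * 1 :=
          mul_le_mul (h1.trans (by gcongr)) h3 (norm_nonneg _) (by positivity)
      _ = _ := by ring
  have hAhb : ∀ p q, (d p).re ≤ Real.cos δ → (d q).re ≤ Real.cos δ →
      ‖Ah p q‖ ≤ (Fintype.card P : ℝ) ^ 2 * c * b := by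
    intro p q hp hq
    rw [hAh, Matrix.mul_diagonal, norm_mul, hsand]
    have h1 := (eig_bound hL hU hMD hS0 hMDS hH (hd p) (hd q) (hcolV p) (hcolV q)).2 hp hq
    rw [← hsand R'] at h1
    have h2 := hR'V p q
    have h3 := hinvle q
    calc _ ≤ (b * ((Fintype.card P : ℝ) ^ 2 * c)) * 1 :=
          mul_le_mul (h1.trans (by gcongr)) h3 (norm_nonneg _) (by positivity)
      _ = _ := by ring
  have hform : star x ⬝ᵥ ((H' * (hA n a m 1 (R t0))⁻¹) *ᵥ y)
      = star (star V *ᵥ x) ⬝ᵥ (Ah *ᵥ (star V *ᵥ y)) := by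
    rw [hA_eq, Matrix.star_mulVec, ← Matrix.mulVec_mulVec, ← Matrix.mulVec_mulVec,
      dotProduct_mulVec (star x) V, Matrix.star_eq_conjTranspose, Matrix.conjTranspose_conjTranspose]
  have hVx : ∀ (z : P → ℂ), (∀ p, ‖z p‖ ≤ X) → ∀ p, ‖(star V *ᵥ z) p‖ ≤ Fintype.card P * X := by
    intro z hz p
    simp only [Matrix.mulVec, dotProduct, Matrix.star_apply]
    refine (norm_sum_le _ _).trans ?_
    have : ∀ i ∈ univ, ‖star (V i p) * z i‖ ≤ X := by
      intro i _
      rw [norm_mul, norm_star]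
      calc ‖V i p‖ * ‖z i‖ ≤ 1 * X := mul_le_mul (hVe i p) (hz i) (norm_nonneg _) zero_le_one
        _ = X := one_mul X
    refine (sum_le_sum this).trans ?_
    simp
  rw [hform]
  constructor
  · have := norm_triple_le (x := star V *ᵥ x) (y := star V *ᵥ y) (M := Ah)
      (N := (Fintype.card P : ℝ) ^ 2 * c * B)
      (X := Fintype.card P * X) (Y := Fintype.card P * X) (by positivity) (hVx x hx) (hVx y hy)
      (fun i j _ _ => hAhB i j) (by positivity)
    refine this.trans (le_of_eq (by ring))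
  · intro hx1 hy1
    have := norm_triple_le (x := star V *ᵥ x) (y := star V *ᵥ y) (M := Ah)
      (N := (Fintype.card P : ℝ) ^ 2 * c * b)
      (X := Fintype.card P * X) (Y := Fintype.card P * X) (by positivity) (hVx x hx) (hVx y hy)
      (fun i j hi hj => hAhb i j ?_ ?_) (by positivity)
    · refine this.trans (le_of_eq (by ring))
    · by_contra h
      push Not at h
      exact hi (hx1 i h)
    · by_contra h
      push Not at h
      exact hj (hy1 j h)

end loc

end Crest.Agent.R174.GRLoc
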