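import Crest.Agent.R174.GRDefs

/-!
# R174 P3: interface between the scalar/matrix localisation (helper430: G6, G7a) and the T4 assembly (helper328).
-/

set_option autoImplicit false
open scoped Matrix.Norms.L2Operator

namespace Crest.Agent.R174.GR

/-- Localisation data for `N × N` matrices.  `H (s, Z) = Z (1 + i s u(Z)/m)^m`.
`K * B` (global) and `K * b` (off the arc `‖z - 1‖ < δ`) bounds. -/
structure LocData (N : Type) [Fintype N] [DecidableEq N] (K δ B b : ℝ)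
    (H : ℂ × Matrix N N ℂ → Matrix N N ℂ) : Prop where
  smooth : ∀ s : ℝ, s ∈ Set.Icc (0:ℝ) 1 → ∀ Z ∈ unitary (Matrix N N ℂ),
    ContDiffAt ℂ ⊤ H ((s : ℂ), Z)
  unit : ∀ s : ℝ, s ∈ Set.Icc (0:ℝ) 1 → ∀ Z ∈ unitary (Matrix N N ℂ), IsUnit (H ((s : ℂ), Z))
  zero : ∀ Z, H (0, Z) = Z
  bound : ∀ Z ∈ unitary (Matrix N N ℂ), ∀ X : Matrix N N ℂ,
    ‖fderiv ℂ (fun Z => H (1, Z)) Z (X * Z) * Ring.inverse (H (1, Z))‖ ≤ K * B * ‖X‖
  small : ∀ Z ∈ unitary (Matrix N N ℂ), ∀ W ∈ unitary (Matrix N N ℂ), ∀ d : N → ℂ,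
    Z = W * Matrix.diagonal d * star W → ∀ X : Matrix N N ℂ, ∀ w : N → ℂ,
    (∀ j, ‖d j - 1‖ < δ → (star W).mulVec w j = 0) →
    ‖dotProduct (star w)
        ((fderiv ℂ (fun Z => H (1, Z)) Z (X * Z) * Ring.inverse (H (1, Z))).mulVec w)‖
      ≤ K * b * ‖X‖ * ∑ j, ‖w j‖ ^ 2

/-- Localisation for a finite family of matrix sizes (common `B`, `b`!). -/
def LocFam {ι : Type} [Fintype ι] (N : ι → Type) [∀ x, Fintype (N x)] [∀ x, DecidableEq (N x)] :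
    Prop :=
  ∃ K : ℝ, ∀ δ : ℝ, 0 < δ → ∀ D : ℕ, ∀ ε : ℝ, 0 < ε →
    ∃ (B b : ℝ), 1 ≤ B ∧ 0 ≤ b ∧ B ^ D * b ≤ ε ∧
      ∀ x, ∃ H : ℂ × Matrix (N x) (N x) ℂ → Matrix (N x) (N x) ℂ, LocData (N x) K δ B b H

/-- Unitary diagonalisation of a unitary matrix. -/
def DiagProp (N : Type) [Fintype N] [DecidableEq N] : Prop :=
  ∀ Z ∈ unitary (Matrix N N ℂ), ∃ W ∈ unitary (Matrix N N ℂ), ∃ d : N → ℂ,
    (∀ j, ‖d j‖ = 1) ∧ Z = W * Matrix.diagonal d * star W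

end Crest.Agent.R174.GR
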