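import Mathlib
import Crest.Agent.R174.GRLoc2
import Crest.Agent.R174.GRLocDef

/-!
# R174, P3 (GR): `LocFam` and `DiagProp` (interface of `GRLocDef`)
-/

set_option autoImplicit false
open scoped Matrix.Norms.L2Operator

namespace Crest.Agent.R174.GRLoc

open Complex Finset Matrix

variable {N : Type} [Fintype N] [DecidableEq N]

theorem diagProp (N : Type) [Fintype N] [DecidableEq N] : GR.DiagProp N := by
  intro Z hZ
  obtain ⟨V, d, hV, hd, h⟩ := unitary_diag (P := N) hZ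
  exact ⟨V, hV, d, hd, h⟩

/-- the localising map -/
noncomputable def HH (n : ℕ) (a : ℕ → ℂ) (m : ℕ) (p : ℂ × Matrix N N ℂ) : Matrix N N ℂ :=
  hB n a m (p.1 / m) p.2 (Ring.inverse p.2)

lemma isUnit_of_unitary {Z : Matrix N N ℂ} (hZ : Z ∈ unitary (Matrix N N ℂ)) : IsUnit Z :=
  ⟨⟨Z, star Z, hZ.2, hZ.1⟩, rfl⟩

lemma inverse_of_unitary {Z : Matrix N N ℂ} (hZ : Z ∈ unitary (Matrix N N ℂ)) :
    Ring.inverse Z = star Z := by
  have : Ring.inverse ((⟨Z, star Z, hZ.2, hZ.1⟩ : (Matrix N N ℂ)ˣ) : Matrix N N ℂ) = star Z := by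
    rw [Ring.inverse_unit]; rfl
  exact this

lemma contDiffAt_HH (n : ℕ) (a : ℕ → ℂ) (m : ℕ) (s : ℂ) {Z : Matrix N N ℂ} (hZ : IsUnit Z) :
    ContDiffAt ℂ ⊤ (HH (N := N) n a m) (s, Z) := by
  unfold HH hB uB
  obtain ⟨u, rfl⟩ := hZ
  have h1 : ContDiffAt ℂ ⊤ (fun p : ℂ × Matrix N N ℂ => p.2) (s, (u : Matrix N N ℂ)) :=
    contDiffAt_snd
  have h0 : ContDiffAt ℂ ⊤ (fun p : ℂ × Matrix N N ℂ => p.1) (s, (u : Matrix N N ℂ)) :=
    contDiffAt_fst
  have h2 : ContDiffAt ℂ ⊤ (fun p : ℂ × Matrix N N ℂ => Ring.inverse p.2) (s, (u : Matrix N N ℂ)) :=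
    ContDiffAt.comp (g := Ring.inverse) (f := fun p : ℂ × Matrix N N ℂ => p.2)
      (s, (u : Matrix N N ℂ)) (contDiffAt_ringInverse ℂ u) h1
  have h3 : ContDiffAt ℂ ⊤ (fun p : ℂ × Matrix N N ℂ => ∑ j ∈ range n,
      (a j • p.2 ^ (j + 1) + star (a j) • Ring.inverse p.2 ^ (j + 1))) (s, (u : Matrix N N ℂ)) := by
    refine ContDiffAt.sum fun j _ => ?_
    exact ((h1.pow _).const_smul _).add ((h2.pow _).const_smul _)
  have h4 : ContDiffAt ℂ ⊤ (fun p : ℂ × Matrix N N ℂ => (p.1 / m * I)) (s, (u : Matrix N N ℂ)) :=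
    (h0.div_const _).mul contDiffAt_const
  have h5 : ContDiffAt ℂ ⊤ (fun p : ℂ × Matrix N N ℂ => (1 : Matrix N N ℂ) + (p.1 / m * I) •
      ∑ j ∈ range n, (a j • p.2 ^ (j + 1) + star (a j) • Ring.inverse p.2 ^ (j + 1)))
      (s, (u : Matrix N N ℂ)) := contDiffAt_const.add (h4.smul h3)
  exact h1.mul (h5.pow m)

lemma HH_zero (n : ℕ) (a : ℕ → ℂ) (m : ℕ) (Z : Matrix N N ℂ) : HH n a m (0, Z) = Z := by
  unfold HH hB
  simp

lemma HH_unitary (n : ℕ) (a : ℕ → ℂ) (m : ℕ) (s : ℝ) {Z : Matrix N N ℂ}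
    (hZ : Z ∈ unitary (Matrix N N ℂ)) : HH n a m ((s : ℂ), Z) = hA n a m s Z := by
  unfold HH
  rw [inverse_of_unitary hZ, ← hB_eq_hA]
  push_cast
  rfl

lemma isUnit_HH (n : ℕ) (a : ℕ → ℂ) (m : ℕ) (s : ℝ) {Z : Matrix N N ℂ}
    (hZ : Z ∈ unitary (Matrix N N ℂ)) : IsUnit (HH n a m ((s : ℂ), Z)) := by
  rw [HH_unitary n a m s hZ, Matrix.isUnit_iff_isUnit_det]
  exact hA_isUnit_det hZ n a m s

/-- entries of a matrix as continuous linear functionals -/
lemma norm_entry_le (A : Matrix N N ℂ) (i j : N) : ‖A i j‖ ≤ ‖A‖ := by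
  have h := Matrix.l2_opNorm_mulVec A (WithLp.toLp 2 (Pi.single j (1:ℂ)))
  have h1 : ‖(WithLp.toLp 2 (Pi.single j (1:ℂ)) : EuclideanSpace ℂ N)‖ = 1 := by
    simp
  rw [h1, mul_one] at h
  refine le_trans ?_ h
  have h2 := PiLp.norm_apply_le (p := 2) ((EuclideanSpace.equiv N ℂ).symm
    (A *ᵥ (WithLp.toLp 2 (Pi.single j (1:ℂ)) : EuclideanSpace ℂ N))) i
  simpa using h2

lemma exists_entry_const (N : Type) [Fintype N] [DecidableEq N] :
    ∃ K : ℝ, 0 < K ∧ ∀ (A : Matrix N N ℂ) (c : ℝ), 0 ≤ c → (∀ i j, ‖A i j‖ ≤ c) → ‖A‖ ≤ K * c := by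
  let e : (N → N → ℂ) →ₗ[ℂ] Matrix N N ℂ := (Matrix.ofLinearEquiv ℂ : (N → N → ℂ) ≃ₗ[ℂ] Matrix N N ℂ)
  let e' := LinearMap.toContinuousLinearMap e
  refine ⟨‖e'‖ + 1, by positivity, fun A c hc h => ?_⟩
  have h1 : ‖e' (fun i j => A i j)‖ ≤ ‖e'‖ * ‖(fun i j => A i j : N → N → ℂ)‖ := e'.le_opNorm _
  have h2 : e' (fun i j => A i j) = A := rfl
  rw [h2] at h1
  have h3 : ‖(fun i j => A i j : N → N → ℂ)‖ ≤ c :=
    (pi_norm_le_iff_of_nonneg hc).2 fun i => (pi_norm_le_iff_of_nonneg hc).2 fun j => h i j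
  calc ‖A‖ ≤ ‖e'‖ * c := h1.trans (mul_le_mul_of_nonneg_left h3 (norm_nonneg _))
    _ ≤ (‖e'‖ + 1) * c := by nlinarith

/-- the derivative data of `HH` along `Z + t X Z` -/
lemma HH_curve (n : ℕ) (a : ℕ → ℂ) (m : ℕ) {Z : Matrix N N ℂ} (hZ : Z ∈ unitary (Matrix N N ℂ))
    (X : Matrix N N ℂ) :
    MD (fun t : ℝ => Z + (t : ℂ) • (X * Z)) (X * Z) 0 ∧
    MD (fun t : ℝ => Ring.inverse (Z + (t : ℂ) • (X * Z))) (-(star Z * (X * Z) * star Z)) 0 ∧
    MD (fun t : ℝ => hB n a m ((1 / m : ℝ) : ℂ) (Z + (t : ℂ) • (X * Z))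
      (Ring.inverse (Z + (t : ℂ) • (X * Z))))
      (fderiv ℂ (fun Y : Matrix N N ℂ => HH n a m (1, Y)) Z (X * Z)) 0 := by
  have hc : HasDerivAt (fun t : ℂ => Z + t • (X * Z)) (X * Z) 0 := by
    have := ((hasDerivAt_id (0 : ℂ)).smul_const (X * Z)).const_add Z
    simpa using this
  -- from a Frechet derivative at Z to entrywise real derivatives
  have key : ∀ (Φ : Matrix N N ℂ → Matrix N N ℂ) (L : Matrix N N ℂ →L[ℂ] Matrix N N ℂ),
      HasFDerivAt Φ L Z → MD (fun t : ℝ => Φ (Z + (t : ℂ) • (X * Z))) (L (X * Z)) 0 := by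
    intro Φ L hL i j
    have hL' : HasFDerivAt Φ L (Z + (0 : ℂ) • (X * Z)) := by simpa using hL
    have h1 : HasDerivAt (fun t : ℂ => Φ (Z + t • (X * Z))) (L (X * Z)) 0 :=
      HasFDerivAt.comp_hasDerivAt (0 : ℂ) hL' hc
    let pr : Matrix N N ℂ →ₗ[ℂ] ℂ := Matrix.entryLinearMap ℂ ℂ i j
    let pr' := LinearMap.toContinuousLinearMap pr
    have h2 : HasDerivAt (fun t : ℂ => pr' (Φ (Z + t • (X * Z)))) (pr' (L (X * Z))) 0 :=
      HasFDerivAt.comp_hasDerivAt (0 : ℂ) pr'.hasFDerivAt h1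
    have h3 : HasDerivAt (fun t : ℂ => pr' (Φ (Z + t • (X * Z)))) (pr' (L (X * Z))) ((0 : ℝ) : ℂ) := by
      simpa using h2
    exact h3.comp_ofReal
  refine ⟨?_, ?_, ?_⟩
  · have := key (fun Y => Y) (ContinuousLinearMap.id ℂ _) (hasFDerivAt_id Z)
    simpa using this
  · let u : (Matrix N N ℂ)ˣ := ⟨Z, star Z, hZ.2, hZ.1⟩
    have h1 := hasFDerivAt_ringInverse (𝕜 := ℂ) u
    have := key _ _ h1
    simpa [u, mul_assoc] using this
  · have hd : DifferentiableAt ℂ (fun Y : Matrix N N ℂ => HH n a m (1, Y)) Z := by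
      have h1 := contDiffAt_HH n a m 1 (isUnit_of_unitary hZ)
      have h2 : ContDiffAt ℂ ⊤ (fun Y : Matrix N N ℂ => ((1 : ℂ), Y)) Z :=
        contDiffAt_const.prodMk contDiffAt_id
      exact (ContDiffAt.comp Z h1 h2).differentiableAt (by simp)
    have := key _ _ hd.hasFDerivAt
    refine Eq.mp ?_ this
    congr 1
    funext t
    unfold HH
    push_cast
    rfl

/-- a constant for the size `N` -/
theorem exists_const (N : Type) [Fintype N] [DecidableEq N] :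
    ∃ K : ℝ, 0 ≤ K ∧ ∀ (K' : ℝ), K ≤ K' → ∀ (δ δ' : ℝ), 0 < δ' → δ' ≤ δ →
      ∀ (n : ℕ) (a : ℕ → ℂ) (m : ℕ) (B b : ℝ), LocFn δ' n a m B b →
        GR.LocData N K' δ B b (HH n a m) := by
  obtain ⟨K, hK0, hK⟩ := exists_entry_const N
  set c6 : ℝ := (Fintype.card N : ℝ) ^ 6 with hc6
  have hc60 : 0 ≤ c6 := by positivity
  refine ⟨(K + 1) * c6, by positivity, fun K' hK' δ δ' hδ'0 hδ'2 n a m B b hL => ?_⟩
  have hb0 := hL.nonneg
  have hB0 := hL.pos
  have hKc : K * c6 ≤ K' := by nlinarith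
  have hc6K : c6 ≤ K' := by nlinarith
  refine ⟨fun s _ Z hZ => contDiffAt_HH n a m _ (isUnit_of_unitary hZ),
    fun s _ Z hZ => isUnit_HH n a m s hZ, HH_zero n a m, ?_, ?_⟩
  · intro Z hZ X
    obtain ⟨V, d, hV, hd, hZV⟩ := unitary_diag (P := N) hZ
    obtain ⟨m1, m2, m3⟩ := HH_curve n a m hZ X
    have hZn : ‖Z‖ ≤ 1 := by
      rcases isEmpty_or_nonempty N with h | h
      · have : Z = 0 := by ext i; exact isEmptyElim i
        rw [this]; simp
      · exact (CStarRing.norm_of_mem_unitary hZ).le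
    have hXZ : ∀ i j, ‖(X * Z) i j‖ ≤ ‖X‖ := fun i j =>
      (norm_entry_le _ i j).trans ((norm_mul_le _ _).trans (by nlinarith [norm_nonneg X]))
    have hinv : Ring.inverse (HH n a m (1, Z)) = (hA n a m 1 Z)⁻¹ := by
      have := HH_unitary n a m 1 hZ
      rw [Complex.ofReal_one] at this
      rw [this, Matrix.nonsing_inv_eq_ringInverse]
    have hZ0 : Z + ((0 : ℝ) : ℂ) • (X * Z) = Z := by simp
    rw [hinv]
    refine (hK _ (c6 * ‖X‖ * B) (by positivity) fun i j => ?_).trans ?_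
    swap
    · calc K * (c6 * ‖X‖ * B) = (K * c6) * (B * ‖X‖) := by ring
        _ ≤ K' * (B * ‖X‖) := mul_le_mul_of_nonneg_right hKc (by positivity)
        _ = _ := by ring
    have hml := matrix_loc hL (R := fun t : ℝ => Z + (t : ℂ) • (X * Z))
      (S := fun t : ℝ => Ring.inverse (Z + (t : ℂ) • (X * Z))) (t0 := 0)
      (by simp only [hZ0]; exact hZ) m1 (by simp only [hZ0]; exact inverse_of_unitary hZ)
      (by simp only [hZ0]; exact m2) m3 hXZ (norm_nonneg X) hV hd (by simp only [hZ0]; exact hZV)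
      (x := Pi.single i 1) (y := Pi.single j 1) (X := 1) zero_le_one
      (fun p => by
        by_cases hp : p = i
        · subst hp; simp
        · simp [hp]) (fun p => by
        by_cases hp : p = j
        · subst hp; simp
        · simp [hp])
    have h1 := hml.1
    simp only [hZ0] at h1
    have h2 : star (Pi.single i (1:ℂ) : N → ℂ) ⬝ᵥ
        ((fderiv ℂ (fun Y : Matrix N N ℂ => HH n a m (1, Y)) Z (X * Z) * (hA n a m 1 Z)⁻¹) *ᵥ
          Pi.single j 1)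
        = (fderiv ℂ (fun Y : Matrix N N ℂ => HH n a m (1, Y)) Z (X * Z) * (hA n a m 1 Z)⁻¹) i j := by
      rw [Matrix.mulVec_single_one]
      have : star (Pi.single i (1:ℂ) : N → ℂ) = Pi.single i 1 := by
        ext p
        by_cases hp : p = i
        · subst hp; simp
        · simp [hp]
      rw [this, single_one_dotProduct]
      rfl
    rw [h2] at h1
    refine h1.trans (le_of_eq (by ring))
  · intro Z hZ W hW d hZW X w hw
    -- modulus one
    have hd : ∀ p, ‖d p‖ = 1 := by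
      have hWW : star W * W = 1 := hW.1
      have hD : Matrix.diagonal d = star W * Z * W := by
        rw [hZW]
        simp only [mul_assoc]
        rw [hWW, mul_one, ← mul_assoc, hWW, one_mul]
      have hDm : Matrix.diagonal d ∈ unitary (Matrix N N ℂ) := by
        rw [hD]
        exact mul_mem (mul_mem (Unitary.star_mem hW) hZ) hW
      intro p
      have h3 := congrFun (congrFun hDm.2 p) p
      rw [Matrix.star_eq_conjTranspose, Matrix.diagonal_conjTranspose, Matrix.diagonal_mul_diagonal,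
        Matrix.diagonal_apply_eq, Matrix.one_apply_eq] at h3
      have h4 : d p * star (d p) = 1 := h3
      rw [Complex.star_def, Complex.mul_conj, Complex.normSq_eq_norm_sq] at h4
      have h5 : ‖d p‖ ^ 2 = 1 := by exact_mod_cast h4
      nlinarith [norm_nonneg (d p)]
    obtain ⟨m1, m2, m3⟩ := HH_curve n a m hZ X
    have hZn : ‖Z‖ ≤ 1 := by
      rcases isEmpty_or_nonempty N with h | h
      · have : Z = 0 := by ext i; exact isEmptyElim i
        rw [this]; simp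
      · exact (CStarRing.norm_of_mem_unitary hZ).le
    have hXZ : ∀ i j, ‖(X * Z) i j‖ ≤ ‖X‖ := fun i j =>
      (norm_entry_le _ i j).trans ((norm_mul_le _ _).trans (by nlinarith [norm_nonneg X]))
    have hinv : Ring.inverse (HH n a m (1, Z)) = (hA n a m 1 Z)⁻¹ := by
      have := HH_unitary n a m 1 hZ
      rw [Complex.ofReal_one] at this
      rw [this, Matrix.nonsing_inv_eq_ringInverse]
    have hZ0 : Z + ((0 : ℝ) : ℂ) • (X * Z) = Z := by simp
    rw [hinv]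
    have hS0 : 0 ≤ ∑ j, ‖w j‖ ^ 2 := sum_nonneg fun j _ => by positivity
    have hwle : ∀ p, ‖w p‖ ≤ Real.sqrt (∑ j, ‖w j‖ ^ 2) := by
      intro p
      apply Real.le_sqrt_of_sq_le
      exact single_le_sum (f := fun j => ‖w j‖ ^ 2) (fun j _ => by positivity) (mem_univ p)
    have hml := (matrix_loc hL (R := fun t : ℝ => Z + (t : ℂ) • (X * Z))
      (S := fun t : ℝ => Ring.inverse (Z + (t : ℂ) • (X * Z))) (t0 := 0)
      (by simp only [hZ0]; exact hZ) m1 (by simp only [hZ0]; exact inverse_of_unitary hZ)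
      (by simp only [hZ0]; exact m2) m3 hXZ (norm_nonneg X) hW hd (by simp only [hZ0]; exact hZW)
      (x := w) (y := w) (Real.sqrt_nonneg _) hwle hwle).2
    simp only [hZ0] at hml
    have harc : ∀ p, Real.cos δ' < (d p).re → (star W *ᵥ w) p = 0 := by
      intro p hp
      apply hw p
      have h1 : ‖d p - 1‖ ^ 2 = 2 - 2 * (d p).re := by
        have h2 := hd p
        have h3 : (d p).re ^ 2 + (d p).im ^ 2 = 1 := by
          have := Complex.sq_norm (d p)
          rw [h2, Complex.normSq_apply] at this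
          nlinarith
        rw [Complex.sq_norm, Complex.normSq_apply]
        simp only [Complex.sub_re, Complex.one_re, Complex.sub_im, Complex.one_im, sub_zero]
        nlinarith
      have h4 := Real.one_sub_sq_div_two_le_cos (x := δ')
      have h5 : ‖d p - 1‖ ^ 2 < δ' ^ 2 := by rw [h1]; linarith
      have h6 : ‖d p - 1‖ < δ' := lt_of_pow_lt_pow_left₀ 2 hδ'0.le h5
      linarith
    have h7 := hml harc harc
    refine h7.trans ?_
    rw [Real.sq_sqrt hS0]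
    calc (Fintype.card N : ℝ) ^ 6 * (∑ j, ‖w j‖ ^ 2) * ‖X‖ * b
        = c6 * (b * ‖X‖ * ∑ j, ‖w j‖ ^ 2) := by rw [hc6]; ring
      _ ≤ K' * (b * ‖X‖ * ∑ j, ‖w j‖ ^ 2) := mul_le_mul_of_nonneg_right hc6K (by positivity)
      _ = _ := by ring

theorem locFam {ι : Type} [Fintype ι] (N : ι → Type) [∀ x, Fintype (N x)]
    [∀ x, DecidableEq (N x)] : GR.LocFam N := by
  have hπ := Real.pi_pos
  choose K hK0 hK using fun x => exists_const (N x)
  refine ⟨∑ x, K x, fun δ hδ D ε hε => ?_⟩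
  set δ' : ℝ := min δ (Real.pi / 2) with hδ'
  have hδ'0 : 0 < δ' := by rw [hδ']; positivity
  have hδ'1 : δ' ≤ Real.pi / 2 := min_le_right _ _
  have hδ'2 : δ' ≤ δ := min_le_left _ _
  obtain ⟨B, hB0, hB⟩ := exists_locFn hδ'0 hδ'1
  set B' : ℝ := max 1 B with hB'
  have hB'1 : 1 ≤ B' := le_max_left _ _
  have hB'B : B ≤ B' := le_max_right _ _
  have hB'pos : 0 < B' := by linarith
  obtain ⟨n, a, m, b, hL, hb⟩ := hB (ε / B' ^ D) (by positivity)
  refine ⟨B', b, hB'1, hL.nonneg, ?_, fun x => ⟨HH n a m, ?_⟩⟩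
  · rw [le_div_iff₀ (by positivity)] at hb
    linarith
  · refine hK x _ (single_le_sum (f := K) (fun x _ => hK0 x) (mem_univ x)) δ δ' hδ'0 hδ'2
      n a m B' b ⟨hB'pos.le, hL.nonneg, ?_, ?_, hL.off⟩
    · obtain ⟨g', h1, h2, h3⟩ := hL.der
      exact ⟨g', h1, fun θ => (h2 θ).trans hB'B, h3⟩
    · intro z w hz hw
      exact (hL.two z w hz hw).trans (mul_le_mul_of_nonneg_right hB'B (norm_nonneg _))

end Crest.Agent.R174.GRLoc
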