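import Crest.Agent.R174.GRT4Main
import Crest.Agent.R174.GRHaar
import Crest.Agent.R174.HInvMain
import Crest.Agent.R174.G4Final
import Crest.Agent.R174.GRLoc3

/-! # R174 P3: the unitary Gerstenhaber-Rothaus theorem (GR). -/

set_option autoImplicit false
open scoped Matrix.Norms.L2Operator

noncomputable section

namespace Crest.Agent.R174.GR.MainP

open Crest.Agent.R174.GR Crest.Agent.R174.GR.T4P

variable {ι A Q : Type} [Fintype ι] [LinearOrder ι] [Fintype A] [DecidableEq A]
  [Fintype Q] [DecidableEq Q]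

theorem gr_of (S : Sys ι A Q) (h2 : T2 S.KA S.VA) (h3 : T3 S) (h4 : T4 S) : GR S := by
  classical
  intro htri hdiag M hM
  by_contra hcon
  push Not at hcon
  have hq0 : ∀ x : ι, ∃ q : Q, S.rel q = x ∧ S.var q = x := by
    intro x
    by_contra hne
    push Not at hne
    apply hdiag x
    unfold Sys.E
    refine Finset.sum_eq_zero fun q _ => ?_
    rw [if_neg]
    rintro ⟨h1, h2⟩
    exact hne q h1 h2
  choose q0 hq using hq0
  have e4 := h4 M hM hcon q0 hq
  have e3 := h3 htri hdiag q0 hq
  have e2 := h2 (S.refR q0 hq) S.Jm (star M) (Unitary.star_mem hM) (fun σ hσ =>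
    (S.Jm_contDiffAt 1 (fun i => isUnit_of_unitary (pi_unitary.1 hσ i))).differentiableAt
      (by norm_num))
  exact e3 (e2.symm.trans e4)

/-- The unitary Gerstenhaber-Rothaus theorem for triangular systems. -/
theorem gr (S : Sys ι A Q) : GR S :=
  gr_of S Crest.Agent.R174.GRHaar.t2 (Crest.Agent.R174.GR.t3 S)
    (t4 S Crest.Agent.R174.HInv.t1 (Crest.Agent.R174.GRHaar.t0 S)
      (Crest.Agent.R174.GRLoc.locFam _) (fun _ => Crest.Agent.R174.GRLoc.diagProp _))

end Crest.Agent.R174.GR.MainP
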