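import Crest.Agent.R174.W6_259

set_option autoImplicit false

/-!
# R174, W7 (limit arithmetic)
-/

open Finset Filter Topology

namespace Crest.Agent.R174.Lim

open Crest.Agent.R174.W6

/-- Imaginary part of `T_q` of a monomial matrix: cycles `v` of length `c v`, holonomy of order
`m v` (`0` = infinite order), total phase `exp (2πi β v)`. -/
noncomputable def imT {ι : Type*} [Fintype ι] (c m : ι → ℕ) (β : ι → ℝ) (q : ℕ) : ℝ :=
  ∑ v, if c v * m v ∣ q then c v * Real.sin (2 * Real.pi * ((q / c v : ℕ) : ℝ) * β v) else 0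

/-- `S_K = Σ_{q<K} (1 - q/K) Im T_q / (π q)` -/
noncomputable def SK (T : ℕ → ℝ) (K : ℕ) : ℝ :=
  ∑ q ∈ range K, (1 - (q : ℝ) / K) * (T q / (Real.pi * q))

variable {ι : Type*} [Fintype ι]

lemma SK_imT (c m : ι → ℕ) (β : ι → ℝ) (hc : ∀ v, 0 < c v) (K : ℕ) (hK : 0 < K)
    (hdvd : ∀ v, m v ≠ 0 → c v * m v ∣ K) :
    SK (imT c m β) K = ∑ v, (1 / (m v : ℝ)) * ces (m v * β v) (K / (c v * m v)) := by
  unfold SK imT
  have h1 : ∀ q ∈ range K, (1 - (q : ℝ) / K) * ((∑ v, if c v * m v ∣ q then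
      c v * Real.sin (2 * Real.pi * ((q / c v : ℕ) : ℝ) * β v) else 0) / (Real.pi * q)) =
      ∑ v, if c v * m v ∣ q then (1 - (q : ℝ) / K) *
      (c v * Real.sin (2 * Real.pi * ((q / c v : ℕ) : ℝ) * β v) / (Real.pi * q)) else 0 := by
    intro q _
    rw [sum_div, mul_sum]
    apply sum_congr rfl
    intro v _
    split_ifs
    · rfl
    · simp
  rw [sum_congr rfl h1, sum_comm]
  apply sum_congr rfl
  intro v _
  by_cases hm : m v = 0
  · rw [hm]
    simp only [Nat.cast_zero, div_zero, zero_mul, mul_zero]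
    apply sum_eq_zero
    intro q _
    split_ifs with h
    · have : q = 0 := Nat.eq_zero_of_zero_dvd h
      subst this
      simp
    · rfl
  · exact cycle_sum (c v) (m v) K (hc v) (Nat.pos_of_ne_zero hm) (hdvd v hm) hK (β v)

/-- limit along multiples of `L` of one cycle contribution -/
lemma tendsto_one (c m : ℕ) (hc : 0 < c) (hm : 0 < m) (L : ℕ) (hL : 0 < L) (hdvd : c * m ∣ L)
    (β l : ℝ) (h : Tendsto (ces (m * β)) atTop (𝓝 l)) :
    Tendsto (fun k : ℕ => (1 / (m : ℝ)) * ces (m * β) (L * (k + 1) / (c * m))) atTop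
      (𝓝 ((1 / (m : ℝ)) * l)) := by
  apply Tendsto.const_mul
  obtain ⟨r, rfl⟩ := hdvd
  have hr : 0 < r := Nat.pos_of_mul_pos_left hL
  have h1 : ∀ k : ℕ, c * m * r * (k + 1) / (c * m) = r * (k + 1) := by
    intro k
    rw [mul_assoc (c * m)]
    exact Nat.mul_div_cancel_left _ (Nat.mul_pos hc hm)
  simp only [h1]
  refine h.comp ?_
  refine tendsto_atTop_mono (fun k => ?_) tendsto_id
  show k ≤ r * (k + 1)
  nlinarith

theorem limit_ineq {ιX ιY : Type*} [Fintype ιX] [DecidableEq ιX] [Fintype ιY] (v0 : ιX)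
    (cX mX : ιX → ℕ) (βX : ιX → ℝ) (hcX : ∀ v, 0 < cX v) (hm : ∀ v, v ≠ v0 → mX v = 1)
    (hm0 : mX v0 ≠ 1) (ε : ℝ) (hε0 : 0 < ε) (hε1 : ε < 1)
    (hβX : ∀ v, v ≠ v0 → ∃ n : ℤ, βX v = -ε + n)
    (cY : ιY → ℕ) (βY : ιY → ℝ) (hcY : ∀ v, 0 < cY v)
    (hβY0 : ∀ v, 0 < βY v) (hβY1 : ∀ v, βY v < 1) (D : ℝ)
    (hineq : ∀ K : ℕ, 0 < K → SK (imT cY (fun _ => 1) βY) K ≤ SK (imT cX mX βX) K + D) :
    ∑ v, (1 / 2 - βY v) ≤ -((Fintype.card ιX : ℝ) - 1) * (1 / 2 - ε) + 1 / 4 + D := by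
  classical
  -- the common modulus
  set L : ℕ := (∏ v, cY v) * ∏ v, (if mX v = 0 then 1 else cX v * mX v) with hLdef
  have hL : 0 < L := by
    apply Nat.mul_pos
    · exact Finset.prod_pos fun v _ => hcY v
    · apply Finset.prod_pos
      intro v _
      split_ifs with h
      · exact one_pos
      · exact Nat.mul_pos (hcX v) (Nat.pos_of_ne_zero h)
  have hdY : ∀ v, cY v * 1 ∣ L := by
    intro v
    rw [mul_one]
    exact (Finset.dvd_prod_of_mem cY (mem_univ v)).mul_right _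
  have hdX : ∀ v, mX v ≠ 0 → cX v * mX v ∣ L := by
    intro v h
    have h1 : (if mX v = 0 then 1 else cX v * mX v) ∣ ∏ v, (if mX v = 0 then 1 else cX v * mX v) :=
      Finset.dvd_prod_of_mem (fun v => if mX v = 0 then 1 else cX v * mX v) (mem_univ v)
    rw [if_neg h] at h1
    exact h1.mul_left _
  -- limit of Y
  have hY : Tendsto (fun k : ℕ => SK (imT cY (fun _ => 1) βY) (L * (k + 1))) atTop
      (𝓝 (∑ v, (1 / 2 - βY v))) := by
    have h1 : ∀ k : ℕ, SK (imT cY (fun _ => 1) βY) (L * (k + 1)) =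
        ∑ v, (1 / ((1 : ℕ) : ℝ)) * ces (((1 : ℕ) : ℝ) * βY v) (L * (k + 1) / (cY v * 1)) := by
      intro k
      exact SK_imT cY (fun _ => 1) βY hcY _ (by positivity) (fun v _ => (hdY v).mul_right _)
    simp only [h1]
    apply tendsto_finsetSum
    intro v _
    have h2 := tendsto_one (cY v) 1 (hcY v) one_pos L hL (hdY v) (βY v) (1 / 2 - βY v)
      (by simpa using tendsto_ces (βY v) (hβY0 v) (hβY1 v))
    simpa using h2
  -- limits of X
  have hXv : ∀ v, ∃ l : ℝ, (v ≠ v0 → l = -(1 / 2 - ε)) ∧ (v = v0 → l ≤ 1 / 4) ∧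
      Tendsto (fun k : ℕ => (1 / (mX v : ℝ)) * ces (mX v * βX v) (L * (k + 1) / (cX v * mX v))) atTop
        (𝓝 l) := by
    intro v
    by_cases hv : v = v0
    · by_cases h0 : mX v = 0
      · refine ⟨0, fun h => absurd hv h, fun _ => by norm_num, ?_⟩
        simp [h0]
      · obtain ⟨l, hl, hl'⟩ := exists_tendsto_ces (mX v * βX v)
        refine ⟨(1 / (mX v : ℝ)) * l, fun h => absurd hv h, fun _ => ?_,
          tendsto_one (cX v) (mX v) (hcX v) (Nat.pos_of_ne_zero h0) L hL (hdX v h0) _ _ hl'⟩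
        have h2 : 2 ≤ mX v := by
          have : mX v ≠ 1 := by rw [hv]; exact hm0
          omega
        have h3 : (2 : ℝ) ≤ mX v := by exact_mod_cast h2
        have h4 : 0 < (1 / (mX v : ℝ)) := by positivity
        have h5 : (1 / (mX v : ℝ)) ≤ 1 / 2 := by
          apply one_div_le_one_div_of_le <;> linarith
        nlinarith
    · refine ⟨-(1 / 2 - ε), fun _ => rfl, fun h => absurd h hv, ?_⟩
      have h1 := hm v hv
      obtain ⟨n, hn⟩ := hβX v hv
      have h2 : ces (((mX v : ℕ) : ℝ) * βX v) = ces (1 - ε) := by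
        funext K
        have : ((mX v : ℕ) : ℝ) * βX v = (1 - ε) + ((n - 1 : ℤ) : ℝ) := by
          rw [h1, hn]; push_cast; ring
        rw [this, ces_add_int]
      have h3 : Tendsto (ces (((mX v : ℕ) : ℝ) * βX v)) atTop (𝓝 (-(1 / 2 - ε))) := by
        rw [h2]
        have := tendsto_ces (1 - ε) (by linarith) (by linarith)
        convert this using 2
        ring
      have h4 := tendsto_one (cX v) (mX v) (hcX v) (by omega) L hL (hdX v (by omega)) _ _ h3
      have h5 : (1 / (mX v : ℝ)) * -(1 / 2 - ε) = -(1 / 2 - ε) := by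
        rw [h1]; norm_num
      rw [h5] at h4
      exact h4
  choose l hl1 hl2 hl3 using hXv
  have hX : Tendsto (fun k : ℕ => SK (imT cX mX βX) (L * (k + 1))) atTop (𝓝 (∑ v, l v)) := by
    have h1 : ∀ k : ℕ, SK (imT cX mX βX) (L * (k + 1)) =
        ∑ v, (1 / (mX v : ℝ)) * ces (mX v * βX v) (L * (k + 1) / (cX v * mX v)) := by
      intro k
      exact SK_imT cX mX βX hcX _ (by positivity) (fun v h => (hdX v h).mul_right _)
    simp only [h1]
    exact tendsto_finsetSum _ fun v _ => hl3 v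
  have hle : ∑ v, (1 / 2 - βY v) ≤ (∑ v, l v) + D := by
    refine le_of_tendsto_of_tendsto' hY (hX.add_const D) ?_
    intro k
    exact hineq _ (by positivity)
  have hsum : ∑ v, l v ≤ -((Fintype.card ιX : ℝ) - 1) * (1 / 2 - ε) + 1 / 4 := by
    rw [← Finset.add_sum_erase univ l (mem_univ v0)]
    have h1 : ∑ v ∈ univ.erase v0, l v = ∑ v ∈ univ.erase v0, (-(1 / 2 - ε)) := by
      apply sum_congr rfl
      intro v hv
      exact hl1 v (Finset.ne_of_mem_erase hv)
    rw [h1, sum_const, card_erase_of_mem (mem_univ v0), card_univ]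
    have h2 := hl2 v0 rfl
    have h3 : 1 ≤ Fintype.card ιX := Fintype.card_pos_iff.2 ⟨v0⟩
    rw [nsmul_eq_mul, Nat.cast_sub h3]
    push_cast
    linarith
  linarith

end Crest.Agent.R174.Lim
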