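import Mathlib
import Crest.Agent.R174.Red259

set_option autoImplicit false

/-!
# R174 : word data (stems), positions, monomial matrices.  Definitions only (helper126).

The word is `∏_k ev (st k) * (ev (W (ty k)))^{±1} * (ev (st k))⁻¹`, the sign of block `k` is `sg k`.
Positions (= letters of the big cyclic word) are
* `⟨k, inl j⟩`        : letter `j` of the stem `st k` (going up),
* `⟨k, inr (inl j)⟩`  : letter `j` of the relator `W (ty k)` (read backwards if `sg k = false`),
* `⟨k, inr (inr j)⟩`  : inverse of letter `j` of the stem (going down).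
`pred` is the cyclic predecessor, `lab i` the label (in `G`) standing in front of letter `i`.
-/

open Monoid

namespace Crest.Agent.R174.WD

open Crest.Agent.R174.Red

universe u

/-- block data; `κ` is the index type of the blocks, `ord` the order in which they are read -/
structure Blk (G : Type u) (n : ℕ) (κ : Type) where
  W : Fin n → List (G × Fin n × Bool)
  ord : List κ
  hnd : ord.Nodup
  hall : ∀ k, k ∈ ord
  st : κ → List (G × Fin n × Bool)
  ty : κ → Fin n
  sg : κ → Bool
  hst : ∀ k, 0 < (st k).length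
  hW : ∀ i, 0 < (W i).length

namespace Blk

variable {G : Type u} {n : ℕ} {κ : Type} (B : Blk G n κ)

/-- length of the stem -/
abbrev r (k : κ) : ℕ := (B.st k).length
/-- length of the relator of block `k` -/
abbrev l (k : κ) : ℕ := (B.W (B.ty k)).length

/-- positions -/
abbrev Pos : Type := (k : κ) × (Fin (B.r k) ⊕ (Fin (B.l k) ⊕ Fin (B.r k)))

abbrev up (k : κ) (j : Fin (B.r k)) : B.Pos := ⟨k, Sum.inl j⟩
abbrev fc (k : κ) (j : Fin (B.l k)) : B.Pos := ⟨k, Sum.inr (Sum.inl j)⟩
abbrev dn (k : κ) (j : Fin (B.r k)) : B.Pos := ⟨k, Sum.inr (Sum.inr j)⟩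

/-- first / last stem index, first / last face index -/
def r0 (k : κ) : Fin (B.r k) := ⟨0, B.hst k⟩
def r1 (k : κ) : Fin (B.r k) := ⟨B.r k - 1, Nat.sub_lt (B.hst k) Nat.one_pos⟩
def l0 (k : κ) : Fin (B.l k) := ⟨0, B.hW _⟩
def l1 (k : κ) : Fin (B.l k) := ⟨B.l k - 1, Nat.sub_lt (B.hW _) Nat.one_pos⟩

section
variable [DecidableEq κ]

/-- cyclic predecessor of a block -/
def pk (k : κ) : κ := B.ord.formPerm.symm k

/-- cyclic predecessor of a position -/
def pred : B.Pos → B.Pos
  | ⟨k, Sum.inl j⟩ =>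
      if _h : j.1 = 0 then B.dn (B.pk k) (B.r0 _)
      else B.up k ⟨j.1 - 1, lt_of_le_of_lt (Nat.sub_le _ _) j.2⟩
  | ⟨k, Sum.inr (Sum.inl j)⟩ =>
      if B.sg k then
        (if _h : j.1 = 0 then B.up k (B.r1 k)
         else B.fc k ⟨j.1 - 1, lt_of_le_of_lt (Nat.sub_le _ _) j.2⟩)
      else
        (if h : j.1 + 1 < B.l k then B.fc k ⟨j.1 + 1, h⟩ else B.up k (B.r1 k))
  | ⟨k, Sum.inr (Sum.inr j)⟩ =>
      if h : j.1 + 1 < B.r k then B.dn k ⟨j.1 + 1, h⟩
      else (if B.sg k then B.fc k (B.l1 k) else B.fc k (B.l0 k))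

end

/-- first label of the stem -/
def a0 (k : κ) : G := ((B.st k).get (B.r0 k)).1
/-- first label of the relator -/
def b0 (k : κ) : G := ((B.W (B.ty k)).get (B.l0 k)).1

/-- cyclic label in front of a position -/
def lab [Group G] [DecidableEq κ] : B.Pos → G
  | ⟨k, Sum.inl j⟩ => if j.1 = 0 then (B.a0 (B.pk k))⁻¹ * B.a0 k else ((B.st k).get j).1
  | ⟨k, Sum.inr (Sum.inl j)⟩ =>
      if B.sg k then ((B.W (B.ty k)).get j).1
      else (if h : j.1 + 1 < B.l k then (((B.W (B.ty k)).get ⟨j.1 + 1, h⟩).1)⁻¹ else 1)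
  | ⟨k, Sum.inr (Sum.inr j)⟩ =>
      if h : j.1 + 1 < B.r k then (((B.st k).get ⟨j.1 + 1, h⟩).1)⁻¹
      else (if B.sg k then 1 else (B.b0 k)⁻¹)

/-- unknown of a position -/
def unk : B.Pos → Fin n
  | ⟨k, Sum.inl j⟩ => ((B.st k).get j).2.1
  | ⟨k, Sum.inr (Sum.inl j)⟩ => ((B.W (B.ty k)).get j).2.1
  | ⟨k, Sum.inr (Sum.inr j)⟩ => ((B.st k).get j).2.1

/-- sign of a position -/
def sgn : B.Pos → Bool
  | ⟨k, Sum.inl j⟩ => ((B.st k).get j).2.2
  | ⟨k, Sum.inr (Sum.inl j)⟩ =>
      if B.sg k then ((B.W (B.ty k)).get j).2.2 else !((B.W (B.ty k)).get j).2.2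
  | ⟨k, Sum.inr (Sum.inr j)⟩ => !((B.st k).get j).2.2

/-- the positions of block `k` in order -/
def blkList (k : κ) : List B.Pos :=
  (List.finRange (B.r k)).map (B.up k) ++
  (if B.sg k then (List.finRange (B.l k)).map (B.fc k)
    else (List.finRange (B.l k)).reverse.map (B.fc k)) ++
  (List.finRange (B.r k)).reverse.map (B.dn k)

/-- all positions in order -/
def posList : List B.Pos := B.ord.flatMap B.blkList

/-- value of block `k` -/
def val [Group G] (k : κ) : Coprod G (FreeGroup (Fin n)) :=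
  ev (B.st k) * (bif B.sg k then ev (B.W (B.ty k)) else (ev (B.W (B.ty k)))⁻¹) * (ev (B.st k))⁻¹

end Blk

section mono

variable {G : Type u} [Group G] {P : Type} [Fintype P] [DecidableEq P]

/-- monomial matrix `e_i ↦ (z i • g i) e_{nxt i}` over the group algebra -/
noncomputable def mono (nxt : P → P) (g : P → G) (z : P → ℂ) : Matrix P P (MonoidAlgebra ℂ G) :=
  Matrix.of fun j i => if j = nxt i then MonoidAlgebra.single (g i) (z i) else 0

/-- the trace: sum of the coefficients at `1` of the diagonal entries -/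
noncomputable def trG (A : Matrix P P (MonoidAlgebra ℂ G)) : ℂ := ∑ i, (A i i).coeff 1

end mono

/-- `pr` is the cyclic predecessor function of the list `L` -/
def IsCycPred {P : Type} (pr : P → P) (L : List P) : Prop :=
  (∀ (A C : List P) (i j : P), L = A ++ i :: j :: C → pr j = i) ∧
  (∀ (C : List P) (i j : P), L = i :: C → (i :: C).getLast? = some j → pr i = j)

end Crest.Agent.R174.WD
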