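import Mathlib
import Crest.Agent.R174.Lim259
import Crest.Agent.R174.Mono126

set_option autoImplicit false

/-!
# R174, W7b (helper83): generalised limit inequality, bridge from `cterm` to `imT`
-/

open Finset Filter Topology

namespace Crest.Agent.R174.Glue

open Crest.Agent.R174.W6 Crest.Agent.R174.Lim

/-- `limit_ineq` of `Lim259` with variable phases `-e v`, `0 < e v ≤ ε < 1`. -/
theorem limit_ineq' {ιX ιY : Type*} [Fintype ιX] [DecidableEq ιX] [Fintype ιY] (v0 : ιX)
    (cX mX : ιX → ℕ) (βX : ιX → ℝ) (hcX : ∀ v, 0 < cX v) (hm : ∀ v, v ≠ v0 → mX v = 1)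
    (hm0 : mX v0 ≠ 1) (ε : ℝ) (hε1 : ε < 1)
    (hβX : ∀ v, v ≠ v0 → ∃ e : ℝ, 0 < e ∧ e ≤ ε ∧ βX v = -e)
    (cY : ιY → ℕ) (βY : ιY → ℝ) (hcY : ∀ v, 0 < cY v)
    (hβY0 : ∀ v, 0 < βY v) (hβY1 : ∀ v, βY v < 1) (D : ℝ)
    (hineq : ∀ K : ℕ, 0 < K → SK (imT cY (fun _ => 1) βY) K ≤ SK (imT cX mX βX) K + D) :
    ∑ v, (1 / 2 - βY v) ≤ -((Fintype.card ιX : ℝ) - 1) * (1 / 2 - ε) + 1 / 4 + D := by
  classical
  -- the common modulus
  set L : ℕ := (∏ v, cY v) * ∏ v, (if mX v = 0 then 1 else cX v * mX v) with hLdef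
  have hL : 0 < L := by
    apply Nat.mul_pos
    · exact Finset.prod_pos fun v _ => hcY v
    · apply Finset.prod_pos
      intro v _
      split_ifs with h
      · exact one_pos
      · exact Nat.mul_pos (hcX v) (Nat.pos_of_ne_zero h)
  have hdY : ∀ v, cY v * 1 ∣ L := by
    intro v
    rw [mul_one]
    exact (Finset.dvd_prod_of_mem cY (mem_univ v)).mul_right _
  have hdX : ∀ v, mX v ≠ 0 → cX v * mX v ∣ L := by
    intro v h
    have h1 : (if mX v = 0 then 1 else cX v * mX v) ∣ ∏ v, (if mX v = 0 then 1 else cX v * mX v) :=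
      Finset.dvd_prod_of_mem (fun v => if mX v = 0 then 1 else cX v * mX v) (mem_univ v)
    rw [if_neg h] at h1
    exact h1.mul_left _
  -- limit of Y
  have hY : Tendsto (fun k : ℕ => SK (imT cY (fun _ => 1) βY) (L * (k + 1))) atTop
      (𝓝 (∑ v, (1 / 2 - βY v))) := by
    have h1 : ∀ k : ℕ, SK (imT cY (fun _ => 1) βY) (L * (k + 1)) =
        ∑ v, (1 / ((1 : ℕ) : ℝ)) * ces (((1 : ℕ) : ℝ) * βY v) (L * (k + 1) / (cY v * 1)) := by
      intro k
      exact SK_imT cY (fun _ => 1) βY hcY _ (by positivity) (fun v _ => (hdY v).mul_right _)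
    simp only [h1]
    apply tendsto_finsetSum
    intro v _
    have h2 := tendsto_one (cY v) 1 (hcY v) one_pos L hL (hdY v) (βY v) (1 / 2 - βY v)
      (by simpa using tendsto_ces (βY v) (hβY0 v) (hβY1 v))
    simpa using h2
  -- limits of X
  have hXv : ∀ v, ∃ l : ℝ, (v ≠ v0 → l ≤ -(1 / 2 - ε)) ∧ (v = v0 → l ≤ 1 / 4) ∧
      Tendsto (fun k : ℕ => (1 / (mX v : ℝ)) * ces (mX v * βX v) (L * (k + 1) / (cX v * mX v))) atTop
        (𝓝 l) := by
    intro v
    by_cases hv : v = v0
    · by_cases h0 : mX v = 0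
      · refine ⟨0, fun h => absurd hv h, fun _ => by norm_num, ?_⟩
        simp [h0]
      · obtain ⟨l, hl, hl'⟩ := exists_tendsto_ces (mX v * βX v)
        refine ⟨(1 / (mX v : ℝ)) * l, fun h => absurd hv h, fun _ => ?_,
          tendsto_one (cX v) (mX v) (hcX v) (Nat.pos_of_ne_zero h0) L hL (hdX v h0) _ _ hl'⟩
        have h2 : 2 ≤ mX v := by
          have : mX v ≠ 1 := by rw [hv]; exact hm0
          omega
        have h3 : (2 : ℝ) ≤ mX v := by exact_mod_cast h2
        have h4 : 0 < (1 / (mX v : ℝ)) := by positivity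
        have h5 : (1 / (mX v : ℝ)) ≤ 1 / 2 := by
          apply one_div_le_one_div_of_le <;> linarith
        nlinarith
    · obtain ⟨e, he0, he1, he⟩ := hβX v hv
      refine ⟨-(1 / 2 - e), fun _ => by linarith, fun h => absurd h hv, ?_⟩
      have h1 := hm v hv
      have h2 : ces (((mX v : ℕ) : ℝ) * βX v) = ces (1 - e) := by
        funext K
        have : ((mX v : ℕ) : ℝ) * βX v = (1 - e) + ((-1 : ℤ) : ℝ) := by
          rw [h1, he]; push_cast; ring
        rw [this, ces_add_int]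
      have h3 : Tendsto (ces (((mX v : ℕ) : ℝ) * βX v)) atTop (𝓝 (-(1 / 2 - e))) := by
        rw [h2]
        have := tendsto_ces (1 - e) (by linarith) (by linarith)
        convert this using 2
        ring
      have h4 := tendsto_one (cX v) (mX v) (hcX v) (by omega) L hL (hdX v (by omega)) _ _ h3
      have h5 : (1 / (mX v : ℝ)) * -(1 / 2 - e) = -(1 / 2 - e) := by
        rw [h1]; norm_num
      rw [h5] at h4
      exact h4
  choose l hl1 hl2 hl3 using hXv
  have hX : Tendsto (fun k : ℕ => SK (imT cX mX βX) (L * (k + 1))) atTop (𝓝 (∑ v, l v)) := by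
    have h1 : ∀ k : ℕ, SK (imT cX mX βX) (L * (k + 1)) =
        ∑ v, (1 / (mX v : ℝ)) * ces (mX v * βX v) (L * (k + 1) / (cX v * mX v)) := by
      intro k
      exact SK_imT cX mX βX hcX _ (by positivity) (fun v h => (hdX v h).mul_right _)
    simp only [h1]
    exact tendsto_finsetSum _ fun v _ => hl3 v
  have hle : ∑ v, (1 / 2 - βY v) ≤ (∑ v, l v) + D := by
    refine le_of_tendsto_of_tendsto' hY (hX.add_const D) ?_
    intro k
    exact hineq _ (by positivity)
  have hsum : ∑ v, l v ≤ -((Fintype.card ιX : ℝ) - 1) * (1 / 2 - ε) + 1 / 4 := by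
    rw [← Finset.add_sum_erase univ l (mem_univ v0)]
    have h1 : ∑ v ∈ univ.erase v0, l v ≤ ∑ v ∈ univ.erase v0, (-(1 / 2 - ε)) := by
      apply sum_le_sum
      intro v hv
      exact hl1 v (Finset.ne_of_mem_erase hv)
    rw [sum_const, card_erase_of_mem (mem_univ v0), card_univ] at h1
    have h2 := hl2 v0 rfl
    have h3 : 1 ≤ Fintype.card ιX := Fintype.card_pos_iff.2 ⟨v0⟩
    rw [nsmul_eq_mul, Nat.cast_sub h3] at h1
    push_cast at h1
    linarith
  linarith

section bridge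

variable {G : Type*} [Group G]

/-- imaginary part of `u^q * cterm` -/
lemma im_cterm (c : ℕ) (hc : 0 < c) (h : G) (δ θ : ℝ) (q : ℕ) :
    ((Complex.exp (2 * Real.pi * Complex.I * δ)) ^ q *
      WD.cterm c h (Complex.exp (2 * Real.pi * Complex.I * θ)) q).im =
    if c * orderOf h ∣ q then
      c * Real.sin (2 * Real.pi * ((q / c : ℕ) : ℝ) * (c * δ + θ)) else 0 := by
  unfold WD.cterm
  by_cases h1 : c ∣ q
  · obtain ⟨k, rfl⟩ := h1
    rw [if_pos (dvd_mul_right c k), Nat.mul_div_cancel_left k hc]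
    by_cases h2 : h ^ k = 1
    · have h3 : orderOf h ∣ k := orderOf_dvd_of_pow_eq_one h2
      rw [if_pos h2, if_pos (Nat.mul_dvd_mul_left c h3)]
      have h4 : (Complex.exp (2 * Real.pi * Complex.I * δ)) ^ (c * k) *
          ((c : ℂ) * (Complex.exp (2 * Real.pi * Complex.I * θ)) ^ k) =
          ((c : ℝ) : ℂ) * Complex.exp (((2 * Real.pi * (k : ℝ) * (c * δ + θ) : ℝ) : ℂ) * Complex.I) := by
        rw [← Complex.exp_nat_mul, ← Complex.exp_nat_mul, mul_left_comm, ← Complex.exp_add]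
        congr 2
        push_cast
        ring
      rw [h4, Complex.im_ofReal_mul, Complex.exp_ofReal_mul_I_im]
    · have h3 : ¬ c * orderOf h ∣ c * k := by
        intro h4
        exact h2 (orderOf_dvd_iff_pow_eq_one.1 (Nat.dvd_of_mul_dvd_mul_left hc h4))
      rw [if_neg h2, if_neg h3]
      simp
  · rw [if_neg h1, if_neg]
    · simp
    · intro h2
      exact h1 (dvd_trans (dvd_mul_right c _) h2)

end bridge

end Crest.Agent.R174.Glue
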