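import Mathlib
import Crest.Agent.R174.Word753
import Crest.Agent.R174.WD126

set_option autoImplicit false

/-!
# R174: flattening (helper753), F1-F3 for the word data of `WD126`
-/

open Monoid

namespace Crest.Agent.R174.FlatK

open Crest.Agent.R174.Red Crest.Agent.R174.WD

universe u

variable {G : Type u} [Group G] {n : ℕ}

section Aux

variable {H : Type*} [Group H]

lemma inv_prod (c y : ℕ → H) : ∀ N : ℕ,
    ((List.range N).reverse.map (fun j => (c (j + 1))⁻¹ * (y j)⁻¹)).prod =
      (c N)⁻¹ * (((List.range N).map (fun j => c j * y j)).prod)⁻¹ * c 0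
  | 0 => by simp
  | N + 1 => by
      rw [List.range_succ, List.map_append, List.reverse_append, List.prod_append,
        List.map_append, List.prod_append, inv_prod c y N]
      simp [mul_assoc]

lemma map_finRange_val {α : Type*} (N : ℕ) (F : ℕ → α) :
    (List.finRange N).map (fun j => F j.val) = (List.range N).map F := by
  rw [← List.map_coe_finRange_eq_range, List.map_map]; rfl

/-- value of the unknown of a letter -/
def yv (p : G × Fin n × Bool) : Coprod G (FreeGroup (Fin n)) :=
  Coprod.inr (bif p.2.2 then FreeGroup.of p.2.1 else (FreeGroup.of p.2.1)⁻¹)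

lemma lett_eq (p : G × Fin n × Bool) : lett p = Coprod.inl p.1 * yv p := rfl

lemma lett_flip (a : G) (p : G × Fin n × Bool) :
    lett (a, p.2.1, !p.2.2) = Coprod.inl a * (yv p)⁻¹ := by
  obtain ⟨b, x, s⟩ := p
  cases s <;> simp [lett, yv]

lemma range_getD (s : List (G × Fin n × Bool)) (d : G × Fin n × Bool) :
    (List.range s.length).map (fun j => s.getD j d) = s := by
  apply List.ext_getElem
  · simp
  · intro i h1 h2
    simp at h1
    simp [h1]

lemma ev_eq_range (s : List (G × Fin n × Bool)) (d : G × Fin n × Bool) :
    ev s = ((List.range s.length).map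
      (fun j => Coprod.inl (s.getD j d).1 * yv (s.getD j d))).prod := by
  conv_lhs => rw [← range_getD s d]
  rw [ev, List.map_map]
  rfl

/-- the reversed inverse word -/
lemma ev_rev (s : List (G × Fin n × Bool)) (hs : 0 < s.length) (c : G) :
    ev ((List.finRange s.length).reverse.map (fun j =>
      ((if h : j.1 + 1 < s.length then (s.get ⟨j.1 + 1, h⟩).1⁻¹ else c),
        (s.get j).2.1, !(s.get j).2.2))) =
      Coprod.inl c * (ev s)⁻¹ * Coprod.inl (s.get ⟨0, hs⟩).1 := by
  set d : G × Fin n × Bool := s.get ⟨0, hs⟩ with hd
  let F : ℕ → G × Fin n × Bool := fun j =>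
    ((if j + 1 < s.length then (s.getD (j + 1) d).1 else c⁻¹)⁻¹,
        (s.getD j d).2.1, !(s.getD j d).2.2)
  have h1 : (List.finRange s.length).reverse.map (fun j =>
      ((if h : j.1 + 1 < s.length then (s.get ⟨j.1 + 1, h⟩).1⁻¹ else c),
        (s.get j).2.1, !(s.get j).2.2)) = ((List.range s.length).map F).reverse := by
    rw [← map_finRange_val s.length F, List.map_reverse]
    congr 1
    apply List.map_congr_left
    intro j _
    have e1 : s.getD j.1 d = s.get j := by simp
    by_cases h : j.1 + 1 < s.length
    · have e2 : s.getD (j.1 + 1) d = s.get ⟨j.1 + 1, h⟩ := by simp [h]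
      simp only [F, h, dif_pos, if_true, e1, e2]
    · simp only [F, h, dif_neg, not_false_eq_true, if_false, e1, inv_inv]
  rw [h1, ← List.map_reverse, ev, List.map_map]
  have h2 := inv_prod (fun j => (Coprod.inl (if j < s.length then (s.getD j d).1 else c⁻¹) :
    Coprod G (FreeGroup (Fin n)))) (fun j => yv (s.getD j d)) s.length
  have h3 : (lett ∘ F) = fun j =>
      (Coprod.inl (if j + 1 < s.length then (s.getD (j + 1) d).1 else c⁻¹) :
        Coprod G (FreeGroup (Fin n)))⁻¹ * (yv (s.getD j d))⁻¹ := by
    funext j
    simp only [Function.comp, F]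
    rw [lett_flip, map_inv]
  rw [h3, h2]
  have h5 : ((List.range s.length).map (fun j =>
      (Coprod.inl (if j < s.length then (s.getD j d).1 else c⁻¹) :
        Coprod G (FreeGroup (Fin n))) * yv (s.getD j d))).prod = ev s := by
    rw [ev_eq_range s d]
    congr 1
    apply List.map_congr_left
    intro j hj
    rw [List.mem_range] at hj
    simp only [hj, if_true]
  rw [h5]
  have e0 : s.getD 0 d = d := by simp [hs, hd]
  simp only [lt_irrefl, if_false, hs, if_true, e0, map_inv, inv_inv]

end Aux

section chain

lemma isChain_finRange {m : ℕ} {R : Fin m → Fin m → Prop}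
    (h : ∀ (i : ℕ) (hi : i + 1 < m), R ⟨i, by omega⟩ ⟨i + 1, hi⟩) :
    (List.finRange m).IsChain R := by
  rw [List.isChain_iff_getElem]
  intro i hi
  simp only [List.length_finRange] at hi
  simpa using h i hi

lemma isChain_finRange_reverse {m : ℕ} {R : Fin m → Fin m → Prop}
    (h : ∀ (i : ℕ) (hi : i + 1 < m), R ⟨i + 1, hi⟩ ⟨i, by omega⟩) :
    (List.finRange m).reverse.IsChain R := by
  rw [List.isChain_reverse]
  exact isChain_finRange h

lemma head?_finRange {m : ℕ} (hm : 0 < m) : (List.finRange m).head? = some ⟨0, hm⟩ := by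
  obtain ⟨k, rfl⟩ := Nat.exists_eq_succ_of_ne_zero hm.ne'
  rw [List.finRange_succ]; rfl

lemma getLast?_finRange {m : ℕ} (hm : 0 < m) :
    (List.finRange m).getLast? = some ⟨m - 1, Nat.sub_lt hm Nat.one_pos⟩ := by
  obtain ⟨k, rfl⟩ := Nat.exists_eq_succ_of_ne_zero hm.ne'
  rw [List.finRange_succ_last]; simp [Fin.last]

/-- chain + closing condition give `IsCycPred` -/
lemma isCycPred_of_chain {P : Type} {pr : P → P} {L : List P}
    (h : L.IsChain (fun i j => pr j = i))
    (h' : ∀ i j, L.head? = some i → L.getLast? = some j → pr i = j) : IsCycPred pr L := by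
  constructor
  · intro A C i j e
    rw [e, List.isChain_append] at h
    have := h.2.1
    rw [List.isChain_cons_cons] at this
    exact this.1
  · intro C i j e e'
    apply h' i j
    · rw [e]; rfl
    · rw [e]; exact e'

end chain

variable {κ : Type} [DecidableEq κ] (B : Blk G n κ)

lemma mem_blkList (k : κ) (i : B.Pos) : i ∈ B.blkList k ↔ i.1 = k := by
  obtain ⟨k', i⟩ := i
  constructor
  · intro h
    simp only [Blk.blkList, List.mem_append, List.mem_map] at h
    rcases h with (⟨j, -, h⟩ | h) | ⟨j, -, h⟩
    · exact (congrArg Sigma.fst h).symm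
    · split_ifs at h
      · rw [List.mem_map] at h
        obtain ⟨j, -, h⟩ := h
        exact (congrArg Sigma.fst h).symm
      · rw [List.mem_map] at h
        obtain ⟨j, -, h⟩ := h
        exact (congrArg Sigma.fst h).symm
    · exact (congrArg Sigma.fst h).symm
  · rintro rfl
    simp only [Blk.blkList, List.mem_append, List.mem_map]
    rcases i with j | j | j
    · left; left; exact ⟨j, List.mem_finRange j, rfl⟩
    · left; right
      split_ifs
      · exact List.mem_map.2 ⟨j, List.mem_finRange j, rfl⟩
      · exact List.mem_map.2 ⟨j, by simp, rfl⟩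
    · right; exact ⟨j, by simp, rfl⟩

lemma mem_posList (i : B.Pos) : i ∈ B.posList := by
  rw [Blk.posList, List.mem_flatMap]
  exact ⟨i.1, B.hall _, (mem_blkList B i.1 i).2 rfl⟩

lemma nodup_blkList (k : κ) : (B.blkList k).Nodup := by
  unfold Blk.blkList
  rw [List.nodup_append, List.nodup_append]
  refine ⟨⟨?_, ?_, ?_⟩, ?_, ?_⟩
  · apply List.Nodup.map _ (List.nodup_finRange _)
    intro a b h; simpa using h
  · split_ifs
    · apply List.Nodup.map _ (List.nodup_finRange _)
      intro a b h; simpa using h
    · apply List.Nodup.map _ (List.nodup_reverse.2 (List.nodup_finRange _))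
      intro a b h; simpa using h
  · intro a ha b hb
    rw [List.mem_map] at ha
    obtain ⟨j, -, rfl⟩ := ha
    split_ifs at hb
    · rw [List.mem_map] at hb
      obtain ⟨j', -, rfl⟩ := hb
      simp
    · rw [List.mem_map] at hb
      obtain ⟨j', -, rfl⟩ := hb
      simp
  · apply List.Nodup.map _ (List.nodup_reverse.2 (List.nodup_finRange _))
    intro a b h; simpa using h
  · intro a ha b hb
    rw [List.mem_map] at hb
    obtain ⟨j, -, rfl⟩ := hb
    rcases List.mem_append.1 ha with ha | ha
    · rw [List.mem_map] at ha
      obtain ⟨j', -, rfl⟩ := ha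
      simp
    · split_ifs at ha
      · rw [List.mem_map] at ha
        obtain ⟨j', -, rfl⟩ := ha
        simp
      · rw [List.mem_map] at ha
        obtain ⟨j', -, rfl⟩ := ha
        simp

/-- F1 -/
theorem nodup_posList : B.posList.Nodup := by
  unfold Blk.posList
  rw [List.nodup_flatMap]
  refine ⟨fun k _ => nodup_blkList B k, ?_⟩
  refine List.Pairwise.imp ?_ B.hnd
  intro a b hab
  simp only [Function.onFun]
  intro i hi hi'
  rw [mem_blkList] at hi hi'
  exact hab (hi.symm.trans hi')

/-- letter at a position -/
def lt (i : B.Pos) : G × Fin n × Bool := (B.lab i, B.unk i, B.sgn i)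

lemma ev_blkList (ha0 : ∀ k, B.a0 k = 1) (k : κ) :
    ev ((B.blkList k).map (lt B)) = B.val k := by
  have hup : (List.finRange (B.r k)).map (fun j => lt B (B.up k j)) = B.st k := by
    conv_rhs => rw [← List.map_get_finRange (B.st k)]
    apply List.map_congr_left
    intro j _
    by_cases hj : j.1 = 0
    · have e : j = B.r0 k := Fin.ext hj
      have e2 : ((B.st k).get j).1 = 1 := by rw [e]; exact ha0 k
      have e3 : B.lab (B.up k j) = 1 := by simp [Blk.lab, hj, ha0]
      apply Prod.ext
      · show B.lab (B.up k j) = _
        rw [e3, e2]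
      · rfl
    · apply Prod.ext
      · simp [lt, Blk.lab, hj]
      · rfl
  have hdn : ev ((List.finRange (B.r k)).reverse.map (fun j => lt B (B.dn k j))) =
      Coprod.inl (if B.sg k then 1 else (B.b0 k)⁻¹) * (ev (B.st k))⁻¹ := by
    have h := ev_rev (B.st k) (B.hst k) (if B.sg k then 1 else (B.b0 k)⁻¹)
    have e : ((B.st k).get ⟨0, B.hst k⟩).1 = 1 := ha0 k
    rw [e, map_one, mul_one] at h
    exact h
  by_cases hp : B.sg k = true
  · have hf : (List.finRange (B.l k)).map (fun j => lt B (B.fc k j)) = B.W (B.ty k) := by
      conv_rhs => rw [← List.map_get_finRange (B.W (B.ty k))]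
      apply List.map_congr_left
      intro j _
      apply Prod.ext
      · simp [lt, Blk.lab, hp]
      · simp [lt, Blk.unk, Blk.sgn, hp]
    simp only [Blk.blkList, hp, if_true, List.map_append, List.map_map, ev_append]
    have e1 : ((lt B) ∘ B.up k) = fun j => lt B (B.up k j) := rfl
    have e2 : ((lt B) ∘ B.fc k) = fun j => lt B (B.fc k j) := rfl
    have e3 : ((lt B) ∘ B.dn k) = fun j => lt B (B.dn k j) := rfl
    rw [e1, e2, e3, hup, hf, hdn]
    simp [Blk.val, hp]
  · have hp' : B.sg k = false := by simpa using hp
    have hf : ev ((List.finRange (B.l k)).reverse.map (fun j => lt B (B.fc k j))) =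
        (ev (B.W (B.ty k)))⁻¹ * Coprod.inl (B.b0 k) := by
      have h := ev_rev (B.W (B.ty k)) (B.hW _) 1
      rw [map_one, one_mul] at h
      have e : (List.finRange (B.l k)).reverse.map (fun j => lt B (B.fc k j)) =
          (List.finRange (B.W (B.ty k)).length).reverse.map (fun j =>
      ((if h : j.1 + 1 < (B.W (B.ty k)).length then ((B.W (B.ty k)).get ⟨j.1 + 1, h⟩).1⁻¹
        else 1), ((B.W (B.ty k)).get j).2.1, !((B.W (B.ty k)).get j).2.2)) := by
        apply List.map_congr_left
        intro j _
        simp [lt, Blk.lab, Blk.unk, Blk.sgn, hp']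
      rw [e, h]
      rfl
    simp only [Blk.blkList, hp', Bool.false_eq_true, if_false, List.map_append, List.map_map,
      ev_append]
    have e1 : ((lt B) ∘ B.up k) = fun j => lt B (B.up k j) := rfl
    have e2 : ((lt B) ∘ B.fc k) = fun j => lt B (B.fc k j) := rfl
    have e3 : ((lt B) ∘ B.dn k) = fun j => lt B (B.dn k j) := rfl
    rw [e1, e2, e3, hup, hf, hdn]
    simp [Blk.val, hp', mul_assoc]

lemma ev_flatMap {α : Type*} (f : α → List (G × Fin n × Bool)) (l : List α) :
    ev (l.flatMap f) = (l.map fun a => ev (f a)).prod := by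
  induction l with
  | nil => simp [ev]
  | cons a l ih => rw [List.flatMap_cons, ev_append, ih, List.map_cons, List.prod_cons]

/-- F3: value of the flattened word -/
theorem ev_posList (ha0 : ∀ k, B.a0 k = 1) :
    ev (B.posList.map fun i => (B.lab i, B.unk i, B.sgn i)) = (B.ord.map B.val).prod := by
  have h : (B.posList.map fun i => (B.lab i, B.unk i, B.sgn i)) =
      B.ord.flatMap (fun k => (B.blkList k).map (lt B)) := by
    rw [Blk.posList, List.map_flatMap]; rfl
  rw [h, ev_flatMap]
  congr 1
  apply List.map_congr_left
  intro k _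
  exact ev_blkList B ha0 k

lemma head?_blkList (k : κ) : (B.blkList k).head? = some (B.up k (B.r0 k)) := by
  have h := head?_finRange (B.hst k)
  simp only [Blk.blkList, List.head?_append, List.head?_map, h]
  rfl

lemma getLast?_blkList (k : κ) : (B.blkList k).getLast? = some (B.dn k (B.r0 k)) := by
  have h : (List.finRange (B.r k)).reverse.getLast? = some ⟨0, B.hst k⟩ := by
    rw [List.getLast?_reverse]; exact head?_finRange (B.hst k)
  simp only [Blk.blkList, List.getLast?_append, List.getLast?_map, h]
  rfl

lemma isChain_blkList (k : κ) : (B.blkList k).IsChain (fun i j => B.pred j = i) := by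
  have hup : ((List.finRange (B.r k)).map (B.up k)).IsChain (fun i j => B.pred j = i) := by
    rw [List.isChain_map]
    apply isChain_finRange
    intro i hi
    simp [Blk.pred]
  have hdn : ((List.finRange (B.r k)).reverse.map (B.dn k)).IsChain
      (fun i j => B.pred j = i) := by
    rw [List.isChain_map]
    apply isChain_finRange_reverse
    intro i hi
    simp [Blk.pred, hi]
  have hlup : ((List.finRange (B.r k)).map (B.up k)).getLast? = some (B.up k (B.r1 k)) := by
    rw [List.getLast?_map, getLast?_finRange (B.hst k)]; rfl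
  have hhdn : ((List.finRange (B.r k)).reverse.map (B.dn k)).head? =
      some (B.dn k (B.r1 k)) := by
    rw [List.head?_map, List.head?_reverse, getLast?_finRange (B.hst k)]; rfl
  by_cases hp : B.sg k = true
  · have hf : ((List.finRange (B.l k)).map (B.fc k)).IsChain (fun i j => B.pred j = i) := by
      rw [List.isChain_map]
      apply isChain_finRange
      intro i hi
      simp [Blk.pred, hp]
    have hhf : ((List.finRange (B.l k)).map (B.fc k)).head? = some (B.fc k (B.l0 k)) := by
      rw [List.head?_map, head?_finRange (B.hW _)]; rfl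
    have hlf : ((List.finRange (B.l k)).map (B.fc k)).getLast? = some (B.fc k (B.l1 k)) := by
      rw [List.getLast?_map, getLast?_finRange (B.hW _)]; rfl
    simp only [Blk.blkList, hp, if_true]
    rw [List.isChain_append, List.isChain_append]
    refine ⟨⟨hup, hf, ?_⟩, hdn, ?_⟩
    · intro x hx y hy
      rw [hlup] at hx
      rw [hhf] at hy
      obtain rfl : B.up k (B.r1 k) = x := Option.some.inj hx
      obtain rfl : B.fc k (B.l0 k) = y := Option.some.inj hy
      simp [Blk.pred, hp, Blk.l0]
    · intro x hx y hy
      rw [List.getLast?_append, hlf] at hx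
      rw [hhdn] at hy
      obtain rfl : B.fc k (B.l1 k) = x := Option.some.inj hx
      obtain rfl : B.dn k (B.r1 k) = y := Option.some.inj hy
      have h1 := B.hst k
      have h2 : ¬ ((B.r1 k).1 + 1 < B.r k) := by
        simp only [Blk.r1]; omega
      simp only [Blk.pred, h2, dif_neg, not_false_eq_true, hp, if_true]
  · have hp' : B.sg k = false := by simpa using hp
    have hf : ((List.finRange (B.l k)).reverse.map (B.fc k)).IsChain
        (fun i j => B.pred j = i) := by
      rw [List.isChain_map]
      apply isChain_finRange_reverse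
      intro i hi
      simp [Blk.pred, hp', hi]
    have hhf : ((List.finRange (B.l k)).reverse.map (B.fc k)).head? =
        some (B.fc k (B.l1 k)) := by
      rw [List.head?_map, List.head?_reverse, getLast?_finRange (B.hW _)]; rfl
    have hlf : ((List.finRange (B.l k)).reverse.map (B.fc k)).getLast? =
        some (B.fc k (B.l0 k)) := by
      rw [List.getLast?_map, List.getLast?_reverse, head?_finRange (B.hW _)]; rfl
    simp only [Blk.blkList, hp', Bool.false_eq_true, if_false]
    rw [List.isChain_append, List.isChain_append]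
    refine ⟨⟨hup, hf, ?_⟩, hdn, ?_⟩
    · intro x hx y hy
      rw [hlup] at hx
      rw [hhf] at hy
      obtain rfl : B.up k (B.r1 k) = x := Option.some.inj hx
      obtain rfl : B.fc k (B.l1 k) = y := Option.some.inj hy
      have h1 := B.hW (B.ty k)
      have h2 : ¬ ((B.l1 k).1 + 1 < B.l k) := by
        simp only [Blk.l1]; omega
      simp only [Blk.pred, h2, dif_neg, not_false_eq_true, hp', Bool.false_eq_true, if_false]
    · intro x hx y hy
      rw [List.getLast?_append, hlf] at hx
      rw [hhdn] at hy
      obtain rfl : B.fc k (B.l0 k) = x := Option.some.inj hx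
      obtain rfl : B.dn k (B.r1 k) = y := Option.some.inj hy
      have h1 := B.hst k
      have h2 : ¬ ((B.r1 k).1 + 1 < B.r k) := by
        simp only [Blk.r1]; omega
      simp only [Blk.pred, h2, dif_neg, not_false_eq_true, hp', Bool.false_eq_true, if_false]

lemma pk_of_adj {A C : List κ} {k k' : κ} (e : B.ord = A ++ k :: k' :: C) : B.pk k' = k := by
  unfold Blk.pk
  rw [Equiv.symm_apply_eq]
  have hlt : A.length + 1 < B.ord.length := by rw [e]; simp
  have h := List.formPerm_apply_lt_getElem B.ord B.hnd A.length hlt
  have e1 : B.ord[A.length]'(by omega) = k := by simp [e]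
  have e2 : B.ord[A.length + 1] = k' := by simp [e]
  rw [e1, e2] at h
  exact h.symm

lemma pk_of_last {k k' : κ} (e : B.ord.head? = some k) (e' : B.ord.getLast? = some k') :
    B.pk k = k' := by
  unfold Blk.pk
  rw [Equiv.symm_apply_eq]
  obtain ⟨C, hC⟩ : ∃ C, B.ord = k :: C := by
    cases h : B.ord with
    | nil => rw [h] at e; simp at e
    | cons a C => rw [h] at e; simp at e; exact ⟨C, by rw [e]⟩
  rw [hC] at e' ⊢
  have h2 : (k :: C).getLast (List.cons_ne_nil _ _) = k' := by
    rw [List.getLast?_eq_some_getLast (List.cons_ne_nil _ _)] at e'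
    exact Option.some.inj e'
  rw [← h2]
  exact (List.formPerm_apply_getLast k C).symm

/-- F2 -/
theorem isCycPred_posList : IsCycPred B.pred B.posList := by
  have hup0 : ∀ k, B.pred (B.up k (B.r0 k)) = B.dn (B.pk k) (B.r0 _) := by
    intro k; simp [Blk.pred, Blk.r0]
  have hne : ∀ k, B.blkList k ≠ [] := by
    intro k h
    have := head?_blkList B k
    rw [h] at this
    simp at this
  apply isCycPred_of_chain
  · unfold Blk.posList
    rw [List.flatMap_def, List.isChain_flatten]
    · refine ⟨?_, ?_⟩
      · intro l hl
        rw [List.mem_map] at hl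
        obtain ⟨k, -, rfl⟩ := hl
        exact isChain_blkList B k
      · rw [List.isChain_map, List.isChain_iff_getElem]
        intro i hi x hx y hy
        rw [getLast?_blkList] at hx
        rw [head?_blkList] at hy
        obtain rfl := Option.some.inj hx
        obtain rfl := Option.some.inj hy
        rw [hup0]
        have : B.pk (B.ord[i + 1]) = B.ord[i] := by
          apply pk_of_adj B (A := B.ord.take i) (C := B.ord.drop (i + 2))
          rw [List.getElem_cons_drop, List.getElem_cons_drop, List.take_append_drop]
        rw [this]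
    · intro h
      rw [List.mem_map] at h
      obtain ⟨k, -, h⟩ := h
      exact hne k h
  · intro i j hi hj
    unfold Blk.posList at hi hj
    cases h : B.ord with
    | nil => rw [h] at hi; simp at hi
    | cons a C =>
      rw [h, List.flatMap_cons, List.head?_append, head?_blkList] at hi
      obtain rfl : B.up a (B.r0 a) = i := Option.some.inj hi
      obtain ⟨C', b, hb⟩ : ∃ C' b, B.ord = C' ++ [b] := by
        refine ⟨B.ord.dropLast, B.ord.getLast (by rw [h]; simp), ?_⟩
        exact (List.dropLast_append_getLast _).symm
      rw [hb, List.flatMap_append, List.flatMap_singleton, List.getLast?_append,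
        getLast?_blkList] at hj
      obtain rfl : B.dn b (B.r0 b) = j := Option.some.inj hj
      rw [hup0]
      have : B.pk a = b := by
        apply pk_of_last
        · rw [h]; rfl
        · rw [hb]; simp
      rw [this]

end Crest.Agent.R174.FlatK
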