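import Mathlib
import Crest.Agent.R174.FlatK753

set_option autoImplicit false

/-!
# R174: the cyclic predecessor as a permutation (helper753)
-/

namespace Crest.Agent.R174.FlatK

open Crest.Agent.R174.WD

universe u

/-- a cyclic predecessor function of a nodup complete list is the inverse of `formPerm` -/
theorem pred_eq_formPerm_symm {P : Type} [DecidableEq P] {pr : P → P} {L : List P}
    (h : IsCycPred pr L) (hnd : L.Nodup) {i : P} (hi : i ∈ L) : pr i = L.formPerm.symm i := by
  rw [Equiv.eq_symm_apply]
  obtain ⟨m, hm, rfl⟩ := List.getElem_of_mem hi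
  cases m with
  | zero =>
    obtain ⟨a, C, rfl⟩ : ∃ a C, L = a :: C := by
      cases L with
      | nil => simp at hm
      | cons a C => exact ⟨a, C, rfl⟩
    have h2 := h.2 C a ((a :: C).getLast (List.cons_ne_nil _ _)) rfl
      (List.getLast?_eq_some_getLast (List.cons_ne_nil _ _))
    simp only [List.getElem_cons_zero]
    rw [h2]
    exact List.formPerm_apply_getLast a C
  | succ m =>
    have h1 := h.1 (L.take m) (L.drop (m + 2)) L[m] L[m + 1] (by
      rw [List.getElem_cons_drop, List.getElem_cons_drop, List.take_append_drop])
    rw [h1]
    exact List.formPerm_apply_lt_getElem L hnd m hm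

variable {G : Type u} {n : ℕ} {κ : Type} [DecidableEq κ] (B : Blk G n κ)

/-- the cyclic predecessor as a permutation -/
def predE : Equiv.Perm B.Pos := B.posList.formPerm.symm

theorem coe_predE [Group G] : (predE B : B.Pos → B.Pos) = B.pred := by
  funext i
  exact (pred_eq_formPerm_symm (isCycPred_posList B) (nodup_posList B) (mem_posList B i)).symm

theorem pred_bijective [Group G] : Function.Bijective B.pred := by
  rw [← coe_predE]; exact (predE B).bijective

end Crest.Agent.R174.FlatK
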