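import Mathlib
import Crest.Agent.R174.Red259
import Crest.Agent.R174.GRDefs
import Crest.Agent.R174.Feedback477
import Crest.Agent.R174.WD126

set_option autoImplicit false

/-!
# R174, W7b (helper83): glue between the word data and the systems of `GRDefs`
-/

open scoped Matrix.Norms.L2Operator
open Crest.Agent.R174.Red Crest.Agent.R174.GR

namespace Crest.Agent.R174.Glue

universe u

section linalg

variable {ι : Type} [Fintype ι] [DecidableEq ι] {N : ι → Type} [∀ x, Fintype (N x)]
  [∀ x, DecidableEq (N x)]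

lemma ker_blockDiagonal' (D : ∀ x, Matrix (N x) (N x) ℂ) :
    Module.finrank ℂ (LinearMap.ker (Matrix.mulVecLin (Matrix.blockDiagonal' D))) =
      ∑ x, Module.finrank ℂ (LinearMap.ker (Matrix.mulVecLin (D x))) := by
  have hmul : ∀ (v : (Σ x, N x) → ℂ) (x : ι) (p : N x),
      (Matrix.blockDiagonal' D).mulVec v ⟨x, p⟩ = (D x).mulVec (fun p => v ⟨x, p⟩) p := by
    intro v x p
    simp only [Matrix.mulVec, dotProduct, Fintype.sum_sigma]
    rw [Finset.sum_eq_single x]
    · simp
    · intro y _ hy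
      apply Finset.sum_eq_zero
      intro q _
      rw [Matrix.blockDiagonal'_apply_ne _ _ _ (Ne.symm hy), zero_mul]
    · intro h; exact absurd (Finset.mem_univ _) h
  let e : LinearMap.ker (Matrix.mulVecLin (Matrix.blockDiagonal' D)) ≃ₗ[ℂ]
      ((x : ι) → LinearMap.ker (Matrix.mulVecLin (D x))) :=
    { toFun := fun v x => ⟨fun p => v.1 ⟨x, p⟩, by
        have hv := v.2
        rw [LinearMap.mem_ker, Matrix.mulVecLin_apply] at hv ⊢
        funext p
        rw [← hmul, hv]
        rfl⟩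
      invFun := fun w => ⟨fun s => (w s.1).1 s.2, by
        rw [LinearMap.mem_ker, Matrix.mulVecLin_apply]
        funext s
        obtain ⟨x, p⟩ := s
        rw [hmul]
        have hw := (w x).2
        rw [LinearMap.mem_ker, Matrix.mulVecLin_apply] at hw
        exact congrFun hw p⟩
      map_add' := fun v w => rfl
      map_smul' := fun c v => rfl
      left_inv := fun v => rfl
      right_inv := fun w => rfl }
  rw [e.finrank_eq, Module.finrank_pi_fintype]

end linalg

section sys

variable {ι A Q : Type} [Fintype ι] [LinearOrder ι] [Fintype A] [DecidableEq A]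
  [Fintype Q] [DecidableEq Q]

lemma sum_card_Fa (S : Sys ι A Q) : ∑ x, Fintype.card (S.Fa x) = Fintype.card A := by
  rw [← Fintype.card_sigma]
  exact Fintype.card_congr (Equiv.sigmaFiberEquiv S.c)

/-- the big scalar matrix `J(σ) ⊕ 1` on all letters of one sign -/
noncomputable def Jbig (S : Sys ι A Q) (St : ι → Type) [∀ x, DecidableEq (St x)] (σ : S.KA) :
    Matrix (Σ x, (S.Po x ⊕ St x)) (Σ x, (S.Po x ⊕ St x)) ℂ :=
  Matrix.blockDiagonal' fun x => Matrix.fromBlocks (S.Jm σ x) 0 0 1

/-- feedback lemma, all unknowns at once -/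
theorem exists_M' (S : Sys ι A Q) (St : ι → Type) [∀ x, Fintype (St x)] [∀ x, DecidableEq (St x)]
    (M : ∀ x, Matrix (S.Po x ⊕ St x) (S.Po x ⊕ St x) ℂ) (hM : ∀ x, M x ∈ Matrix.unitaryGroup _ ℂ) :
    ∃ M' : S.VA, M' ∈ unitary S.VA ∧ ∀ σ : S.KA,
      ∑ x, Module.finrank ℂ (LinearMap.ker (Matrix.mulVecLin (S.Jm σ x - M' x))) ≤
        Module.finrank ℂ (LinearMap.ker (Matrix.mulVecLin
          (Jbig S St σ - Matrix.blockDiagonal' M))) := by
  choose M' hM' hd using fun x => Feedback.feedback (M x) (hM x)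
  refine ⟨M', ?_, fun σ => ?_⟩
  · constructor
    · funext x
      exact (Matrix.mem_unitaryGroup_iff'.1 (hM' x))
    · funext x
      exact (Matrix.mem_unitaryGroup_iff.1 (hM' x))
  · unfold Jbig
    rw [← Matrix.blockDiagonal'_sub, ker_blockDiagonal']
    exact Finset.sum_le_sum fun x _ => hd x _

/-- final contradiction: for one `M` all `σ` have small kernel -/
theorem contra (S : Sys ι A Q) (St : ι → Type) [∀ x, Fintype (St x)] [∀ x, DecidableEq (St x)]
    (hGR : GR S) (h0 : ∀ i x, x < i → S.E i x = 0) (h1 : ∀ i, S.E i i ≠ 0)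
    (M : ∀ x, Matrix (S.Po x ⊕ St x) (S.Po x ⊕ St x) ℂ) (hM : ∀ x, M x ∈ Matrix.unitaryGroup _ ℂ)
    (hd : ∀ σ : S.KA, σ ∈ unitary S.KA → Module.finrank ℂ (LinearMap.ker (Matrix.mulVecLin
          (Jbig S St σ - Matrix.blockDiagonal' M))) < Fintype.card A) : False := by
  obtain ⟨M', hM', hd'⟩ := exists_M' S St M hM
  obtain ⟨σ, hσ, hk⟩ := hGR h0 h1 M' hM'
  have h2 := hd σ hσ
  have h3 := hd' σ
  have h4 : Fintype.card A ≤
      ∑ x, Module.finrank ℂ (LinearMap.ker (Matrix.mulVecLin (S.Jm σ x - M' x))) := by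
    rw [← sum_card_Fa S]
    exact Finset.sum_le_sum fun x _ => hk x
  omega

end sys

section word

variable {G : Type u} {n : ℕ}

/-- the system of the word data -/
def sys (W : Fin n → List (G × Fin n × Bool)) (f : Fin n → ℕ) :
    Sys (Fin n) (Σ i : Fin n, Fin (f i)) (Σ i : Fin n, Fin (W i).length) where
  c := Sigma.fst
  rel := Sigma.fst
  var q := ((W q.1).get q.2).2.1
  pos q := ((W q.1).get q.2).2.2

lemma sys_E (W : Fin n → List (G × Fin n × Bool)) (f : Fin n → ℕ) (i x : Fin n) :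
    (sys W f).E i x = expSum (W i) x := by
  unfold Sys.E expSum sys
  rw [Fintype.sum_sigma, Finset.sum_eq_single i]
  · simp only [true_and]
    rw [← Fin.sum_univ_fun_getElem]
    refine Finset.sum_congr rfl fun j _ => ?_
    simp only [List.get_eq_getElem]
    have hb : ∀ b : Bool, (if b = true then (1 : ℤ) else -1) = bif b then 1 else -1 := by
      intro b; cases b <;> rfl
    rw [hb]
  · intro i' _ hi'
    apply Finset.sum_eq_zero
    intro j _
    rw [if_neg]
    rintro ⟨h, _⟩
    exact hi' h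
  · intro h; exact absurd (Finset.mem_univ _) h

variable (W : Fin n → List (G × Fin n × Bool)) (f : Fin n → ℕ)

/-- index type of blocks -/
abbrev Ka (f : Fin n → ℕ) : Type := (Σ i : Fin n, Fin (f i)) × Bool

/-- the block data of the glue -/
abbrev blk (hW : ∀ i, 0 < (W i).length) (st : Ka f → List (G × Fin n × Bool))
    (hst : ∀ k, 0 < (st k).length) (ord : List (Ka f)) (hnd : ord.Nodup) (hall : ∀ k, k ∈ ord) :
    WD.Blk G n (Ka f) where
  W := W
  ord := ord
  hnd := hnd
  hall := hall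
  st := st
  ty k := k.1.1
  sg k := k.2
  hst := hst
  hW := hW

/-- stem letters with unknown `x` -/
abbrev St (st : Ka f → List (G × Fin n × Bool)) (x : Fin n) : Type :=
  {p : Σ k : Ka f, Fin (st k).length // ((st p.1).get p.2).2.1 = x}

/-- pairs of letters -/
abbrev PP (st : Ka f → List (G × Fin n × Bool)) : Type :=
  Σ x : Fin n, ((sys W f).Po x ⊕ St f st x)

variable (hW : ∀ i, 0 < (W i).length) (st : Ka f → List (G × Fin n × Bool))
    (hst : ∀ k, 0 < (st k).length) (ord : List (Ka f)) (hnd : ord.Nodup) (hall : ∀ k, k ∈ ord)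

/-- the pair of a position -/
def pr : (blk W f hW st hst ord hnd hall).Pos → PP W f st
  | ⟨k, Sum.inl j⟩ => ⟨((st k).get j).2.1, Sum.inr ⟨⟨k, j⟩, rfl⟩⟩
  | ⟨k, Sum.inr (Sum.inl j)⟩ => ⟨((W k.1.1).get j).2.1, Sum.inl ⟨(k.1, ⟨k.1.1, j⟩), rfl, rfl⟩⟩
  | ⟨k, Sum.inr (Sum.inr j)⟩ => ⟨((st k).get j).2.1, Sum.inr ⟨⟨k, j⟩, rfl⟩⟩

/-- position from pair and sign -/
def unpr : PP W f st × Bool → (blk W f hW st hst ord hnd hall).Pos
  | (⟨_, Sum.inl ⟨(a, ⟨i, j⟩), h⟩⟩, b) =>
      ⟨(a, if b then ((W i).get j).2.2 else !((W i).get j).2.2),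
        Sum.inr (Sum.inl (Fin.cast (congrArg (fun i => (W i).length) h.1.symm) j))⟩
  | (⟨_, Sum.inr ⟨⟨k, j⟩, _⟩⟩, b) =>
      if b = ((st k).get j).2.2 then ⟨k, Sum.inl j⟩ else ⟨k, Sum.inr (Sum.inr j)⟩

/-- positions are pairs with a sign -/
def ePos : (blk W f hW st hst ord hnd hall).Pos ≃ PP W f st × Bool where
  toFun p := (pr W f hW st hst ord hnd hall p, (blk W f hW st hst ord hnd hall).sgn p)
  invFun := unpr W f hW st hst ord hnd hall
  left_inv := by
    rintro ⟨⟨a, s⟩, j | j | j⟩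
    · simp [pr, unpr, WD.Blk.sgn]
    · have hbb : (if (if s then ((W a.1).get j).2.2 else !((W a.1).get j).2.2) then
          ((W a.1).get j).2.2 else !((W a.1).get j).2.2) = s := by
        cases s <;> cases ((W a.1).get j).2.2 <;> rfl
      have key : ∀ (t : Bool), t = s → (⟨(a, t), Sum.inr (Sum.inl
          (Fin.cast (congrArg (fun i => (W i).length) (rfl : a.1 = a.1)) j))⟩ :
          (blk W f hW st hst ord hnd hall).Pos) = ⟨(a, s), Sum.inr (Sum.inl j)⟩ := by
        intro t ht; subst ht; rfl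
      exact key _ hbb
    · simp [pr, unpr, WD.Blk.sgn]
  right_inv := by
    rintro ⟨⟨x, ⟨⟨a, ⟨i, j⟩⟩, h1, h2⟩ | ⟨⟨k, j⟩, h⟩⟩, b⟩
    · have h1' : a.1 = i := h1
      subst h1'
      have h2' : ((W a.1).get j).2.1 = x := h2
      subst h2'
      have hbb : (if (if b then ((W a.1).get j).2.2 else !((W a.1).get j).2.2) then
          ((W a.1).get j).2.2 else !((W a.1).get j).2.2) = b := by
        cases b <;> cases ((W a.1).get j).2.2 <;> rfl
      exact Prod.ext rfl hbb
    · subst h
      simp only [unpr]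
      split_ifs with hb
      · simp [pr, WD.Blk.sgn, hb]
      · simp only [pr, WD.Blk.sgn]
        cases b <;> cases h : ((st k).get j).2.2 <;> simp_all

end word

end Crest.Agent.R174.Glue
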