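import Mathlib

/-!
# R174 (KLH), block W5: the trace inequality (helper720, post 2808; form of helper477, post 3538)

Abstract part: `𝓑` is a complex *-algebra (no topology) with a tracial positive functional `τ`.
-/

set_option autoImplicit false
open Finset

noncomputable section

namespace Crest.Agent.R174.TrIneq

section abstract_part

variable {𝓑 : Type*} [Ring 𝓑] [Algebra ℂ 𝓑] [StarRing 𝓑] [StarModule ℂ 𝓑]

/-- a tracial positive functional -/
structure PosTrace (τ : 𝓑 →ₗ[ℂ] ℂ) : Prop where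
  comm : ∀ a b, τ (a * b) = τ (b * a)
  map_star : ∀ a, τ (star a) = (starRingEnd ℂ) (τ a)
  nonneg : ∀ a, 0 ≤ (τ (star a * a)).re

/-- the Cesàro-Fejér sawtooth sum `S_K(Z) = ∑_{q<K} (1-q/K) Im τ(Z^q) / (π q)`
(the term `q = 0` is `0` since division by zero is zero). -/
def SK (τ : 𝓑 →ₗ[ℂ] ℂ) (K : ℕ) (Z : 𝓑) : ℝ :=
  ∑ q ∈ range K, (1 - (q : ℝ) / K) * (τ (Z ^ q)).im / (Real.pi * q)

omit [StarRing 𝓑] [StarModule ℂ 𝓑] in
/-- `F` is a finite combination of fixed elements with differentiable coefficients,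
and `F'` is its derivative -/
def HasD (F F' : ℝ → 𝓑) : Prop :=
  ∃ (m : ℕ) (b : Fin m → 𝓑) (c c' : Fin m → ℝ → ℂ), (∀ j t, HasDerivAt (c j) (c' j t) t) ∧
    (∀ t, F t = ∑ j, c j t • b j) ∧ (∀ t, F' t = ∑ j, c' j t • b j)

omit [StarRing 𝓑] [StarModule ℂ 𝓑] in
theorem HasD.of_fintype {ι : Type*} [Fintype ι] {F F' : ℝ → 𝓑} (b : ι → 𝓑) (c c' : ι → ℝ → ℂ)
    (h : ∀ j t, HasDerivAt (c j) (c' j t) t)
    (hF : ∀ t, F t = ∑ j, c j t • b j) (hF' : ∀ t, F' t = ∑ j, c' j t • b j) : HasD F F' := by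
  classical
  refine ⟨Fintype.card ι, fun j => b ((Fintype.equivFin ι).symm j),
    fun j => c ((Fintype.equivFin ι).symm j), fun j => c' ((Fintype.equivFin ι).symm j),
    fun j t => h _ t, fun t => ?_, fun t => ?_⟩
  · rw [hF t]
    exact (Equiv.sum_comp (Fintype.equivFin ι).symm (fun j => c j t • b j)).symm
  · rw [hF' t]
    exact (Equiv.sum_comp (Fintype.equivFin ι).symm (fun j => c' j t • b j)).symm

omit [StarRing 𝓑] [StarModule ℂ 𝓑] in
theorem HasD.apply {F F' : ℝ → 𝓑} (h : HasD F F') (L : 𝓑 →ₗ[ℂ] ℂ) (t : ℝ) :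
    HasDerivAt (fun t => L (F t)) (L (F' t)) t := by
  obtain ⟨m, b, c, c', h1, h2, h3⟩ := h
  have e1 : (fun t => L (F t)) = fun t => ∑ j, c j t * L (b j) := by
    funext t; rw [h2 t, map_sum]; simp
  have e2 : L (F' t) = ∑ j, c' j t * L (b j) := by
    rw [h3 t, map_sum]; simp
  rw [e1, e2]
  exact HasDerivAt.fun_sum fun j _ => (h1 j t).mul_const _

omit [StarRing 𝓑] [StarModule ℂ 𝓑] in
theorem HasD.const (b : 𝓑) : HasD (fun _ => b) (fun _ => 0) :=
  HasD.of_fintype (ι := Unit) (fun _ => b) (fun _ _ => 1) (fun _ _ => 0)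
    (fun _ t => hasDerivAt_const t 1) (fun t => by simp) (fun t => by simp)

omit [StarRing 𝓑] [StarModule ℂ 𝓑] in
theorem HasD.mul {F F' H H' : ℝ → 𝓑} (hF : HasD F F') (hH : HasD H H') :
    HasD (fun t => F t * H t) (fun t => F' t * H t + F t * H' t) := by
  obtain ⟨m, b, c, c', h1, h2, h3⟩ := hF
  obtain ⟨n, b₂, d, d', k1, k2, k3⟩ := hH
  refine HasD.of_fintype (ι := Fin m × Fin n) (fun p => b p.1 * b₂ p.2)
    (fun p t => c p.1 t * d p.2 t) (fun p t => c' p.1 t * d p.2 t + c p.1 t * d' p.2 t)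
    (fun p t => (h1 p.1 t).mul (k1 p.2 t)) (fun t => ?_) (fun t => ?_)
  · rw [h2 t, k2 t, Finset.sum_mul_sum, Fintype.sum_prod_type]
    simp only [smul_mul_smul_comm]
  · rw [h2 t, k2 t, h3 t, k3 t, Finset.sum_mul_sum, Finset.sum_mul_sum, Fintype.sum_prod_type,
      ← Finset.sum_add_distrib]
    refine Finset.sum_congr rfl fun i _ => ?_
    rw [← Finset.sum_add_distrib]
    refine Finset.sum_congr rfl fun j _ => ?_
    rw [smul_mul_smul_comm, smul_mul_smul_comm, add_smul]

omit [StarRing 𝓑] [StarModule ℂ 𝓑] in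
/-- derivative of powers under a trace -/
theorem HasD.pow_trace {F F' : ℝ → 𝓑} (hF : HasD F F') {τ : 𝓑 →ₗ[ℂ] ℂ}
    (hτ : ∀ a b, τ (a * b) = τ (b * a)) (q : ℕ) :
    ∃ D : ℝ → 𝓑, HasD (fun t => F t ^ (q + 1)) D ∧
      ∀ (t : ℝ) (m : ℕ), τ (D t * F t ^ m) = (q + 1 : ℂ) * τ (F' t * F t ^ (q + m)) := by
  induction q with
  | zero =>
    refine ⟨F', by simpa using hF, fun t m => ?_⟩
    simp
  | succ q ih =>
    obtain ⟨D, hD, hD'⟩ := ih
    refine ⟨fun t => D t * F t + F t ^ (q + 1) * F' t, ?_, fun t m => ?_⟩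
    · have := hD.mul hF
      simpa [pow_succ] using this
    · have h1 : (D t * F t + F t ^ (q + 1) * F' t) * F t ^ m
          = D t * F t ^ (m + 1) + F t ^ (q + 1) * (F' t * F t ^ m) := by
        rw [add_mul, mul_assoc, ← pow_succ', mul_assoc]
      rw [h1, map_add, hD', hτ (F t ^ (q + 1)), mul_assoc (F' t), ← pow_add]
      have h2 : q + (m + 1) = q + 1 + m := by ring
      have h3 : m + (q + 1) = q + 1 + m := by ring
      rw [h2, h3]
      push_cast
      ring

omit [StarRing 𝓑] [StarModule ℂ 𝓑] in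
theorem HasD.hasDerivAt_trace_pow {F F' : ℝ → 𝓑} (hF : HasD F F') {τ : 𝓑 →ₗ[ℂ] ℂ}
    (hτ : ∀ a b, τ (a * b) = τ (b * a)) (q : ℕ) (t : ℝ) :
    HasDerivAt (fun t => τ (F t ^ (q + 1))) ((q + 1 : ℂ) * τ (F' t * F t ^ q)) t := by
  obtain ⟨D, hD, hD'⟩ := hF.pow_trace hτ q
  have := hD.apply τ t
  have h2 := hD' t 0
  simp only [pow_zero, mul_one, add_zero] at h2
  rw [h2] at this
  exact this

/-- combinatorial identity behind the Fejér kernel -/
theorem fejer_sum (r : ℕ → ℝ) (K : ℕ) :
    ∑ j ∈ range K, ∑ l ∈ range K, r (Nat.dist j l)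
      = K * r 0 + 2 * ∑ q ∈ range K, (if q = 0 then 0 else ((K : ℝ) - q) * r q) := by
  induction K with
  | zero => simp
  | succ K ih =>
    rw [Finset.sum_range_succ]
    have h1 : ∑ j ∈ range K, ∑ l ∈ range (K + 1), r (Nat.dist j l)
        = ∑ j ∈ range K, ∑ l ∈ range K, r (Nat.dist j l) + ∑ j ∈ range K, r (K - j) := by
      rw [← Finset.sum_add_distrib]
      refine Finset.sum_congr rfl fun j hj => ?_
      rw [Finset.sum_range_succ]
      congr 2
      have := Finset.mem_range.1 hj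
      simp [Nat.dist]; omega
    have h2 : ∑ l ∈ range (K + 1), r (Nat.dist K l) = ∑ j ∈ range K, r (K - j) + r 0 := by
      rw [Finset.sum_range_succ]
      congr 1
      · refine Finset.sum_congr rfl fun j hj => ?_
        have := Finset.mem_range.1 hj
        congr 1
        simp [Nat.dist]; omega
      · simp [Nat.dist]
    have h3 : ∑ j ∈ range K, r (K - j) = ∑ q ∈ range (K + 1), (if q = 0 then 0 else r q) := by
      rw [Finset.sum_range_succ']
      simp only [Nat.add_eq_zero_iff, one_ne_zero, and_false, if_false, if_true, add_zero]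
      rw [← Finset.sum_range_reflect]
      refine Finset.sum_congr rfl fun j hj => ?_
      have := Finset.mem_range.1 hj
      congr 1
      omega
    have h4 : ∑ q ∈ range (K + 1), (if q = 0 then (0 : ℝ) else (((K + 1 : ℕ) : ℝ) - q) * r q)
        = ∑ q ∈ range K, (if q = 0 then (0 : ℝ) else ((K : ℝ) - q) * r q)
          + ∑ q ∈ range (K + 1), (if q = 0 then 0 else r q) := by
      rw [Finset.sum_range_succ, Finset.sum_range_succ (fun q => if q = 0 then (0 : ℝ) else r q),
        ← add_assoc, ← Finset.sum_add_distrib]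
      congr 1
      · refine Finset.sum_congr rfl fun q _ => ?_
        split_ifs
        · simp
        · push_cast; ring
      · split_ifs
        · rfl
        · push_cast; ring
    rw [h1, ih, h2, h3, h4]
    push_cast
    ring

/-- a finite family of self-adjoint orthogonal projections with sum one -/
structure Pvm {ι : Type*} [Fintype ι] [DecidableEq ι] (P : ι → 𝓑) : Prop where
  sa : ∀ j, star (P j) = P j
  orth : ∀ i j, P i * P j = if i = j then P i else 0
  sum_one : ∑ j, P j = 1

variable {ι : Type*} [Fintype ι] [DecidableEq ι]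

/-- the path `Q_t = ∑ exp(2π i t x_j) P_j` -/
def Qt (P : ι → 𝓑) (x : ι → ℝ) (t : ℝ) : 𝓑 :=
  ∑ j, Complex.exp (2 * Real.pi * Complex.I * t * x j) • P j

/-- the generator `α = ∑ x_j P_j` -/
def al (P : ι → 𝓑) (x : ι → ℝ) : 𝓑 := ∑ j, (x j : ℂ) • P j

omit [StarRing 𝓑] [StarModule ℂ 𝓑] [DecidableEq ι] in
theorem hasD_Qt (P : ι → 𝓑) (x : ι → ℝ) :
    HasD (Qt P x) (fun t => ∑ j, ((2 * Real.pi * Complex.I * x j)
      * Complex.exp (2 * Real.pi * Complex.I * t * x j)) • P j) := by
  refine HasD.of_fintype P (fun j t => Complex.exp (2 * Real.pi * Complex.I * t * x j))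
    (fun j t => (2 * Real.pi * Complex.I * x j)
      * Complex.exp (2 * Real.pi * Complex.I * t * x j)) (fun j t => ?_) (fun t => rfl)
    (fun t => rfl)
  have h1 : HasDerivAt (fun t : ℝ => 2 * Real.pi * Complex.I * t * x j)
      (2 * Real.pi * Complex.I * x j) t := by
    have := ((Complex.ofRealCLM.hasDerivAt (x := t)).const_mul (2 * Real.pi * Complex.I)).mul_const
      (x j : ℂ)
    simpa using this
  have := h1.cexp
  convert this using 1
  ring

omit [StarRing 𝓑] [StarModule ℂ 𝓑] in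
theorem sum_smul_mul_sum_smul {P : ι → 𝓑} (hP : ∀ i j, P i * P j = if i = j then P i else 0)
    (a b : ι → ℂ) : (∑ j, a j • P j) * (∑ j, b j • P j) = ∑ j, (a j * b j) • P j := by
  rw [Finset.sum_mul_sum]
  refine Finset.sum_congr rfl fun i _ => ?_
  simp only [smul_mul_smul_comm, hP]
  rw [Finset.sum_eq_single i]
  · simp
  · intro j _ hj
    simp [Ne.symm hj]
  · intro h; exact absurd (Finset.mem_univ i) h

theorem Qt_star_mul {P : ι → 𝓑} (hP : Pvm P) (x : ι → ℝ) (t : ℝ) :
    star (Qt P x t) * Qt P x t = 1 := by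
  unfold Qt
  rw [star_sum]
  simp only [star_smul, hP.sa]
  rw [sum_smul_mul_sum_smul hP.orth]
  rw [← hP.sum_one]
  refine Finset.sum_congr rfl fun j _ => ?_
  have : star (Complex.exp (2 * Real.pi * Complex.I * t * x j))
      * Complex.exp (2 * Real.pi * Complex.I * t * x j) = 1 := by
    have h0 : star (Complex.exp (2 * Real.pi * Complex.I * t * x j))
        = Complex.exp (-(2 * Real.pi * Complex.I * t * x j)) := by
      change (starRingEnd ℂ) _ = _
      rw [← Complex.exp_conj]
      congr 1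
      simp only [map_mul, Complex.conj_ofReal, Complex.conj_I, map_ofNat]
      ring
    rw [h0, ← Complex.exp_add]
    simp
  rw [this, one_smul]

theorem Qt_mul_star {P : ι → 𝓑} (hP : Pvm P) (x : ι → ℝ) (t : ℝ) :
    Qt P x t * star (Qt P x t) = 1 := by
  unfold Qt
  rw [star_sum]
  simp only [star_smul, hP.sa]
  rw [sum_smul_mul_sum_smul hP.orth]
  rw [← hP.sum_one]
  refine Finset.sum_congr rfl fun j _ => ?_
  have : Complex.exp (2 * Real.pi * Complex.I * t * x j)
      * star (Complex.exp (2 * Real.pi * Complex.I * t * x j)) = 1 := by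
    have h0 : star (Complex.exp (2 * Real.pi * Complex.I * t * x j))
        = Complex.exp (-(2 * Real.pi * Complex.I * t * x j)) := by
      change (starRingEnd ℂ) _ = _
      rw [← Complex.exp_conj]
      congr 1
      simp only [map_mul, Complex.conj_ofReal, Complex.conj_I, map_ofNat]
      ring
    rw [h0, ← Complex.exp_add]
    simp
  rw [this, one_smul]

omit [StarRing 𝓑] [StarModule ℂ 𝓑] in
theorem Qt_deriv_eq {P : ι → 𝓑} (hP : ∀ i j, P i * P j = if i = j then P i else 0)
    (x : ι → ℝ) (t : ℝ) :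
    (∑ j, ((2 * Real.pi * Complex.I * x j)
      * Complex.exp (2 * Real.pi * Complex.I * t * x j)) • P j)
      = (2 * Real.pi * Complex.I) • (al P x * Qt P x t) := by
  unfold al Qt
  rw [sum_smul_mul_sum_smul hP, Finset.smul_sum]
  refine Finset.sum_congr rfl fun j _ => ?_
  rw [smul_smul]
  congr 1
  ring

omit [Algebra ℂ 𝓑] [StarModule ℂ 𝓑] in
/-- powers of a unitary -/
theorem pow_mul_star_pow {U : 𝓑} (hU : U * star U = 1) (j l : ℕ) :
    U ^ j * star U ^ l = if l ≤ j then U ^ (j - l) else star U ^ (l - j) := by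
  have key : ∀ m : ℕ, U ^ m * star U ^ m = 1 := by
    intro m
    induction m with
    | zero => simp
    | succ m ih =>
      rw [pow_succ, pow_succ', mul_assoc, ← mul_assoc U, hU, one_mul, ih]
  split_ifs with h
  · obtain ⟨d, rfl⟩ := Nat.exists_eq_add_of_le h
    rw [add_comm l d, pow_add, mul_assoc, key, mul_one]
    simp
  · push Not at h
    obtain ⟨d, rfl⟩ := Nat.exists_eq_add_of_le h.le
    rw [pow_add, ← mul_assoc, key, one_mul]
    simp

/-- Fejér positivity: `0 ≤ Re τ(α) K + 2 ∑_{0<q<K} (K-q) Re τ(α U^q)`. -/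
theorem fejer_pos {τ : 𝓑 →ₗ[ℂ] ℂ} (hτ : PosTrace τ) {P : ι → 𝓑} (hP : Pvm P) {x : ι → ℝ}
    (hx : ∀ j, 0 ≤ x j) {U : 𝓑} (hU : U * star U = 1) (K : ℕ) :
    0 ≤ K * (τ (al P x)).re + 2 * ∑ q ∈ range K,
      (if q = 0 then 0 else ((K : ℝ) - q) * (τ (al P x * U ^ q)).re) := by
  set p : 𝓑 := ∑ j ∈ range K, U ^ j with hp
  have hal : star (al P x) = al P x := by
    unfold al
    rw [star_sum]
    refine Finset.sum_congr rfl fun j _ => ?_
    rw [star_smul, hP.sa]
    simp
  -- positivity
  have hpos : 0 ≤ (τ (al P x * (p * star p))).re := by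
    unfold al
    rw [Finset.sum_mul, map_sum, Complex.re_sum]
    refine Finset.sum_nonneg fun j _ => ?_
    rw [smul_mul_assoc, map_smul, smul_eq_mul, Complex.re_ofReal_mul]
    refine mul_nonneg (hx j) ?_
    have h1 : τ (P j * (p * star p)) = τ (star (star (P j * p)) * star (P j * p)) := by
      rw [star_star, star_mul, hP.sa]
      have h2 : P j * p * (star p * P j) = (P j * (p * star p)) * P j := by
        simp only [mul_assoc]
      rw [h2, hτ.comm (P j * (p * star p)), ← mul_assoc (P j) (P j), hP.orth j j, if_pos rfl]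
    rw [h1]
    exact hτ.nonneg _
  -- expansion
  have hexp : (τ (al P x * (p * star p))).re
      = ∑ j ∈ range K, ∑ l ∈ range K, (τ (al P x * U ^ (Nat.dist j l))).re := by
    rw [hp, star_sum, Finset.sum_mul_sum, Finset.mul_sum, map_sum, Complex.re_sum]
    refine Finset.sum_congr rfl fun j _ => ?_
    rw [Finset.mul_sum, map_sum, Complex.re_sum]
    refine Finset.sum_congr rfl fun l _ => ?_
    rw [star_pow, pow_mul_star_pow hU]
    split_ifs with h
    · have : Nat.dist j l = j - l := by simp [Nat.dist]; omega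
      rw [this]
    · have : Nat.dist j l = l - j := by simp [Nat.dist]; omega
      rw [this]
      have h3 : al P x * star U ^ (l - j) = star (U ^ (l - j) * al P x) := by
        rw [star_mul, hal, star_pow]
      rw [h3, hτ.map_star, Complex.conj_re, hτ.comm]
  rw [hexp, fejer_sum (fun m => (τ (al P x * U ^ m)).re)] at hpos
  simpa using hpos

/-- **W5, abstract form.** -/
theorem abstract_ineq {τ : 𝓑 →ₗ[ℂ] ℂ} (hτ : PosTrace τ) {P : ι → 𝓑} (hP : Pvm P) {x : ι → ℝ}
    (hx : ∀ j, 0 ≤ x j) {Y : 𝓑} (hY : Y * star Y = 1) (K : ℕ) :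
    SK τ K Y ≤ SK τ K (Qt P x 1 * Y) + (τ (al P x)).re := by
  rcases Nat.eq_zero_or_pos K with rfl | hK
  · have : 0 ≤ (τ (al P x)).re := by
      have := fejer_pos hτ hP hx (U := (1 : 𝓑)) (by simp) 1
      simpa using this
    simpa [SK] using this
  have hK' : (0 : ℝ) < K := by exact_mod_cast hK
  -- the path
  set V : ℝ → 𝓑 := fun t => Qt P x t * Y with hV
  have hVD : HasD V (fun t => (2 * Real.pi * Complex.I) • (al P x * V t)) := by
    have h1 := (hasD_Qt P x).mul (HasD.const Y)
    have h2 : (fun t : ℝ => (∑ j, ((2 * Real.pi * Complex.I * x j)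
      * Complex.exp (2 * Real.pi * Complex.I * t * x j)) • P j) * Y + Qt P x t * 0)
      = fun t : ℝ => (2 * Real.pi * Complex.I) • (al P x * V t) := by
      funext t
      rw [Qt_deriv_eq hP.orth, mul_zero, add_zero, smul_mul_assoc, mul_assoc (al P x)]
    rw [h2] at h1
    exact h1
  have hVU : ∀ t, V t * star (V t) = 1 := by
    intro t
    rw [hV]
    simp only [star_mul]
    rw [mul_assoc, ← mul_assoc Y, hY, one_mul, Qt_mul_star hP]
  have hder : ∀ t, HasDerivAt (fun t => SK τ K (V t))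
      (∑ q ∈ range K, if q = 0 then 0 else
        (1 - (q : ℝ) / K) * (2 * (τ (al P x * V t ^ q)).re)) t := by
    intro t
    unfold SK
    refine HasDerivAt.fun_sum fun q _ => ?_
    rcases Nat.eq_zero_or_pos q with rfl | hq
    · simp only [if_true]
      have : (fun t => (1 - ((0 : ℕ) : ℝ) / K) * (τ (V t ^ 0)).im / (Real.pi * ((0 : ℕ) : ℝ)))
          = fun _ => (0 : ℝ) := by
        funext t; simp
      rw [this]
      exact hasDerivAt_const _ _
    · obtain ⟨m, rfl⟩ : ∃ m, q = m + 1 := ⟨q - 1, by omega⟩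
      rw [if_neg (by omega)]
      have h1 := hVD.hasDerivAt_trace_pow hτ.comm m t
      have h2 : ((m + 1 : ℂ) * τ ((2 * Real.pi * Complex.I) • (al P x * V t) * V t ^ m))
          = (2 * Real.pi * (m + 1) : ℝ) * (Complex.I * τ (al P x * V t ^ (m + 1))) := by
        rw [smul_mul_assoc, mul_assoc (al P x), ← pow_succ', map_smul, smul_eq_mul]
        push_cast
        ring
      rw [h2] at h1
      have h3 : HasDerivAt (fun t => (τ (V t ^ (m + 1))).im)
          ((2 * Real.pi * (m + 1)) * (τ (al P x * V t ^ (m + 1))).re) t := by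
        have := Complex.imCLM.hasFDerivAt.comp_hasDerivAt t h1
        have e : Complex.imCLM ((2 * Real.pi * (m + 1) : ℝ)
            * (Complex.I * τ (al P x * V t ^ (m + 1))))
            = (2 * Real.pi * (m + 1)) * (τ (al P x * V t ^ (m + 1))).re := by
          rw [Complex.imCLM_apply, Complex.im_ofReal_mul]
          simp
        rw [e] at this
        exact this
      have h4 := (h3.const_mul (1 - ((m + 1 : ℕ) : ℝ) / K)).div_const
        (Real.pi * ((m + 1 : ℕ) : ℝ))
      have hpi : Real.pi ≠ 0 := Real.pi_ne_zero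
      have hm : ((m : ℝ) + 1) ≠ 0 := by positivity
      have h5 : (1 - ((m + 1 : ℕ) : ℝ) / K) * (2 * (τ (al P x * V t ^ (m + 1))).re)
          = (1 - ((m + 1 : ℕ) : ℝ) / K) * (2 * Real.pi * (m + 1)
            * (τ (al P x * V t ^ (m + 1))).re) / (Real.pi * ((m + 1 : ℕ) : ℝ)) := by
        push_cast
        generalize (1 - ((m : ℝ) + 1) / K) = c
        field_simp
      rw [h5]
      exact h4
  have hmono : Monotone (fun t => SK τ K (V t) + t * (τ (al P x)).re) := by
    refine monotone_of_hasDerivAt_nonneg (f' := fun t => (∑ q ∈ range K, if q = 0 then 0 else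
        (1 - (q : ℝ) / K) * (2 * (τ (al P x * V t ^ q)).re)) + (τ (al P x)).re) ?_ ?_
    · intro t
      have h5 : HasDerivAt (fun t : ℝ => t * (τ (al P x)).re) ((τ (al P x)).re) t := by
        simpa using (hasDerivAt_id t).mul_const (τ (al P x)).re
      exact (hder t).add h5
    · intro t
      have h6 := fejer_pos hτ hP hx (hVU t) K
      have h7 : (∑ q ∈ range K, if q = 0 then 0 else
          (1 - (q : ℝ) / K) * (2 * (τ (al P x * V t ^ q)).re)) + (τ (al P x)).re
          = (1 / K) * (K * (τ (al P x)).re + 2 * ∑ q ∈ range K,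
            (if q = 0 then 0 else ((K : ℝ) - q) * (τ (al P x * V t ^ q)).re)) := by
        rw [mul_add, ← mul_assoc, one_div, inv_mul_cancel₀ hK'.ne', one_mul, add_comm]
        congr 1
        rw [← mul_assoc, Finset.mul_sum]
        refine Finset.sum_congr rfl fun q _ => ?_
        split_ifs
        · simp
        · field_simp
      change 0 ≤ (∑ q ∈ range K, if q = 0 then 0 else
          (1 - (q : ℝ) / K) * (2 * (τ (al P x * V t ^ q)).re)) + (τ (al P x)).re
      rw [h7]
      exact mul_nonneg (by positivity) h6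
  have h8 := hmono (zero_le_one (α := ℝ))
  simp only [zero_mul, add_zero, one_mul] at h8
  have hV0 : V 0 = Y := by
    rw [hV]
    simp only [Qt]
    simp [hP.sum_one]
  rw [hV0] at h8
  exact h8

end abstract_part

end Crest.Agent.R174.TrIneq
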