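import Mathlib
import Crest.Agent.R174.TrIneq
import Crest.Agent.R174.GRLocDef

/-!
# R174 (KLH), block W5, concrete part: `𝓑 = Matrix N N ℂ[G]`.
-/

set_option autoImplicit false
open Finset

noncomputable section

namespace Crest.Agent.R174.TrIneq

section star_part

variable {G : Type*} [Group G]

/-- the star on the group algebra -/
instance instStarGA : Star (MonoidAlgebra ℂ G) where
  star f := MonoidAlgebra.ofCoeff ((f.coeff.mapRange (starRingEnd ℂ) (map_zero _)).equivMapDomain
    (Equiv.inv G))

theorem coeff_star (f : MonoidAlgebra ℂ G) (g : G) :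
    (star f).coeff g = (starRingEnd ℂ) (f.coeff g⁻¹) := rfl

theorem star_single (g : G) (r : ℂ) :
    star (MonoidAlgebra.single g r) = MonoidAlgebra.single g⁻¹ ((starRingEnd ℂ) r) := by
  ext h
  rw [coeff_star, MonoidAlgebra.coeff_single, MonoidAlgebra.coeff_single]
  classical
  rw [Finsupp.single_apply, Finsupp.single_apply]
  by_cases h1 : g = h⁻¹
  · subst h1; simp
  · rw [if_neg h1, if_neg (fun h2 => h1 (by rw [← h2, inv_inv])), map_zero]

theorem star_add_aux (a b : MonoidAlgebra ℂ G) : star (a + b) = star a + star b := by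
  ext h
  simp only [coeff_star, MonoidAlgebra.coeff_add, Finsupp.add_apply, map_add]

theorem star_zero_aux : star (0 : MonoidAlgebra ℂ G) = 0 := by
  ext h
  simp [coeff_star]

theorem star_mul_aux (a b : MonoidAlgebra ℂ G) : star (a * b) = star b * star a := by
  induction a using MonoidAlgebra.induction_linear with
  | zero => simp [star_zero_aux]
  | add x y hx hy => rw [add_mul, star_add_aux, hx, hy, star_add_aux, mul_add]
  | single g r =>
    induction b using MonoidAlgebra.induction_linear with
    | zero => simp [star_zero_aux]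
    | add x y hx hy => rw [mul_add, star_add_aux, hx, hy, star_add_aux, add_mul]
    | single h s =>
      rw [MonoidAlgebra.single_mul_single, star_single, star_single, star_single,
        MonoidAlgebra.single_mul_single, mul_inv_rev, map_mul, mul_comm ((starRingEnd ℂ) r)]

instance instStarRingGA : StarRing (MonoidAlgebra ℂ G) where
  star_involutive a := by
    ext h
    simp [coeff_star]
  star_mul := star_mul_aux
  star_add := star_add_aux

instance instStarModuleGA : StarModule ℂ (MonoidAlgebra ℂ G) where
  star_smul r a := by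
    ext h
    simp [coeff_star]

theorem coeff_mul_comm_one (a b : MonoidAlgebra ℂ G) : (a * b).coeff 1 = (b * a).coeff 1 := by
  induction a using MonoidAlgebra.induction_linear with
  | zero => simp
  | add x y hx hy => simp only [add_mul, mul_add, MonoidAlgebra.coeff_add, Finsupp.add_apply, hx, hy]
  | single g r =>
    induction b using MonoidAlgebra.induction_linear with
    | zero => simp
    | add x y hx hy =>
      simp only [add_mul, mul_add, MonoidAlgebra.coeff_add, Finsupp.add_apply, hx, hy]
    | single h s =>
      classical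
      rw [MonoidAlgebra.single_mul_single, MonoidAlgebra.single_mul_single,
        MonoidAlgebra.coeff_single, MonoidAlgebra.coeff_single, Finsupp.single_apply,
        Finsupp.single_apply, mul_comm r s]
      by_cases h1 : g * h = 1
      · have h2 : h * g = 1 := mul_eq_one_iff_eq_inv.2 (eq_inv_of_mul_eq_one_right h1)
        rw [if_pos h1, if_pos h2]
      · have h2 : ¬ h * g = 1 := fun h3 => h1 (mul_eq_one_iff_eq_inv.2 (eq_inv_of_mul_eq_one_right h3))
        rw [if_neg h1, if_neg h2]

theorem coeff_star_mul_self (a : MonoidAlgebra ℂ G) : 0 ≤ ((star a * a).coeff 1).re := by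
  classical
  have h1 : (star a * a).coeff 1
      = ∑ g ∈ a.coeff.support, (starRingEnd ℂ) (a.coeff g) * a.coeff g := by
    have h2 : a = ∑ g ∈ a.coeff.support, MonoidAlgebra.single g (a.coeff g) := by
      ext h
      rw [MonoidAlgebra.coeff_sum, Finsupp.finsetSum_apply]
      simp only [MonoidAlgebra.coeff_single, Finsupp.single_apply]
      rw [Finset.sum_ite_eq']
      split_ifs with h3
      · rfl
      · simpa using h3
    have h3 : ∀ g : G, (star a * MonoidAlgebra.single g (a.coeff g)).coeff 1
        = (starRingEnd ℂ) (a.coeff g) * a.coeff g := by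
      intro g
      rw [MonoidAlgebra.coeff_mul_single_apply, coeff_star, one_mul, inv_inv]
    conv_lhs => rw [show star a * a = star a * ∑ g ∈ a.coeff.support,
      MonoidAlgebra.single g (a.coeff g) by rw [← h2]]
    rw [Finset.mul_sum, MonoidAlgebra.coeff_sum, Finsupp.finsetSum_apply]
    exact Finset.sum_congr rfl fun g _ => h3 g
  rw [h1, Complex.re_sum]
  refine Finset.sum_nonneg fun g _ => ?_
  rw [← Complex.normSq_eq_conj_mul_self, Complex.ofReal_re]
  exact Complex.normSq_nonneg _

end star_part

section matrix_part

variable {G : Type*} [Group G] {N : Type*} [Fintype N] [DecidableEq N]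

/-- the canonical trace on matrices over the group algebra -/
def trG (G : Type*) [Group G] (N : Type*) [Fintype N] :
    Matrix N N (MonoidAlgebra ℂ G) →ₗ[ℂ] ℂ where
  toFun A := ∑ i, (A i i).coeff 1
  map_add' A B := by
    simp only [Matrix.add_apply, MonoidAlgebra.coeff_add, Finsupp.add_apply, Finset.sum_add_distrib]
  map_smul' r A := by
    simp only [Matrix.smul_apply, MonoidAlgebra.coeff_smul, Finsupp.smul_apply, smul_eq_mul,
      Finset.mul_sum, RingHom.id_apply]

omit [DecidableEq N] in
theorem trG_apply (A : Matrix N N (MonoidAlgebra ℂ G)) : trG G N A = ∑ i, (A i i).coeff 1 := rfl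

omit [DecidableEq N] in
theorem trG_posTrace [DecidableEq N] : PosTrace (trG G N) where
  comm A B := by
    simp only [trG_apply, Matrix.mul_apply, MonoidAlgebra.coeff_sum, Finsupp.finsetSum_apply]
    rw [Finset.sum_comm]
    refine Finset.sum_congr rfl fun i _ => Finset.sum_congr rfl fun j _ => ?_
    exact coeff_mul_comm_one _ _
  map_star A := by
    simp only [trG_apply, map_sum]
    refine Finset.sum_congr rfl fun i _ => ?_
    rw [Matrix.star_apply, coeff_star, inv_one]
  nonneg A := by
    simp only [trG_apply, Matrix.mul_apply, MonoidAlgebra.coeff_sum, Finsupp.finsetSum_apply,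
      Complex.re_sum, Matrix.star_apply]
    exact Finset.sum_nonneg fun i _ => Finset.sum_nonneg fun j _ => coeff_star_mul_self _

/-- scalar matrices as matrices over the group algebra -/
def sc (G : Type*) [Group G] {N : Type*} [Fintype N] [DecidableEq N] :
    Matrix N N ℂ →ₐ[ℂ] Matrix N N (MonoidAlgebra ℂ G) :=
  (Algebra.ofId ℂ (MonoidAlgebra ℂ G)).mapMatrix

theorem sc_apply (A : Matrix N N ℂ) (i j : N) :
    sc G A i j = MonoidAlgebra.single 1 (A i j) := rfl

theorem sc_star (A : Matrix N N ℂ) : sc G (star A) = star (sc G A) := by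
  ext1 i j
  rw [Matrix.star_apply, sc_apply, sc_apply, star_single, inv_one]
  rfl

theorem trG_sc (A : Matrix N N ℂ) : trG G N (sc G A) = A.trace := by
  simp [trG_apply, sc_apply, Matrix.trace]

/-- the rank one projections -/
def prj (G : Type*) [Group G] (W : Matrix N N ℂ) (j : N) : Matrix N N (MonoidAlgebra ℂ G) :=
  sc G (W * Matrix.single j j 1 * star W)

theorem prj_pvm {W : Matrix N N ℂ} (hW : W ∈ Matrix.unitaryGroup N ℂ) : Pvm (prj G W) where
  sa j := by
    rw [prj, ← sc_star, star_mul, star_mul, star_star, mul_assoc]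
    congr 3
    rw [Matrix.star_eq_conjTranspose, Matrix.conjTranspose_single]
    simp
  orth i j := by
    rw [prj, prj, ← map_mul]
    have h1 : star W * W = 1 := Matrix.mem_unitaryGroup_iff'.1 hW
    have h2 : W * Matrix.single i i 1 * star W * (W * Matrix.single j j 1 * star W)
        = W * (Matrix.single i i 1 * (star W * W) * Matrix.single j j 1) * star W := by
      simp only [mul_assoc]
    rw [h2, h1, mul_one]
    by_cases h : i = j
    · subst h
      rw [if_pos rfl, Matrix.single_mul_single_same, one_mul]
    · rw [if_neg h, Matrix.single_mul_single_of_ne (h := h)]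
      simp
  sum_one := by
    have h1 : W * star W = 1 := Matrix.mem_unitaryGroup_iff.1 hW
    have h2 : ∑ j : N, Matrix.single j j (1 : ℂ) = 1 := by
      ext a b
      rw [Matrix.sum_apply]
      simp only [Matrix.single_apply, Matrix.one_apply]
      by_cases h : a = b
      · subst h; simp
      · rw [if_neg h]
        refine Finset.sum_eq_zero fun x _ => ?_
        rw [if_neg]
        rintro ⟨rfl, rfl⟩; exact h rfl
    simp only [prj]
    rw [← map_sum, ← Finset.sum_mul, ← Finset.mul_sum, h2, mul_one, h1, map_one]

theorem trG_prj {W : Matrix N N ℂ} (hW : W ∈ Matrix.unitaryGroup N ℂ) (j : N) :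
    trG G N (prj G W j) = 1 := by
  have h1 : star W * W = 1 := Matrix.mem_unitaryGroup_iff'.1 hW
  rw [prj, trG_sc, Matrix.trace_mul_comm, ← mul_assoc, h1, one_mul]
  simp

theorem trG_al {W : Matrix N N ℂ} (hW : W ∈ Matrix.unitaryGroup N ℂ) (x : N → ℝ) :
    (trG G N (al (prj G W) x)).re = ∑ j, x j := by
  rw [al, map_sum, Complex.re_sum]
  refine Finset.sum_congr rfl fun j _ => ?_
  rw [map_smul, trG_prj hW]
  simp

theorem Qt_prj (W : Matrix N N ℂ) (x : N → ℝ) :
    Qt (prj G W) x 1
      = sc G (W * Matrix.diagonal (fun j => Complex.exp (2 * Real.pi * Complex.I * x j)) * star W) := by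
  have h1 : Matrix.diagonal (fun j => Complex.exp (2 * Real.pi * Complex.I * x j))
      = ∑ j, Complex.exp (2 * Real.pi * Complex.I * x j) • Matrix.single j j (1 : ℂ) := by
    ext a b
    rw [Matrix.sum_apply]
    simp only [Matrix.smul_apply, Matrix.single_apply, Matrix.diagonal_apply, smul_eq_mul]
    by_cases h : a = b
    · subst h; simp
    · rw [if_neg h]
      symm
      refine Finset.sum_eq_zero fun x _ => ?_
      rw [if_neg]
      · simp
      rintro ⟨rfl, rfl⟩; exact h rfl
  rw [h1, Finset.mul_sum, Finset.sum_mul, map_sum]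
  unfold Qt prj
  refine Finset.sum_congr rfl fun j _ => ?_
  rw [mul_smul_comm, smul_mul_assoc, map_smul]
  simp

/-- **W5, diagonal form.** -/
theorem diag_ineq {W : Matrix N N ℂ} (hW : W ∈ Matrix.unitaryGroup N ℂ) {x : N → ℝ}
    (hx : ∀ j, 0 ≤ x j) {Y : Matrix N N (MonoidAlgebra ℂ G)} (hY : Y * star Y = 1) (K : ℕ) :
    SK (trG G N) K Y ≤ SK (trG G N) K
      (sc G (W * Matrix.diagonal (fun j => Complex.exp (2 * Real.pi * Complex.I * x j)) * star W) * Y)
      + ∑ j, x j := by
  have := abstract_ineq (trG_posTrace (G := G) (N := N)) (prj_pvm hW) hx hY K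
  rwa [Qt_prj, trG_al hW] at this

end matrix_part

end Crest.Agent.R174.TrIneq
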