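import Mathlib
import Crest.Agent.R174.TrIneq2

/-!
# R174 (KLH), block W5, final form.
-/

set_option autoImplicit false
open Finset

noncomputable section

namespace Crest.Agent.R174.TrIneq

/-- normalised angle in `[0,1)` -/
def ang (z : ℂ) : ℝ := Int.fract (z.arg / (2 * Real.pi))

theorem ang_nonneg (z : ℂ) : 0 ≤ ang z := Int.fract_nonneg _

theorem exp_ang {z : ℂ} (hz : ‖z‖ = 1) : Complex.exp (2 * Real.pi * Complex.I * ang z) = z := by
  have hpi : (Real.pi : ℂ) ≠ 0 := by exact_mod_cast Real.pi_ne_zero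
  have h1 : (2 * Real.pi * Complex.I * ang z : ℂ)
      = z.arg * Complex.I - (⌊z.arg / (2 * Real.pi)⌋ : ℤ) * (2 * Real.pi * Complex.I) := by
    unfold ang
    rw [Int.fract]
    push_cast
    field_simp
  rw [h1, Complex.exp_sub, Complex.exp_int_mul_two_pi_mul_I, div_one]
  have h2 := Complex.norm_mul_exp_arg_mul_I z
  rw [hz] at h2
  simpa using h2

theorem ang_add_conj {z : ℂ} (hz : ‖z‖ = 1) :
    ang z + ang ((starRingEnd ℂ) z) = if z = 1 then 0 else 1 := by
  have hpi : (0 : ℝ) < 2 * Real.pi := by positivity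
  by_cases h1 : z = 1
  · subst h1
    simp [ang]
  rw [if_neg h1]
  by_cases h2 : z.arg = Real.pi
  · have h3 : ((starRingEnd ℂ) z).arg = Real.pi := by
      rw [Complex.arg_conj, if_pos h2]
    unfold ang
    rw [h2, h3]
    have h4 : Real.pi / (2 * Real.pi) = 1 / 2 := by
      have := Real.pi_ne_zero
      field_simp
    rw [h4]
    have h5 : Int.fract (1 / 2 : ℝ) = 1 / 2 := Int.fract_eq_self.2 ⟨by norm_num, by norm_num⟩
    rw [h5]; norm_num
  · have h3 : ((starRingEnd ℂ) z).arg = -z.arg := by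
      rw [Complex.arg_conj, if_neg h2]
    unfold ang
    rw [h3, neg_div]
    have h4 : Int.fract (z.arg / (2 * Real.pi)) ≠ 0 := by
      intro h0
      apply h1
      have := exp_ang hz
      unfold ang at this
      rw [h0] at this
      simpa using this.symm
    rw [Int.fract_neg h4]
    ring

variable {N : Type*} [Fintype N] [DecidableEq N]

/-- similar matrices `Q ~ Q*` have conjugation-invariant spectrum -/
theorem sum_ang_eq {W Q J : Matrix N N ℂ} (hW : W ∈ Matrix.unitaryGroup N ℂ)
    (hJ : J * J = 1) (hQJ : J * Q * J = star Q) {d : N → ℂ}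
    (hQ : Q = W * Matrix.diagonal d * star W) :
    ∑ j, ang (d j) = ∑ j, ang ((starRingEnd ℂ) (d j)) := by
  have hW1 : W * star W = 1 := Matrix.mem_unitaryGroup_iff.1 hW
  have hW2 : star W * W = 1 := Matrix.mem_unitaryGroup_iff'.1 hW
  have hconj : ∀ (A B C : Matrix N N ℂ), A * B = 1 → B * A = 1 →
      (A * C * B).charpoly = C.charpoly := by
    intro A B C h1 h2
    have := Matrix.charpoly_units_conj (⟨A, B, h1, h2⟩ : (Matrix N N ℂ)ˣ) C
    have h3 : A⁻¹ = B := Matrix.inv_eq_right_inv h1
    change (A * C * A⁻¹).charpoly = C.charpoly at this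
    rwa [h3] at this
  have h1 : Q.charpoly = (Matrix.diagonal d).charpoly := by
    rw [hQ]
    exact hconj _ _ _ hW1 hW2
  have h2 : (star Q).charpoly = Q.charpoly := by
    rw [← hQJ]
    exact hconj _ _ _ hJ hJ
  have h3 : (star Q).charpoly = (Matrix.diagonal fun j => (starRingEnd ℂ) (d j)).charpoly := by
    have : star Q = W * Matrix.diagonal (fun j => (starRingEnd ℂ) (d j)) * star W := by
      rw [hQ, star_mul, star_mul, star_star, mul_assoc]
      congr 2
      rw [Matrix.star_eq_conjTranspose, Matrix.diagonal_conjTranspose]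
      rfl
    rw [this]
    exact hconj _ _ _ hW1 hW2
  have h4 : ∏ j, (Polynomial.X - Polynomial.C (d j))
      = ∏ j, (Polynomial.X - Polynomial.C ((starRingEnd ℂ) (d j))) := by
    rw [← Matrix.charpoly_diagonal, ← Matrix.charpoly_diagonal, ← h1, ← h3, h2]
  have h5 : ∀ e : N → ℂ, (∏ j, (Polynomial.X - Polynomial.C (e j))).roots
      = (Finset.univ.val.map e) := by
    intro e
    have := Polynomial.roots_multiset_prod_X_sub_C (Finset.univ.val.map e)
    rw [Multiset.map_map] at this
    exact this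
  have h6 : (Finset.univ.val.map d) = (Finset.univ.val.map fun j => (starRingEnd ℂ) (d j)) := by
    rw [← h5, ← h5, h4]
  have h7 := congrArg (fun m : Multiset ℂ => (m.map ang).sum) h6
  simpa [Multiset.map_map] using h7

theorem sum_ang {W Q J : Matrix N N ℂ} (hW : W ∈ Matrix.unitaryGroup N ℂ)
    (hJ : J * J = 1) (hQJ : J * Q * J = star Q) {d : N → ℂ} (hd : ∀ j, ‖d j‖ = 1)
    (hQ : Q = W * Matrix.diagonal d * star W) :
    ∑ j, ang (d j) = ((Q - 1).rank : ℝ) / 2 := by
  classical
  have h1 := sum_ang_eq hW hJ hQJ hQ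
  have h2 : ∑ j, ang (d j) + ∑ j, ang (d j) = Fintype.card {j // d j - 1 ≠ 0} := by
    nth_rewrite 2 [h1]
    rw [← Finset.sum_add_distrib]
    rw [Finset.sum_congr rfl fun j _ => ang_add_conj (hd j)]
    rw [Fintype.card_subtype]
    have : ∀ j, (if d j = 1 then (0 : ℝ) else 1) = if d j - 1 ≠ 0 then (1 : ℝ) else 0 := by
      intro j
      by_cases h : d j = 1
      · simp [h]
      · have : d j - 1 ≠ 0 := sub_ne_zero.2 h
        simp [h, this]
    rw [Finset.sum_congr rfl fun j _ => this j, Finset.sum_boole]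
  have h3 : (Q - 1).rank = Fintype.card {j // d j - 1 ≠ 0} := by
    have hW1 : W * star W = 1 := Matrix.mem_unitaryGroup_iff.1 hW
    have hW2 : star W * W = 1 := Matrix.mem_unitaryGroup_iff'.1 hW
    have hd1 : IsUnit W.det := Matrix.isUnit_det_of_right_inverse hW1
    have hd2 : IsUnit (star W).det := Matrix.isUnit_det_of_right_inverse hW2
    have h4 : Q - 1 = W * Matrix.diagonal (fun j => d j - 1) * star W := by
      have h5 : (Matrix.diagonal fun j => d j - 1) = Matrix.diagonal d - 1 := by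
        rw [← Matrix.diagonal_one, Matrix.diagonal_sub]
      rw [h5, mul_sub, sub_mul, mul_one, hW1, hQ]
    rw [h4, Matrix.rank_mul_eq_left_of_isUnit_det _ _ hd2,
      Matrix.rank_mul_eq_right_of_isUnit_det _ _ hd1, Matrix.rank_diagonal]
  rw [h3]
  linarith

variable {G : Type*} [Group G]

/-- **W5**: `MM`, `JJ` Hermitian unitary scalar matrices, `Z` any unitary over the group algebra. -/
theorem w5 (hdiag : ∀ Z ∈ Matrix.unitaryGroup N ℂ, ∃ W ∈ Matrix.unitaryGroup N ℂ, ∃ d : N → ℂ,
      (∀ j, ‖d j‖ = 1) ∧ Z = W * Matrix.diagonal d * star W)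
    {MM JJ : Matrix N N ℂ} (hM : MM * MM = 1) (hM' : star MM = MM) (hJ : JJ * JJ = 1)
    (hJ' : star JJ = JJ) {Z : Matrix N N (MonoidAlgebra ℂ G)} (hZ : Z * star Z = 1) (K : ℕ) :
    SK (trG G N) K (sc G JJ * Z) ≤ SK (trG G N) K (sc G MM * Z) + ((MM - JJ).rank : ℝ) / 2 := by
  have hQu : MM * JJ ∈ Matrix.unitaryGroup N ℂ := by
    rw [Matrix.mem_unitaryGroup_iff, star_mul, hM', hJ']
    calc MM * JJ * (JJ * MM) = MM * (JJ * JJ) * MM := by simp only [mul_assoc]
      _ = 1 := by rw [hJ, mul_one, hM]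
  obtain ⟨W, hW, d, hd, hQ⟩ := hdiag _ hQu
  have hY : sc G JJ * Z * star (sc G JJ * Z) = 1 := by
    rw [star_mul, ← sc_star, hJ']
    calc sc G JJ * Z * (star Z * sc G JJ) = sc G JJ * (Z * star Z) * sc G JJ := by
          simp only [mul_assoc]
      _ = 1 := by rw [hZ, mul_one, ← map_mul, hJ, map_one]
  have h1 := diag_ineq hW (fun j => ang_nonneg (d j)) hY K
  have h2 : (fun j => Complex.exp (2 * Real.pi * Complex.I * ang (d j))) = d := by
    funext j; exact exp_ang (hd j)
  rw [h2, ← hQ] at h1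
  have h3 : sc G (MM * JJ) * (sc G JJ * Z) = sc G MM * Z := by
    rw [map_mul, mul_assoc, ← mul_assoc (sc G JJ), ← map_mul, hJ, map_one, one_mul]
  rw [h3] at h1
  have h4 : JJ * (MM * JJ) * JJ = star (MM * JJ) := by
    rw [star_mul, hM', hJ', mul_assoc, mul_assoc MM, hJ, mul_one]
  have h5 := sum_ang hW hJ h4 hd hQ
  have h6 : (MM * JJ - 1).rank = (MM - JJ).rank := by
    have : MM * JJ - 1 = -(MM * (MM - JJ)) := by
      rw [mul_sub, hM]; abel
    rw [this]
    have hdet : IsUnit MM.det := Matrix.isUnit_det_of_right_inverse hM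
    have h7 : (-(MM * (MM - JJ))).rank = (MM * (MM - JJ)).rank := by
      have h8 : -(MM * (MM - JJ)) = (-1 : Matrix N N ℂ) * (MM * (MM - JJ)) := by
        rw [neg_one_mul]
      have h9 : IsUnit (-1 : Matrix N N ℂ).det :=
        Matrix.isUnit_det_of_right_inverse (B := -1) (by simp)
      rw [h8, Matrix.rank_mul_eq_right_of_isUnit_det _ _ h9]
    rw [h7, Matrix.rank_mul_eq_right_of_isUnit_det _ _ hdet]
  rw [h5, h6] at h1
  exact h1

section blocks

open scoped ComplexOrder

variable {P : Type*} [Fintype P] [DecidableEq P]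

theorem rank_add_ker {P : Type*} [Fintype P] (A : Matrix P P ℂ) :
    A.rank + Module.finrank ℂ (LinearMap.ker A.mulVecLin) = Fintype.card P := by
  have := A.mulVecLin.finrank_range_add_finrank_ker
  rw [Module.finrank_fintype_fun_eq_card] at this
  exact this

/-- kernel of an anti-diagonal block matrix -/
def kerEquiv (A B : Matrix P P ℂ) :
    LinearMap.ker (Matrix.fromBlocks 0 B A 0 : Matrix (P ⊕ P) (P ⊕ P) ℂ).mulVecLin ≃ₗ[ℂ]
      LinearMap.ker A.mulVecLin × LinearMap.ker B.mulVecLin where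
  toFun v := (⟨v.1 ∘ Sum.inl, by
      have h := v.2
      rw [LinearMap.mem_ker, Matrix.mulVecLin_apply, Matrix.fromBlocks_mulVec] at h
      rw [LinearMap.mem_ker, Matrix.mulVecLin_apply]
      funext i
      have := congrFun h (Sum.inr i)
      simpa using this⟩, ⟨v.1 ∘ Sum.inr, by
      have h := v.2
      rw [LinearMap.mem_ker, Matrix.mulVecLin_apply, Matrix.fromBlocks_mulVec] at h
      rw [LinearMap.mem_ker, Matrix.mulVecLin_apply]
      funext i
      have := congrFun h (Sum.inl i)
      simpa using this⟩)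
  invFun w := ⟨Sum.elim w.1.1 w.2.1, by
      have h1 := w.1.2
      have h2 := w.2.2
      rw [LinearMap.mem_ker, Matrix.mulVecLin_apply] at h1 h2
      rw [LinearMap.mem_ker, Matrix.mulVecLin_apply, Matrix.fromBlocks_mulVec]
      funext i
      rcases i with i | i
      · simpa using congrFun h2 i
      · simpa using congrFun h1 i⟩
  map_add' v w := by rfl
  map_smul' r v := by rfl
  left_inv v := by
    apply Subtype.ext
    funext i
    rcases i with i | i <;> rfl
  right_inv w := by rfl

omit [DecidableEq P] in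
/-- rank of an anti-diagonal Hermitian block matrix -/
theorem rank_antidiag (A : Matrix P P ℂ) :
    (Matrix.fromBlocks 0 (star A) A 0 : Matrix (P ⊕ P) (P ⊕ P) ℂ).rank = 2 * A.rank := by
  have h1 := rank_add_ker (Matrix.fromBlocks 0 (star A) A 0 : Matrix (P ⊕ P) (P ⊕ P) ℂ)
  have h2 := (kerEquiv A (star A)).finrank_eq
  rw [Module.finrank_prod] at h2
  have h3 := rank_add_ker A
  have h4 := rank_add_ker (star A)
  rw [Matrix.star_eq_conjTranspose, Matrix.rank_conjTranspose] at h4
  rw [Matrix.star_eq_conjTranspose] at h1 h2 ⊢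
  rw [Fintype.card_sum] at h1
  omega

/-- **W5, block form**: index type `N ≃ P ⊕ P` (positive and negative ports). -/
theorem w5_blocks (e : N ≃ P ⊕ P)
    (hdiag : ∀ Z ∈ Matrix.unitaryGroup N ℂ, ∃ W ∈ Matrix.unitaryGroup N ℂ, ∃ d : N → ℂ,
      (∀ j, ‖d j‖ = 1) ∧ Z = W * Matrix.diagonal d * star W)
    {M J : Matrix P P ℂ} (hM : M ∈ Matrix.unitaryGroup P ℂ) (hJ : J ∈ Matrix.unitaryGroup P ℂ)
    {Z : Matrix N N (MonoidAlgebra ℂ G)} (hZ : Z * star Z = 1) (K : ℕ) :
    SK (trG G N) K (sc G ((Matrix.fromBlocks 0 (star J) J 0).submatrix e e) * Z)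
      ≤ SK (trG G N) K (sc G ((Matrix.fromBlocks 0 (star M) M 0).submatrix e e) * Z)
        + ((Fintype.card P : ℝ) - Module.finrank ℂ (LinearMap.ker (J - M).mulVecLin)) := by
  have key : ∀ A : Matrix P P ℂ, A ∈ Matrix.unitaryGroup P ℂ →
      ((Matrix.fromBlocks 0 (star A) A 0).submatrix e e)
        * ((Matrix.fromBlocks 0 (star A) A 0).submatrix e e) = 1 ∧
      star ((Matrix.fromBlocks 0 (star A) A 0).submatrix e e)
        = ((Matrix.fromBlocks 0 (star A) A 0).submatrix e e) := by
    intro A hA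
    have h1 : A * star A = 1 := Matrix.mem_unitaryGroup_iff.1 hA
    have h2 : star A * A = 1 := Matrix.mem_unitaryGroup_iff'.1 hA
    constructor
    · rw [Matrix.submatrix_mul_equiv, Matrix.fromBlocks_multiply]
      simp only [Matrix.zero_mul, Matrix.mul_zero, zero_add, add_zero, h1, h2]
      rw [Matrix.fromBlocks_one, Matrix.submatrix_one_equiv]
    · rw [Matrix.star_eq_conjTranspose, Matrix.conjTranspose_submatrix,
        Matrix.fromBlocks_conjTranspose]
      simp [Matrix.star_eq_conjTranspose]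
  obtain ⟨hM1, hM2⟩ := key M hM
  obtain ⟨hJ1, hJ2⟩ := key J hJ
  have h := w5 hdiag hM1 hM2 hJ1 hJ2 hZ K
  have h1 : ((Matrix.fromBlocks 0 (star M) M 0).submatrix e e
      - (Matrix.fromBlocks 0 (star J) J 0).submatrix e e)
      = (Matrix.fromBlocks 0 (star (M - J)) (M - J) 0).submatrix e e := by
    ext i j
    simp only [Matrix.sub_apply, Matrix.submatrix_apply]
    generalize e i = a
    generalize e j = b
    rcases a with a | a <;> rcases b with b | b <;> simp
  rw [h1, Matrix.rank_submatrix, rank_antidiag] at h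
  have h2 := rank_add_ker (M - J)
  have h3 : LinearMap.ker (M - J).mulVecLin = LinearMap.ker (J - M).mulVecLin := by
    ext v
    rw [LinearMap.mem_ker, LinearMap.mem_ker, Matrix.mulVecLin_apply, Matrix.mulVecLin_apply,
      Matrix.sub_mulVec, Matrix.sub_mulVec, sub_eq_zero, sub_eq_zero, eq_comm]
  rw [h3] at h2
  have h4 : ((M - J).rank : ℝ) = (Fintype.card P : ℝ)
      - Module.finrank ℂ (LinearMap.ker (J - M).mulVecLin) := by
    have : ((M - J).rank : ℝ) + Module.finrank ℂ (LinearMap.ker (J - M).mulVecLin)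
        = Fintype.card P := by exact_mod_cast h2
    linarith
  push_cast at h
  rw [← h4]
  linarith

end blocks

end Crest.Agent.R174.TrIneq
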