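import Mathlib
import Crest.Agent.R174.TrIneq3
import Crest.Agent.R174.WD126
import Crest.Agent.R174.Lim259

/-!
# R174 (KLH), block W5: bridges to `WD.mono`, `WD.trG`, `Lim.SK`.
-/

set_option autoImplicit false
open Finset

noncomputable section

namespace Crest.Agent.R174.TrIneq

universe u
variable {G : Type u} [Group G] {P : Type} [Fintype P] [DecidableEq P]

omit [DecidableEq P] in
theorem trG_eq (A : Matrix P P (MonoidAlgebra ℂ G)) : trG G P A = WD.trG A := rfl

theorem SK_eq (K : ℕ) (Z : Matrix P P (MonoidAlgebra ℂ G)) :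
    SK (trG G P) K Z = Lim.SK (fun q => (WD.trG (Z ^ q)).im) K := by
  unfold SK Lim.SK
  refine Finset.sum_congr rfl fun q _ => ?_
  rw [mul_div_assoc]
  rfl

omit [Fintype P] in
theorem mono_apply (nxt : P → P) (g : P → G) (z : P → ℂ) (j i : P) :
    WD.mono nxt g z j i = if j = nxt i then MonoidAlgebra.single (g i) (z i) else 0 := rfl

theorem mono_mul (n₁ n₂ : P → P) (g₁ g₂ : P → G) (z₁ z₂ : P → ℂ) :
    WD.mono n₁ g₁ z₁ * WD.mono n₂ g₂ z₂
      = WD.mono (n₁ ∘ n₂) (fun i => g₁ (n₂ i) * g₂ i) (fun i => z₁ (n₂ i) * z₂ i) := by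
  ext1 j i
  rw [Matrix.mul_apply]
  simp only [mono_apply, Function.comp_apply]
  rw [Finset.sum_eq_single (n₂ i)]
  · simp only [if_true]
    split_ifs
    · rw [MonoidAlgebra.single_mul_single]
    · rw [zero_mul]
  · intro b _ hb
    rw [if_neg hb, mul_zero]
  · intro h; exact absurd (Finset.mem_univ _) h

theorem mono_one : WD.mono (id : P → P) (fun _ => (1 : G)) (fun _ => 1) = 1 := by
  ext1 j i
  rw [mono_apply, Matrix.one_apply]
  rfl

/-- a scalar monomial matrix -/
theorem sc_mono (mu : P → P) (z : P → ℂ) :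
    sc G (Matrix.of fun j i => if j = mu i then z i else 0) = WD.mono mu (fun _ => 1) z := by
  ext1 j i
  rw [sc_apply, mono_apply, Matrix.of_apply]
  split_ifs
  · rfl
  · simp

theorem star_mono (nxt : Equiv.Perm P) (g : P → G) (z : P → ℂ) :
    star (WD.mono nxt g z) = WD.mono nxt.symm (fun i => (g (nxt.symm i))⁻¹)
      (fun i => (starRingEnd ℂ) (z (nxt.symm i))) := by
  ext1 j i
  rw [Matrix.star_apply, mono_apply, mono_apply]
  by_cases h : i = nxt j
  · subst h
    rw [if_pos rfl, if_pos (by simp), star_single]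
    simp
  · rw [if_neg h, if_neg, star_zero]
    intro h2; apply h; rw [h2]; simp

theorem mono_unitary (nxt : Equiv.Perm P) (g : P → G) (z : P → ℂ) (hz : ∀ i, ‖z i‖ = 1) :
    WD.mono nxt g z * star (WD.mono nxt g z) = 1 := by
  rw [star_mono, mono_mul, ← mono_one]
  congr 1
  · funext i; simp
  · funext i; simp
  · funext i
    rw [Complex.mul_conj, Complex.normSq_eq_norm_sq, hz]
    simp

/-- **W5 in the form of the glue**: `MM`, `JJ` Hermitian unitary scalar matrices,
`U_c = mono pred lab 1`, `w` a phase. -/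
theorem w5_mono (hdiag : ∀ Z ∈ Matrix.unitaryGroup P ℂ, ∃ W ∈ Matrix.unitaryGroup P ℂ, ∃ d : P → ℂ,
      (∀ j, ‖d j‖ = 1) ∧ Z = W * Matrix.diagonal d * star W)
    {MM JJ : Matrix P P ℂ} (hM : MM * MM = 1) (hM' : star MM = MM) (hJ : JJ * JJ = 1)
    (hJ' : star JJ = JJ) (nxt : Equiv.Perm P) (g : P → G) (z : P → ℂ) (hz : ∀ i, ‖z i‖ = 1)
    (K : ℕ) :
    Lim.SK (fun q => (WD.trG ((sc G JJ * WD.mono nxt g z) ^ q)).im) K
      ≤ Lim.SK (fun q => (WD.trG ((sc G MM * WD.mono nxt g z) ^ q)).im) K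
        + ((MM - JJ).rank : ℝ) / 2 := by
  have := w5 hdiag hM hM' hJ hJ' (mono_unitary nxt g z hz) K
  rwa [SK_eq, SK_eq] at this

end Crest.Agent.R174.TrIneq
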