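import Mathlib
import Crest.Agent.R174.Glue83
import Crest.Agent.R174.TrIneq4

set_option autoImplicit false

/-!
# R174, W7b (helper83): the matching matrix `MM` in block form
-/

open scoped Matrix.Norms.L2Operator
open Crest.Agent.R174.Red Crest.Agent.R174.GR

namespace Crest.Agent.R174.Glue

universe u

/-- `P × Bool ≃ P ⊕ P`, `true` goes to the left summand -/
def eBool (P : Type) : P × Bool ≃ P ⊕ P where
  toFun p := if p.2 then Sum.inl p.1 else Sum.inr p.1
  invFun := Sum.elim (fun p => (p, true)) (fun p => (p, false))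
  left_inv := by rintro ⟨p, _ | _⟩ <;> rfl
  right_inv := by rintro (p | p) <;> rfl

section gen

variable {Pos ι : Type} [Fintype Pos] [DecidableEq Pos] [Fintype ι] [DecidableEq ι]
  {N : ι → Type} [∀ x, Fintype (N x)] [∀ x, DecidableEq (N x)]

/-- the hermitian antidiagonal matrix of `B` -/
def anti (e : Pos ≃ (Σ x, N x) × Bool) (B : Matrix (Σ x, N x) (Σ x, N x) ℂ) : Matrix Pos Pos ℂ :=
  (Matrix.fromBlocks 0 (star B) B 0).submatrix (e.trans (eBool _)) (e.trans (eBool _))

/-- the matching matrix -/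
def mat (mu : Pos → Pos) (z : Pos → ℂ) : Matrix Pos Pos ℂ :=
  Matrix.of fun j i => if j = mu i then z i else 0

lemma star_mat (mu : Pos → Pos) (z : Pos → ℂ) (hmu : ∀ i, mu (mu i) = i)
    (hz : ∀ i, z (mu i) = star (z i)) : star (mat mu z) = mat mu z := by
  ext i j
  simp only [Matrix.star_apply, mat, Matrix.of_apply]
  by_cases h : j = mu i
  · subst h
    simp [hmu, hz]
  · have h' : ¬ i = mu j := by
      intro h2; apply h; rw [h2, hmu]
    simp [h, h']

lemma mat_mul_mat (mu : Pos → Pos) (z : Pos → ℂ) (hmu : ∀ i, mu (mu i) = i)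
    (hz : ∀ i, z (mu i) = star (z i)) (hn : ∀ i, ‖z i‖ = 1) : mat mu z * mat mu z = 1 := by
  ext i j
  rw [Matrix.mul_apply, Finset.sum_eq_single (mu j)]
  · simp only [mat, Matrix.of_apply, hmu, if_true, Matrix.one_apply]
    by_cases h : i = j
    · subst h
      simp only [if_true, hz]
      rw [mul_comm, Complex.star_def, Complex.mul_conj, Complex.normSq_eq_norm_sq, hn]
      simp
    · simp [h]
  · intro k _ hk
    simp [mat, hk]
  · intro h; exact absurd (Finset.mem_univ _) h

/-- a matching preserving the unknowns and reversing the signs has block form -/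
theorem mat_eq_anti (e : Pos ≃ (Σ x, N x) × Bool) (mu : Pos → Pos) (z : Pos → ℂ)
    (hmu : ∀ i, mu (mu i) = i) (hz : ∀ i, z (mu i) = star (z i)) (hn : ∀ i, ‖z i‖ = 1)
    (hunk : ∀ i, (e (mu i)).1.1 = (e i).1.1) (hsgn : ∀ i, (e (mu i)).2 = !(e i).2) :
    ∃ M : ∀ x, Matrix (N x) (N x) ℂ, (∀ x, M x ∈ Matrix.unitaryGroup (N x) ℂ) ∧
      mat mu z = anti e (Matrix.blockDiagonal' M) := by
  set M : ∀ x, Matrix (N x) (N x) ℂ := fun x => Matrix.of fun p' p =>
    mat mu z (e.symm (⟨x, p'⟩, false)) (e.symm (⟨x, p⟩, true)) with hM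
  have hst := star_mat mu z hmu hz
  have key1 : ∀ a b : Σ x, N x, Matrix.blockDiagonal' M a b =
      mat mu z (e.symm (a, false)) (e.symm (b, true)) := by
    rintro ⟨x, p'⟩ ⟨y, p⟩
    by_cases h : x = y
    · subst h
      simp [hM]
    · rw [Matrix.blockDiagonal'_apply_ne _ _ _ h]
      symm
      simp only [mat, Matrix.of_apply]
      rw [if_neg]
      intro h2
      apply h
      have h3 := hunk (e.symm (⟨y, p⟩, true))
      rw [← h2] at h3
      simpa using h3
  have key2 : mat mu z = anti e (Matrix.blockDiagonal' M) := by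
    ext i j
    obtain ⟨⟨a, s⟩, rfl⟩ := e.symm.surjective i
    obtain ⟨⟨b, t⟩, rfl⟩ := e.symm.surjective j
    have hne : s = t → mat mu z (e.symm (a, s)) (e.symm (b, t)) = 0 := by
      intro hst
      simp only [mat, Matrix.of_apply]
      rw [if_neg]
      intro h2
      have h3 := hsgn (e.symm (b, t))
      rw [← h2] at h3
      simp at h3
      rw [hst] at h3
      cases t <;> simp at h3
    cases s <;> cases t
    · rw [hne rfl]; simp [anti, eBool]
    · simp [anti, eBool, key1]
    · have h1 : anti e (Matrix.blockDiagonal' M) (e.symm (a, true)) (e.symm (b, false)) =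
          star (Matrix.blockDiagonal' M b a) := by
        simp [anti, eBool]
      rw [h1, key1, ← Matrix.star_apply, hst]
    · rw [hne rfl]; simp [anti, eBool]
  refine ⟨M, ?_, key2⟩
  have h1 := mat_mul_mat mu z hmu hz hn
  rw [key2] at h1
  unfold anti at h1
  rw [Matrix.submatrix_mul_equiv, Matrix.fromBlocks_multiply] at h1
  have h2 : Matrix.fromBlocks (0 * 0 + star (Matrix.blockDiagonal' M) * Matrix.blockDiagonal' M)
      (0 * star (Matrix.blockDiagonal' M) + star (Matrix.blockDiagonal' M) * 0)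
      (Matrix.blockDiagonal' M * 0 + 0 * Matrix.blockDiagonal' M)
      (Matrix.blockDiagonal' M * star (Matrix.blockDiagonal' M) + 0 * 0) =
      (1 : Matrix ((Σ x, N x) ⊕ (Σ x, N x)) ((Σ x, N x) ⊕ (Σ x, N x)) ℂ) := by
    have h3 := congrArg (fun A => A.submatrix (e.trans (eBool _)).symm (e.trans (eBool _)).symm) h1
    simp only [Matrix.submatrix_submatrix, Equiv.self_comp_symm, Matrix.submatrix_id_id,
      Matrix.submatrix_one_equiv] at h3
    exact h3
  rw [← Matrix.fromBlocks_one, Matrix.fromBlocks_inj] at h2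
  intro x
  rw [Matrix.mem_unitaryGroup_iff']
  have h4 := h2.1
  rw [zero_mul, zero_add, Matrix.star_eq_conjTranspose, Matrix.blockDiagonal'_conjTranspose,
    ← Matrix.blockDiagonal'_mul, ← Matrix.blockDiagonal'_one] at h4
  exact congrFun (Matrix.blockDiagonal'_injective h4) x

end gen

end Crest.Agent.R174.Glue
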