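import Mathlib
import Crest.Agent.R174.Glue83b
import Crest.Agent.R174.Mono126

set_option autoImplicit false

/-!
# R174: the statement of W4 in the form of the glue (helper83)
-/

open scoped Matrix.Norms.L2Operator
open Monoid Finset
open Crest.Agent.R174.Red Crest.Agent.R174.GR

namespace Crest.Agent.R174.Glue

universe u

section

variable {G : Type u} [Group G] {n : ℕ}

/-- output of W4 -/
def W4 (W : Fin n → List (G × Fin n × Bool)) (f : Fin n → ℕ)
    (hW : ∀ i, 0 < (W i).length) (st : Ka f → List (G × Fin n × Bool))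
    (hst : ∀ k, 0 < (st k).length) (ord : List (Ka f)) (hnd : ord.Nodup)
    (hall : ∀ k, k ∈ ord) : Prop :=
  ∀ σ : (sys W f).KA, σ ∈ unitary (sys W f).KA →
    ∃ cY : List ℕ, (∀ k ∈ cY, 0 < k) ∧
      cY.sum = Fintype.card (blk W f hW st hst ord hnd hall).Pos ∧
      2 * cY.length + 4 * (∑ i, f i) = Fintype.card (blk W f hW st hst ord hnd hall).Pos + 2 ∧
      ∀ q, WD.trG ((TrIneq.sc G (anti (ePos W f hW st hst ord hnd hall)
          (Jbig (sys W f) (St f st) σ)) *
        WD.mono (blk W f hW st hst ord hnd hall).pred (blk W f hW st hst ord hnd hall).lab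
          (fun _ => 1)) ^ q) = (cY.map fun k => WD.cterm k (1 : G) 1 q).sum

end

end Crest.Agent.R174.Glue
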