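import Mathlib
import Crest.Agent.R174.Mono126
import Crest.Agent.R174.Word753

set_option autoImplicit false

/-!
# R174, W3: noncrossing cancellation, phases and the cycles of `X` (helper126)
-/

open Monoid

namespace Crest.Agent.R174.WD

open Crest.Agent.R174.Red

universe u

variable {G : Type u} [Group G] {n : ℕ} {P : Type}
variable (lab : P → G) (x : P → Fin n) (s : P → Bool)

/-- balanced lists of positions, with their value -/
inductive Bal : List P → G → Prop
  | nil : Bal [] 1
  | cons {p q : P} {W1 W2 : List P} {a b : G} : x p = x q → s q = !s p → Bal W1 a →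
      a * lab q = 1 → Bal W2 b → Bal (p :: W1 ++ q :: W2) (lab p * b)

theorem Bal.append {W : List P} {a : G} (h : Bal lab x s W a) {W' : List P} {b : G}
    (h' : Bal lab x s W' b) : Bal lab x s (W ++ W') (a * b) := by
  induction h with
  | nil => simpa using h'
  | @cons p q W1 W2 a b hx hs h1 ha h2 ih1 ih2 =>
    have := Bal.cons hx hs h1 ha ih2
    rw [List.append_assoc, List.cons_append, mul_assoc]
    exact this

/-- decomposition of a list of positions into a stack separated by balanced pieces -/
inductive Dec : List P → List (G × P) → G → Prop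
  | base {W : List P} {h : G} : Bal lab x s W h → Dec W [] h
  | push {W : List P} {S : List (G × P)} {h : G} {p : P} {B : List P} {b : G} :
      Dec W S h → Bal lab x s B b → Dec (W ++ p :: B) ((h * lab p, p) :: S) b

theorem Dec.append {W : List P} {S : List (G × P)} {h : G} (hd : Dec lab x s W S h)
    {B : List P} {b : G} (hb : Bal lab x s B b) : Dec lab x s (W ++ B) S (h * b) := by
  cases hd with
  | base h0 => exact Dec.base (Bal.append lab x s h0 hb)
  | push h0 h1 =>
    rw [List.append_assoc, List.cons_append]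
    exact Dec.push h0 (Bal.append lab x s h1 hb)

/-- letters of a list of positions -/
def lt (i : P) : G × Fin n × Bool := (lab i, x i, s i)

theorem inr_mul (p q : P) (hx : x p = x q) (hs : s q = !s p) :
    (Coprod.inr (bif s p then FreeGroup.of (x p) else (FreeGroup.of (x p))⁻¹) :
      Coprod G (FreeGroup (Fin n))) *
      Coprod.inr (bif s q then FreeGroup.of (x q) else (FreeGroup.of (x q))⁻¹) = 1 := by
  rw [← map_mul, hs, hx]
  cases s p <;> simp

theorem Bal.ev_eq {W : List P} {a : G} (h : Bal lab x s W a) :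
    ev (W.map (lt lab x s)) = Coprod.inl a := by
  induction h with
  | nil => simp [ev]
  | @cons p q W1 W2 a b hx hs h1 ha h2 ih1 ih2 =>
    unfold ev at ih1 ih2 ⊢
    simp only [List.map_append, List.map_cons, List.prod_append, List.prod_cons]
    rw [ih1, ih2]
    simp only [lett, lt]
    have e1 : (Coprod.inl a : Coprod G (FreeGroup (Fin n))) * Coprod.inl (lab q) = 1 := by
      rw [← map_mul, ha, map_one]
    calc _ = Coprod.inl (lab p) * Coprod.inr (bif s p then FreeGroup.of (x p) else (FreeGroup.of (x p))⁻¹)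
          * (Coprod.inl a * Coprod.inl (lab q)) *
          Coprod.inr (bif s q then FreeGroup.of (x q) else (FreeGroup.of (x q))⁻¹) * Coprod.inl b := by
            simp only [mul_assoc]
      _ = Coprod.inl (lab p) * (Coprod.inr (bif s p then FreeGroup.of (x p) else (FreeGroup.of (x p))⁻¹)
          * Coprod.inr (bif s q then FreeGroup.of (x q) else (FreeGroup.of (x q))⁻¹)) * Coprod.inl b := by
            rw [e1]; simp only [mul_assoc, one_mul, mul_one]
      _ = _ := by rw [inr_mul x s p q hx hs, mul_one, ← map_mul]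

theorem Dec.ev_eq {W : List P} {S : List (G × P)} {h : G} (hd : Dec lab x s W S h) :
    ev (W.map (lt lab x s)) =
      ev ((S.map fun e => (e.1, x e.2, s e.2)).reverse) * Coprod.inl h := by
  induction hd with
  | base h0 => rw [Bal.ev_eq lab x s h0]; simp [ev]
  | @push W S h p B b h0 h1 ih =>
    have h2 := Bal.ev_eq lab x s h1
    unfold ev at ih h2 ⊢
    rw [List.map_append, List.map_cons, List.map_append, List.map_cons, List.prod_append,
      List.prod_cons, ih, h2]
    simp only [List.map_cons, List.reverse_cons, List.map_append, List.prod_append, List.map_nil,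
      List.prod_cons, List.prod_nil, mul_one, lett, lt, map_mul, mul_assoc]

/-- the stack is reduced -/
def RedS (S : List (G × P)) : Prop :=
  S.IsChain (fun q p => ¬ (q.1 = 1 ∧ x q.2 = x p.2 ∧ s q.2 = !s p.2))

theorem exists_dec (W : List P) : ∃ S h, Dec lab x s W S h ∧ RedS x s S := by
  classical
  induction W using List.reverseRecOn with
  | nil => exact ⟨[], 1, Dec.base Bal.nil, List.isChain_nil⟩
  | append_singleton W q ih =>
    obtain ⟨S, h, hd, hr⟩ := ih
    have hpush : Dec lab x s (W ++ [q]) ((h * lab q, q) :: S) 1 := Dec.push hd Bal.nil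
    cases S with
    | nil => exact ⟨_, _, hpush, List.isChain_singleton _⟩
    | cons e S0 =>
      by_cases hc : h * lab q = 1 ∧ x q = x e.2 ∧ s q = !s e.2
      · cases hd with
        | @push W0 _ h0 p B b h1 h2 =>
          refine ⟨S0, h0 * (lab p * 1), ?_, ?_⟩
          · have h3 : Bal lab x s (p :: B ++ q :: []) (lab p * 1) :=
              Bal.cons hc.2.1.symm hc.2.2 h2 hc.1 Bal.nil
            have h4 := Dec.append lab x s h1 h3
            simpa [List.append_assoc] using h4
          · exact List.IsChain.tail hr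
      · refine ⟨_, _, hpush, ?_⟩
        unfold RedS at hr ⊢
        rw [List.isChain_cons_cons]
        exact ⟨hc, hr⟩

/-- **normal form**: a list of positions with value in `G` is balanced -/
theorem bal_of_ev {W : List P} {g : G} (h : ev (W.map (lt lab x s)) = Coprod.inl g) :
    Bal lab x s W g := by
  obtain ⟨S, h', hd, hr⟩ := exists_dec lab x s W
  have h1 := Dec.ev_eq lab x s hd
  rw [h] at h1
  have hred : Word.Red (S.map fun e => (e.1, x e.2, s e.2)).reverse := by
    unfold Word.Red
    rw [List.isChain_reverse, List.isChain_map]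
    refine List.IsChain.imp ?_ hr
    intro a b hab hab'
    exact hab hab'
  have h2 : Word.tot ((S.map fun e => (e.1, x e.2, s e.2)).reverse, h') =
      Word.tot (([] : Word.L G n), g) := by
    unfold Word.tot
    rw [← h1]; simp [ev]
  obtain ⟨h3, h4⟩ := Word.eq_of_tot_eq hred List.isChain_nil h2
  have h5 : S = [] := by simpa using h3
  subst h5 h4
  cases hd with
  | base h0 => exact h0

section struct

variable (pr : P → P)

/-- arrow of `X`: `i → μ (pr i)` -/
def RR (W : List P) (μ : P → P) (i j : P) : Prop := pr i ∈ W ∧ μ (pr i) = j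

theorem prod_congr_of_chain {W : List P} {μ : P → P} {z z' : P → ℂ}
    (hz : ∀ i ∈ W, z i = z' i) {l : List P} (hl : l.IsChain (RR pr W μ)) :
    (l.dropLast.map fun i => z (pr i)).prod = (l.dropLast.map fun i => z' (pr i)).prod := by
  congr 1
  apply List.map_congr_left
  intro i hi
  have : ∃ j, RR pr W μ i j := by
    obtain ⟨k, hk, rfl⟩ := List.getElem_of_mem hi
    rw [List.length_dropLast] at hk
    have := (List.isChain_iff_getElem.1 hl) k (by omega)
    rw [List.getElem_dropLast]
    exact ⟨_, this⟩
  obtain ⟨j, hj⟩ := this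
  exact hz _ hj.1

variable [DecidableEq P]

theorem bal_struct (ω : ℂ) (hω : ω * star ω = 1) {W : List P} {a : G} (h : Bal lab x s W a) :
    W.Nodup → W.IsChain (fun i j => pr j = i) →
    ∃ (μ : P → P) (z : P → ℂ) (path : List P) (cyc : List (List P)),
      (∀ i ∈ W, μ i ∈ W ∧ μ (μ i) = i ∧ x (μ i) = x i ∧ s (μ i) = !s i ∧ z (μ i) = star (z i) ∧
        z i * star (z i) = 1) ∧
      path.getLast? = W.head? ∧
      (path ++ cyc.flatten).Perm W ∧ 2 * cyc.length = W.length ∧
      (∀ n, (W ++ [n]).IsChain (fun i j => pr j = i) →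
        (n :: path).IsChain (RR pr W μ) ∧ (n :: path).getLast? = (W ++ [n]).head? ∧
        ((n :: path).dropLast.map fun i => z (pr i)).prod = (star ω) ^ cyc.length) ∧
      (path.map lab).reverse.prod = a ∧
      (∀ C ∈ cyc, ∃ i r, C = i :: r ∧ (i :: r ++ [i]).IsChain (RR pr W μ) ∧
        (C.map lab).reverse.prod = 1 ∧ (C.map fun i => z (pr i)).prod = ω) := by
  induction h with
  | nil =>
    intro _ _
    refine ⟨id, fun _ => 1, [], [], by simp, rfl, by simp, by simp, ?_, by simp, by simp⟩
    intro n _
    simp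
  | @cons p q W1 W2 a b hx hs h1 ha h2 ih1 ih2 =>
    intro hnd hpr
    -- decompose the hypotheses
    have hnd' : p ∉ W1 ∧ p ≠ q ∧ p ∉ W2 ∧ W1.Nodup ∧ q ∉ W1 ∧ q ∉ W2 ∧ W2.Nodup ∧
        (∀ i ∈ W1, i ∉ W2) := by
      rw [List.cons_append, List.nodup_cons, List.mem_append, List.mem_cons] at hnd
      obtain ⟨ha1, ha2⟩ := hnd
      rw [List.nodup_append, List.nodup_cons] at ha2
      obtain ⟨hb1, ⟨hb2, hb3⟩, hb4⟩ := ha2
      push_neg at ha1
      refine ⟨ha1.1, ha1.2.1, ha1.2.2, hb1, ?_, hb2, hb3, ?_⟩
      · intro hq; exact hb4 q hq q List.mem_cons_self rfl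
      · intro i hi hi2; exact hb4 i hi i (List.mem_cons_of_mem _ hi2) rfl
    obtain ⟨hpW1, hpq, hpW2, hnd1, hqW1, hqW2, hnd2, hdisj⟩ := hnd'
    have hchain : ∀ T : List P, (p :: W1 ++ q :: W2 ++ T).IsChain (fun i j => pr j = i) →
        (W1 ++ [q]).IsChain (fun i j => pr j = i) ∧ (W2 ++ T).IsChain (fun i j => pr j = i) ∧
        (∀ y ∈ (W1 ++ [q]).head?, pr y = p) ∧ (∀ y ∈ (W2 ++ T).head?, pr y = q) := by
      intro T hT
      have e1 : p :: W1 ++ q :: W2 ++ T = [p] ++ ((W1 ++ [q]) ++ (W2 ++ T)) := by simp
      rw [e1, List.isChain_append, List.isChain_append] at hT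
      obtain ⟨_, ⟨hT1, hT2, hT3⟩, hT4⟩ := hT
      refine ⟨hT1, hT2, ?_, ?_⟩
      · intro y hy
        apply hT4 p (by simp) y
        rw [List.head?_append]
        have : (W1 ++ [q]).head? = some y := hy
        rw [this]; rfl
      · intro y hy
        exact hT3 q (by simp) y hy
    obtain ⟨hc1, hc2, hc3, _⟩ := hchain [] (by simpa using hpr)
    rw [List.append_nil] at hc2
    have hc1' : W1.IsChain (fun i j => pr j = i) := (List.isChain_append.1 hc1).1
    obtain ⟨μ1, z1, path1, cyc1, hA1, _, hB1, hL1, hN1, hG1, hC1⟩ := ih1 hnd1 hc1'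
    obtain ⟨μ2, z2, path2, cyc2, hA2, _, hB2, hL2, hN2, hG2, hC2⟩ := ih2 hnd2 hc2
    set μ : P → P := fun i => if i ∈ W1 then μ1 i else if i ∈ W2 then μ2 i else
      if i = p then q else p with hμ
    set zp : ℂ := ω ^ (cyc1.length + 1) with hzp
    set z : P → ℂ := fun i => if i ∈ W1 then z1 i else if i ∈ W2 then z2 i else
      if i = p then zp else star zp with hz
    have μW1 : ∀ i ∈ W1, μ i = μ1 i := fun i hi => by simp [hμ, hi]
    have μW2 : ∀ i ∈ W2, μ i = μ2 i := fun i hi => by
      have : i ∉ W1 := fun h => hdisj i h hi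
      simp [hμ, hi, this]
    have μp : μ p = q := by simp [hμ, hpW1, hpW2]
    have μq : μ q = p := by simp [hμ, hqW1, hqW2, Ne.symm hpq]
    have zW1 : ∀ i ∈ W1, z1 i = z i := fun i hi => by simp [hz, hi]
    have zW2 : ∀ i ∈ W2, z2 i = z i := fun i hi => by
      have : i ∉ W1 := fun h => hdisj i h hi
      simp [hz, hi, this]
    have zP : z p = zp := by simp [hz, hpW1, hpW2]
    have zQ : z q = star zp := by simp [hz, hqW1, hqW2, Ne.symm hpq]
    have hzp1 : zp * star zp = 1 := by rw [hzp, star_pow, ← mul_pow, hω, one_pow]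
    have memW : ∀ i, i ∈ p :: W1 ++ q :: W2 ↔ i = p ∨ i ∈ W1 ∨ i = q ∨ i ∈ W2 := by
      intro i; simp [or_assoc]
    have R1 : ∀ i j, RR pr W1 μ1 i j → RR pr (p :: W1 ++ q :: W2) μ i j := by
      rintro i j ⟨h1, h2⟩
      exact ⟨(memW _).2 (Or.inr (Or.inl h1)), by rw [μW1 _ h1]; exact h2⟩
    have R2 : ∀ i j, RR pr W2 μ2 i j → RR pr (p :: W1 ++ q :: W2) μ i j := by
      rintro i j ⟨h1, h2⟩
      exact ⟨(memW _).2 (Or.inr (Or.inr (Or.inr h1))), by rw [μW2 _ h1]; exact h2⟩
    -- the new cycle
    obtain ⟨hD1, hD2, hD3⟩ := hN1 q hc1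
    obtain ⟨y, hy⟩ : ∃ y, (W1 ++ [q]).head? = some y := by
      cases W1 with
      | nil => exact ⟨q, rfl⟩
      | cons c t => exact ⟨c, rfl⟩
    have hyp : pr y = p := hc3 y hy
    rw [hy] at hD2
    obtain ⟨ys, hys⟩ := List.getLast?_eq_some_iff.1 hD2
    refine ⟨μ, z, path2 ++ [p], cyc1 ++ cyc2 ++ [q :: path1], ?_, ?_, ?_, ?_, ?_, ?_, ?_⟩
    · -- matching
      intro i hi
      rw [memW] at hi
      rcases hi with rfl | hi | rfl | hi
      · rw [μp, μq, zQ, zP]
        exact ⟨(memW _).2 (Or.inr (Or.inr (Or.inl rfl))), rfl, hx.symm, hs, rfl, hzp1⟩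
      · obtain ⟨g1, g2, g3, g4, g5, g6⟩ := hA1 i hi
        rw [μW1 i hi, μW1 _ g1, ← zW1 i hi, ← zW1 _ g1]
        exact ⟨(memW _).2 (Or.inr (Or.inl g1)), g2, g3, g4, g5, g6⟩
      · rw [μq, μp, zQ, zP]
        refine ⟨(memW _).2 (Or.inl rfl), rfl, hx, by rw [hs]; simp, by simp, ?_⟩
        rw [star_star, mul_comm]; exact hzp1
      · obtain ⟨g1, g2, g3, g4, g5, g6⟩ := hA2 i hi
        rw [μW2 i hi, μW2 _ g1, ← zW2 i hi, ← zW2 _ g1]
        exact ⟨(memW _).2 (Or.inr (Or.inr (Or.inr g1))), g2, g3, g4, g5, g6⟩
    · rw [List.getLast?_concat]; rfl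
    · -- permutation
      have e1 : (path2 ++ [p] ++ (cyc1 ++ cyc2 ++ [q :: path1]).flatten).Perm
          (p :: ((path1 ++ cyc1.flatten) ++ q :: (path2 ++ cyc2.flatten))) := by
        rw [List.flatten_append, List.flatten_append]
        simp only [List.flatten_cons, List.flatten_nil, List.append_nil]
        classical
        rw [List.perm_iff_count]
        intro c
        simp only [List.count_append, List.count_cons, List.count_nil]
        omega
      refine e1.trans ?_
      rw [List.cons_append]
      exact (hB1.append (hB2.cons q)).cons p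
    · simp only [List.length_append, List.length_cons, List.length_nil]
      omega
    · -- through path
      intro n hn
      obtain ⟨_, hn2, _, hn4⟩ := hchain [n] hn
      obtain ⟨hE1, hE2, hE3⟩ := hN2 n hn2
      obtain ⟨w, hw⟩ : ∃ w, (W2 ++ [n]).head? = some w := by
        cases W2 with
        | nil => exact ⟨n, rfl⟩
        | cons c t => exact ⟨c, rfl⟩
      have hwq : pr w = q := hn4 w hw
      rw [hw] at hE2
      obtain ⟨ws, hws⟩ := List.getLast?_eq_some_iff.1 hE2
      refine ⟨?_, ?_, ?_⟩
      · rw [← List.cons_append, List.isChain_append]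
        refine ⟨List.IsChain.imp R2 hE1, List.isChain_singleton _, ?_⟩
        intro a ha' b hb'
        rw [hE2] at ha'
        simp only [Option.mem_def, Option.some.injEq, List.head?_cons] at ha' hb'
        subst ha' hb'
        refine ⟨?_, ?_⟩
        · rw [hwq]; exact (memW _).2 (Or.inr (Or.inr (Or.inl rfl)))
        · rw [hwq, μq]
      · rw [← List.cons_append, List.getLast?_concat]
        rfl
      · rw [← List.cons_append, List.dropLast_concat, hws, List.map_append, List.prod_append]
        have e2 : (ws.map fun i => z (pr i)).prod = (star ω) ^ cyc2.length := by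
          rw [← hE3, prod_congr_of_chain pr zW2 hE1, hws, List.dropLast_concat]
        rw [e2]
        simp only [List.map_cons, List.map_nil, List.prod_cons, List.prod_nil, mul_one, hwq, zQ,
          List.length_append, List.length_cons, List.length_nil, hzp, star_pow]
        rw [← pow_add]; congr 1; omega
    · -- label of the path
      rw [List.map_append, List.reverse_append, List.prod_append, hG2]
      simp
    · -- cycles
      intro C hC
      rw [List.mem_append, List.mem_append, List.mem_singleton] at hC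
      rcases hC with (hC | hC) | hC
      · obtain ⟨i, r, rfl, k1, k2, k3⟩ := hC1 C hC
        refine ⟨i, r, rfl, List.IsChain.imp R1 k1, k2, ?_⟩
        rw [← k3]
        have := prod_congr_of_chain pr zW1 k1
        rw [List.dropLast_concat] at this
        exact this.symm
      · obtain ⟨i, r, rfl, k1, k2, k3⟩ := hC2 C hC
        refine ⟨i, r, rfl, List.IsChain.imp R2 k1, k2, ?_⟩
        rw [← k3]
        have := prod_congr_of_chain pr zW2 k1
        rw [List.dropLast_concat] at this
        exact this.symm
      · subst hC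
        refine ⟨q, path1, rfl, ?_, ?_, ?_⟩
        · rw [List.isChain_append]
          refine ⟨List.IsChain.imp R1 hD1, List.isChain_singleton _, ?_⟩
          intro a ha' b hb'
          rw [hD2] at ha'
          simp only [Option.mem_def, Option.some.injEq, List.head?_cons] at ha' hb'
          subst ha' hb'
          exact ⟨by rw [hyp]; exact (memW _).2 (Or.inl rfl), by rw [hyp, μp]⟩
        · rw [List.map_cons, List.reverse_cons, List.prod_append, hG1]
          simpa using ha
        · rw [hys, List.map_append, List.prod_append]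
          have e2 : (ys.map fun i => z (pr i)).prod = (star ω) ^ cyc1.length := by
            rw [← hD3, prod_congr_of_chain pr zW1 hD1, hys, List.dropLast_concat]
          rw [e2]
          simp only [List.map_cons, List.map_nil, List.prod_cons, List.prod_nil, mul_one, hyp, zP, hzp]
          rw [pow_succ ω, ← mul_assoc, ← mul_pow, mul_comm (star ω), hω, one_pow, one_mul]

omit [DecidableEq P] in
theorem map_eq_rotate_of_chain {nxt : P → P} {i : P} {r : List P}
    (h : (i :: r ++ [i]).IsChain (fun a b => nxt a = b)) :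
    (i :: r).map nxt = (i :: r).rotate 1 := by
  have key : ∀ (l : List P) (j : P), (j :: l ++ [i]).IsChain (fun a b => nxt a = b) →
      (j :: l).map nxt = l ++ [i] := by
    intro l
    induction l with
    | nil =>
      intro j hj
      simp only [List.cons_append, List.nil_append, List.isChain_cons_cons] at hj
      simp [hj.1]
    | cons c t ih =>
      intro j hj
      simp only [List.cons_append, List.isChain_cons_cons] at hj
      rw [List.map_cons, ih c (by simpa [List.isChain_cons_cons] using hj.2), hj.1]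
      rfl
  rw [key r i h]
  simp

omit [DecidableEq P] in
theorem cterm_conj (c : ℕ) (h k : G) (ζ : ℂ) (q : ℕ) :
    cterm c (k * h * k⁻¹) ζ q = cterm c h ζ q := by
  have this : ∀ m : ℕ, (k * h * k⁻¹) ^ m = 1 ↔ h ^ m = 1 := by
    intro m
    rw [conj_pow]
    constructor
    · intro e
      rw [mul_inv_eq_one, mul_eq_left] at e
      exact e
    · intro e; rw [e]; simp
  unfold cterm
  by_cases hd : c ∣ q
  · rw [if_pos hd, if_pos hd]
    by_cases h1 : h ^ (q / c) = 1
    · rw [if_pos h1, if_pos ((this _).2 h1)]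
    · rw [if_neg h1, if_neg (fun h2 => h1 ((this _).1 h2))]
  · rw [if_neg hd, if_neg hd]

/-- **W3**: matching, phases and the traces of the powers of `X`. -/
theorem x_spec [Fintype P] (L : List P) (hnd : L.Nodup) (hall : ∀ i, i ∈ L) (hne : L ≠ [])
    (hpr : L.IsChain (fun i j => pr j = i)) (hcl : ∀ i ∈ L.head?, ∀ j ∈ L.getLast?, pr i = j)
    {g : G} (hev : ev (L.map (lt lab x s)) = Coprod.inl g) (ω : ℂ) (hω : ω * star ω = 1) :
    ∃ (μ : P → P) (z : P → ℂ),
      (∀ i, μ (μ i) = i ∧ x (μ i) = x i ∧ s (μ i) = !s i ∧ z (μ i) = star (z i) ∧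
        z i * star (z i) = 1) ∧
      ∃ (c : List ℕ) (c0 : ℕ), 2 * c.length = Fintype.card P ∧ (∀ k ∈ c, 0 < k) ∧ 0 < c0 ∧
        c0 + c.sum = Fintype.card P ∧
        ∀ q, trG (mono (fun i => μ (pr i)) lab (fun i => z (pr i)) ^ q) =
          cterm c0 g ((star ω) ^ c.length) q + (c.map fun k => cterm k (1 : G) ω q).sum := by
  obtain ⟨μ, z, path, cyc, hA, hlast, hB, hL, hN, hG, hC⟩ :=
    bal_struct lab x s pr ω hω (bal_of_ev lab x s hev) hnd hpr
  obtain ⟨p0, t, rfl⟩ := List.exists_cons_of_ne_nil hne
  have hcard : Fintype.card P = (p0 :: t).length := by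
    rw [← List.toFinset_card_of_nodup hnd]
    have : (p0 :: t).toFinset = Finset.univ := by
      ext i; simp only [List.mem_toFinset, Finset.mem_univ, iff_true]; exact hall i
    rw [this, Finset.card_univ]
  have hch : ((p0 :: t) ++ [p0]).IsChain (fun i j => pr j = i) := by
    rw [List.isChain_append]
    refine ⟨hpr, List.isChain_singleton _, ?_⟩
    intro a ha b hb
    simp only [List.head?_cons, Option.mem_def, Option.some.injEq] at hb
    subst hb
    exact hcl p0 (by simp) a ha
  obtain ⟨hD1, hD2, hD3⟩ := hN p0 hch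
  rw [List.head?_cons] at hlast
  obtain ⟨ys, hys⟩ := List.getLast?_eq_some_iff.1 hlast
  subst hys
  have hμ : ∀ i, μ (μ i) = i ∧ x (μ i) = x i ∧ s (μ i) = !s i ∧ z (μ i) = star (z i) ∧
        z i * star (z i) = 1 := fun i => (hA i (hall i)).2
  have hz : ∀ i, z (pr i) ≠ 0 := by
    intro i h0
    have := (hμ (pr i)).2.2.2.2
    rw [h0, zero_mul] at this
    exact zero_ne_one this
  have hnxt : ∀ (l : List P), l.IsChain (RR pr (p0 :: t) μ) →
      l.IsChain (fun a b => μ (pr a) = b) := fun l hl => List.IsChain.imp (fun a b h => h.2) hl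
  have hperm : (((p0 :: ys) :: cyc).flatten).Perm (p0 :: t) := by
    refine List.Perm.trans ?_ hB
    rw [List.flatten_cons]
    apply List.Perm.append_right
    exact (List.perm_append_singleton p0 ys).symm
  refine ⟨μ, z, hμ, cyc.map List.length, (p0 :: ys).length, ?_, ?_, by simp, ?_, ?_⟩
  · rw [List.length_map, hL, hcard]
  · intro k hk
    obtain ⟨C, hC', rfl⟩ := List.mem_map.1 hk
    obtain ⟨i, r, rfl, _⟩ := hC C hC'
    simp
  · rw [hcard, ← hperm.length_eq, List.length_flatten, List.map_cons, List.sum_cons]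
  · intro q
    rw [trG_mono_pow (fun i => μ (pr i)) lab (fun i => z (pr i)) ((p0 :: ys) :: cyc)
      ((List.Perm.nodup_iff hperm).2 hnd) (fun i => hperm.mem_iff.2 (hall i)) ?_ hz q]
    · rw [List.map_cons, List.sum_cons, List.length_map, List.map_map]
      congr 1
      · have e1 : ((p0 :: ys).map lab).reverse.prod = (lab p0)⁻¹ * g * ((lab p0)⁻¹)⁻¹ := by
          rw [← hG]
          simp [mul_assoc]
        have e2 : ((p0 :: ys).map fun i => z (pr i)).prod = (star ω) ^ cyc.length := by
          rw [← hD3]
          congr 2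
          rw [← List.cons_append, List.dropLast_concat]
        rw [e1, e2, cterm_conj]
      · congr 1
        apply List.map_congr_left
        intro C hC'
        obtain ⟨i, r, rfl, k1, k2, k3⟩ := hC C hC'
        simp only [Function.comp]
        rw [k2, k3]
    · intro C hC'
      rw [List.mem_cons] at hC'
      rcases hC' with rfl | hC'
      · refine ⟨by simp, map_eq_rotate_of_chain ?_⟩
        have := hnxt _ hD1
        simpa using this
      · obtain ⟨i, r, rfl, k1, _, _⟩ := hC C hC'
        exact ⟨by simp, map_eq_rotate_of_chain (hnxt _ k1)⟩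

end struct

end Crest.Agent.R174.WD
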