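import Mathlib
import Crest.Agent.R174.X126
import Crest.Agent.R174.FlatK753

set_option autoImplicit false

/-!
# R174, W3 for the block word (helper126)
-/

open Monoid

namespace Crest.Agent.R174.WD

open Crest.Agent.R174.Red

universe u

variable {G : Type u} [Group G] {n : ℕ} {κ : Type} [DecidableEq κ] [Fintype κ]

/-- **W3 for the block word.** -/
theorem x_spec_blk (B : Blk G n κ) (ha0 : ∀ k, B.a0 k = 1) (hne : B.ord ≠ []) {g : G}
    (hval : (B.ord.map B.val).prod = Coprod.inl g) (ω : ℂ) (hω : ω * star ω = 1) :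
    ∃ (μ : B.Pos → B.Pos) (z : B.Pos → ℂ),
      (∀ i, μ (μ i) = i ∧ B.unk (μ i) = B.unk i ∧ B.sgn (μ i) = !B.sgn i ∧ z (μ i) = star (z i) ∧
        z i * star (z i) = 1 ∧ ‖z i‖ = 1) ∧
      ∃ (c : List ℕ) (c0 : ℕ), 2 * c.length = Fintype.card B.Pos ∧ (∀ k ∈ c, 0 < k) ∧ 0 < c0 ∧
        c0 + c.sum = Fintype.card B.Pos ∧
        ∀ q, trG (mono (fun i => μ (B.pred i)) B.lab (fun i => z (B.pred i)) ^ q) =
          cterm c0 g ((star ω) ^ c.length) q + (c.map fun k => cterm k (1 : G) ω q).sum := by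
  have hne' : B.posList ≠ [] := by
    obtain ⟨k, t, hk⟩ := List.exists_cons_of_ne_nil hne
    intro h
    have h1 := FlatK.mem_posList B (B.up k (B.r0 k))
    rw [h] at h1
    exact absurd h1 (List.not_mem_nil)
  have hcp := FlatK.isCycPred_posList B
  have hpr : B.posList.IsChain (fun i j => B.pred j = i) := by
    rw [List.isChain_iff_getElem]
    intro i hi
    refine hcp.1 (B.posList.take i) (B.posList.drop (i + 2)) _ _ ?_
    conv_lhs => rw [← List.take_append_drop i B.posList]
    congr 1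
    rw [List.drop_eq_getElem_cons (by omega), List.drop_eq_getElem_cons hi]
  have hcl : ∀ i ∈ B.posList.head?, ∀ j ∈ B.posList.getLast?, B.pred i = j := by
    obtain ⟨p, t, hp⟩ := List.exists_cons_of_ne_nil hne'
    intro i hi j hj
    rw [hp] at hi hj
    simp only [List.head?_cons, Option.mem_def, Option.some.injEq] at hi
    subst hi
    exact hcp.2 t p j hp hj
  obtain ⟨μ, z, h1, h2⟩ := x_spec B.lab B.unk B.sgn B.pred B.posList (FlatK.nodup_posList B)
    (FlatK.mem_posList B) hne' hpr hcl (g := g)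
    (by rw [← hval, ← FlatK.ev_posList B ha0]; rfl) ω hω
  refine ⟨μ, z, fun i => ?_, h2⟩
  obtain ⟨a1, a2, a3, a4, a5⟩ := h1 i
  refine ⟨a1, a2, a3, a4, a5, ?_⟩
  have : ‖z i‖ * ‖z i‖ = 1 := by
    have := congrArg norm a5
    rwa [norm_mul, norm_star, norm_one] at this
  nlinarith [norm_nonneg (z i)]

end Crest.Agent.R174.WD
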