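import Mathlib
import Crest.Agent.R174.W4Def83
import Crest.Agent.R174.Glue83c
import Crest.Agent.R174.XB126
import Crest.Agent.R174.PredE753
import Crest.Agent.R174.F4_259
import Crest.Agent.R174.GRMain

set_option autoImplicit false

/-!
# R174, W7b (helper83): final assembly of the key statement
-/

open scoped Matrix.Norms.L2Operator
open Monoid Finset
open Crest.Agent.R174.Red Crest.Agent.R174.GR

namespace Crest.Agent.R174.Glue

universe u

/-- `imT` from a list of cycle terms -/
lemma im_sum_cterm {G : Type u} [Group G] (c : List ℕ) (hc : ∀ k ∈ c, 0 < k) (δ θ : ℝ) (q : ℕ) :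
    ((Complex.exp (2 * Real.pi * Complex.I * δ)) ^ q *
      (c.map fun k => WD.cterm k (1 : G) (Complex.exp (2 * Real.pi * Complex.I * θ)) q).sum).im =
    Lim.imT (fun v : Fin c.length => c.get v) (fun _ => 1) (fun v => (c.get v : ℝ) * δ + θ) q := by
  rw [← Fin.sum_univ_fun_getElem, mul_sum, Complex.im_sum]
  unfold Lim.imT
  apply sum_congr rfl
  intro v _
  have h := im_cterm (G := G) (c.get v) (hc _ (List.get_mem c v)) 1 δ θ q
  rw [orderOf_one] at h
  exact h

/-- with the extra cycle -/
lemma im_sum_cterm_some {G : Type u} [Group G] (c : List ℕ) (hc : ∀ k ∈ c, 0 < k) (c0 : ℕ)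
    (hc0 : 0 < c0) (g : G) (δ θ θ0 : ℝ) (q : ℕ) :
    ((Complex.exp (2 * Real.pi * Complex.I * δ)) ^ q *
      (WD.cterm c0 g (Complex.exp (2 * Real.pi * Complex.I * θ0)) q +
      (c.map fun k => WD.cterm k (1 : G) (Complex.exp (2 * Real.pi * Complex.I * θ)) q).sum)).im =
    Lim.imT (fun v : Option (Fin c.length) => v.elim c0 c.get)
      (fun v => v.elim (orderOf g) (fun _ => 1))
      (fun v => v.elim ((c0 : ℝ) * δ + θ0) (fun v => (c.get v : ℝ) * δ + θ)) q := by
  rw [mul_add, Complex.add_im, im_sum_cterm c hc, im_cterm c0 hc0]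
  unfold Lim.imT
  rw [Fintype.sum_option]
  rfl

/-- the real arithmetic at the end -/
lemma final_arith (N F lX lY d : ℕ) (hN : 0 < N) (hX : 2 * lX = N) (hY : 2 * lY + 4 * F = N + 2)
    (h : (lY : ℝ) / 2 - N * (1 / (16 * (N : ℝ) ^ 2)) ≤
      -(((lX + 1 : ℕ) : ℝ) - 1) * (1 / 2 - 1 / (4 * N)) + 1 / 4 + ((lX : ℝ) - d)) : d < F := by
  have hNr : (0 : ℝ) < N := by exact_mod_cast hN
  have hN1 : (1 : ℝ) ≤ N := by exact_mod_cast hN
  have e1 : (N : ℝ) * (1 / (16 * (N : ℝ) ^ 2)) = 1 / (16 * N) := by field_simp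
  have e2 : (lX : ℝ) = N / 2 := by
    have : (2 : ℝ) * lX = N := by exact_mod_cast hX
    linarith
  have e3 : (lY : ℝ) = N / 2 + 1 - 2 * F := by
    have : (2 : ℝ) * lY + 4 * F = N + 2 := by exact_mod_cast hY
    linarith
  rw [e1] at h
  push_cast at h
  rw [e2, e3] at h
  have e4 : -((N : ℝ) / 2 + 1 - 1) * (1 / 2 - 1 / (4 * N)) = -(N / 4) + 1 / 8 := by
    field_simp
    ring
  rw [e4] at h
  have e5 : (1 : ℝ) / (16 * N) ≤ 1 / 16 := by
    apply one_div_le_one_div_of_le (by norm_num)
    linarith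
  have h2 : (d : ℝ) < F := by linarith
  exact_mod_cast h2

section

variable {G : Type u} [Group G] {n : ℕ}

set_option synthInstance.maxSize 1000 in
/-- the key inequality: all `σ` have a small kernel -/
theorem small_kernel (W : Fin n → List (G × Fin n × Bool)) (f : Fin n → ℕ)
    (hW : ∀ i, 0 < (W i).length) (st : Ka f → List (G × Fin n × Bool))
    (hst : ∀ k, 0 < (st k).length) (ord : List (Ka f)) (hnd : ord.Nodup)
    (hall : ∀ k, k ∈ ord) (hne : ord ≠ [])
    (ha0 : ∀ k, (blk W f hW st hst ord hnd hall).a0 k = 1) (g : G) (hg : g ≠ 1)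
    (hval : (ord.map (blk W f hW st hst ord hnd hall).val).prod = Coprod.inl g)
    (hW4 : W4 W f hW st hst ord hnd hall) :
    ∃ M : ∀ x, Matrix ((sys W f).Po x ⊕ St f st x) ((sys W f).Po x ⊕ St f st x) ℂ,
      (∀ x, M x ∈ Matrix.unitaryGroup _ ℂ) ∧
      ∀ σ : (sys W f).KA, σ ∈ unitary (sys W f).KA →
        Module.finrank ℂ (LinearMap.ker (Matrix.mulVecLin
          (Jbig (sys W f) (St f st) σ - Matrix.blockDiagonal' M))) < ∑ i, f i := by
  set B := blk W f hW st hst ord hnd hall with hB
  set N : ℕ := Fintype.card B.Pos with hN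
  obtain ⟨k0, hk0⟩ : ∃ k, k ∈ ord := List.exists_mem_of_ne_nil ord hne
  have hN0 : 0 < N := Fintype.card_pos_iff.2 ⟨B.up k0 (B.r0 k0)⟩
  set ε : ℝ := 1 / (4 * N) with hε
  set δ : ℝ := 1 / (16 * (N : ℝ) ^ 2) with hδ
  have hNr : (0 : ℝ) < N := by exact_mod_cast hN0
  have hN1 : (1 : ℝ) ≤ N := by exact_mod_cast hN0
  set ω : ℂ := Complex.exp (2 * Real.pi * Complex.I * ((-ε : ℝ) : ℂ)) with hω
  have hωs : star ω = Complex.exp (2 * Real.pi * Complex.I * (ε : ℂ)) := by
    rw [hω, Complex.star_def, ← Complex.exp_conj]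
    congr 1
    simp only [map_mul, Complex.conj_ofReal, Complex.conj_I, map_ofNat, Complex.ofReal_neg, map_neg]
    ring
  have hωω : ω * star ω = 1 := by
    rw [hωs, hω, ← Complex.exp_add]
    rw [← Complex.exp_zero]
    congr 1
    push_cast
    ring
  obtain ⟨μ, z, hμz, c, c0, hc1, hc2, hc3, hc4, hc5⟩ :=
    WD.x_spec_blk B ha0 hne hval ω hωω
  have hunk : ∀ i, (ePos W f hW st hst ord hnd hall i).1.1 = B.unk i := by
    rintro ⟨k, j | j | j⟩ <;> rfl
  have hsgn : ∀ i, (ePos W f hW st hst ord hnd hall i).2 = B.sgn i := fun i => rfl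
  obtain ⟨M, hM, hMM⟩ := mat_eq_anti (ePos W f hW st hst ord hnd hall) μ z
    (fun i => (hμz i).1) (fun i => (hμz i).2.2.2.1) (fun i => (hμz i).2.2.2.2.2)
    (fun i => by rw [hunk, hunk]; exact (hμz i).2.1)
    (fun i => by rw [hsgn, hsgn]; exact (hμz i).2.2.1)
  refine ⟨M, hM, fun σ hσ => ?_⟩
  obtain ⟨cY, hY1, hY2, hY3, hY4⟩ := hW4 σ hσ
  -- the unitary shift with phase `u`
  set u : ℂ := Complex.exp (2 * Real.pi * Complex.I * (δ : ℂ)) with hu
  have hun : ‖u‖ = 1 := by
    have : u = Complex.exp (((2 * Real.pi * δ : ℝ) : ℂ) * Complex.I) := by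
      rw [hu]; congr 1; push_cast; ring
    rw [this, Complex.norm_exp_ofReal_mul_I]
  have hmono : ∀ (nx : B.Pos → B.Pos) (la : B.Pos → G) (ze : B.Pos → ℂ),
      WD.mono nx la (fun i => u * ze i) = u • WD.mono nx la ze := by
    intro nx la ze
    ext1 j i
    rw [Matrix.smul_apply, TrIneq.mono_apply, TrIneq.mono_apply]
    split_ifs
    · rw [MonoidAlgebra.smul_single, smul_eq_mul]
    · rw [smul_zero]
  have htr : ∀ (c : ℂ) (A : Matrix B.Pos B.Pos (MonoidAlgebra ℂ G)),
      WD.trG (c • A) = c * WD.trG A := by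
    intro c A
    rw [← TrIneq.trG_eq, ← TrIneq.trG_eq, map_smul, smul_eq_mul]
  set U : Matrix B.Pos B.Pos (MonoidAlgebra ℂ G) := WD.mono B.pred B.lab (fun _ => 1) with hU
  have hZ : WD.mono B.pred B.lab (fun _ => u) = u • U := by
    have := hmono B.pred B.lab (fun _ => 1)
    simpa using this
  have hZu : (u • U) * star (u • U) = 1 := by
    rw [← hZ]
    have h := TrIneq.mono_unitary (FlatK.predE B) B.lab (fun _ => u) (fun _ => hun)
    rwa [FlatK.coe_predE] at h
  -- the two unitaries
  have hJ : Jbig (sys W f) (St f st) σ ∈ Matrix.unitaryGroup _ ℂ := by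
    have h1 := (sys W f).Jm_unitary hσ
    have h2 : ∀ x, (sys W f).Jm σ x * star ((sys W f).Jm σ x) = 1 := fun x =>
      congrFun (Unitary.mul_star_self_of_mem h1) x
    unfold Jbig
    rw [Matrix.mem_unitaryGroup_iff, Matrix.star_eq_conjTranspose,
      Matrix.blockDiagonal'_conjTranspose, ← Matrix.blockDiagonal'_mul, ← Matrix.blockDiagonal'_one]
    congr 1
    funext x
    rw [Matrix.fromBlocks_conjTranspose, Matrix.fromBlocks_multiply]
    have h3 := h2 x
    rw [Matrix.star_eq_conjTranspose] at h3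
    simp only [Matrix.conjTranspose_zero, Matrix.mul_zero, Matrix.zero_mul, add_zero, zero_add,
      Matrix.conjTranspose_one, Matrix.mul_one, h3]
    exact Matrix.fromBlocks_one
  have hMb : Matrix.blockDiagonal' M ∈ Matrix.unitaryGroup _ ℂ := by
    rw [Matrix.mem_unitaryGroup_iff, Matrix.star_eq_conjTranspose,
      Matrix.blockDiagonal'_conjTranspose, ← Matrix.blockDiagonal'_mul, ← Matrix.blockDiagonal'_one]
    congr 1
    funext x
    exact Matrix.mem_unitaryGroup_iff.1 (hM x)
  have hineq : ∀ K : ℕ, _ := fun K =>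
    TrIneq.w5_blocks ((ePos W f hW st hst ord hnd hall).trans (eBool _))
      (GRLoc.diagProp _) hMb hJ hZu K
  -- cardinalities
  have hcard : 2 * Fintype.card (PP W f st) = N := by
    rw [hN, Fintype.card_congr (ePos W f hW st hst ord hnd hall), Fintype.card_prod,
      Fintype.card_bool]
    ring
  set d : ℕ := Module.finrank ℂ (LinearMap.ker (Matrix.mulVecLin
          (Jbig (sys W f) (St f st) σ - Matrix.blockDiagonal' M))) with hd
  -- powers of X
  have hX : ∀ q, (WD.trG ((TrIneq.sc G (mat μ z) * (u • U)) ^ q)).im =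
      Lim.imT (fun v : Option (Fin c.length) => v.elim c0 c.get)
      (fun v => v.elim (orderOf g) (fun _ => 1))
      (fun v => v.elim ((c0 : ℝ) * δ + c.length * ε) (fun v => (c.get v : ℝ) * δ + (-ε))) q := by
    intro q
    have h1 : TrIneq.sc G (mat μ z) * (u • U) =
        u • WD.mono (fun i => μ (B.pred i)) B.lab (fun i => z (B.pred i)) := by
      rw [mul_smul_comm]
      congr 1
      unfold mat
      rw [TrIneq.sc_mono, hU, TrIneq.mono_mul]
      congr 1
      · funext i; simp
      · funext i; simp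
    have h2 : (star ω) ^ c.length = Complex.exp (2 * Real.pi * Complex.I *
        ((c.length * ε : ℝ) : ℂ)) := by
      rw [hωs, ← Complex.exp_nat_mul]
      congr 1
      push_cast
      ring
    rw [h1, smul_pow, htr, hc5, h2, hω, hu]
    exact im_sum_cterm_some c hc2 c0 hc3 g δ (-ε) (c.length * ε) q
  have hY : ∀ q, (WD.trG ((TrIneq.sc G (anti (ePos W f hW st hst ord hnd hall)
          (Jbig (sys W f) (St f st) σ)) * (u • U)) ^ q)).im =
      Lim.imT (fun v : Fin cY.length => cY.get v) (fun _ => 1)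
        (fun v => (cY.get v : ℝ) * δ + 0) q := by
    intro q
    rw [mul_smul_comm, smul_pow, htr, hY4, hu]
    have := im_sum_cterm (G := G) cY hY1 δ 0 q
    simpa using this
  have hδ0 : 0 < δ := by rw [hδ]; positivity
  have hε0 : 0 < ε := by rw [hε]; positivity
  have hε1 : ε < 1 := by
    rw [hε, div_lt_one (by positivity)]
    linarith
  have hNδ : (N : ℝ) * δ < ε := by
    rw [hδ, hε]
    have e1 : (N : ℝ) * (1 / (16 * (N : ℝ) ^ 2)) = 1 / (16 * N) := by field_simp
    rw [e1]
    apply one_div_lt_one_div_of_lt (by positivity)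
    linarith
  have hle : ∀ (l : List ℕ) (v : Fin l.length), l.sum ≤ N → (l.get v : ℝ) * δ ≤ N * δ := by
    intro l v hl
    have h1 : l.get v ≤ l.sum := List.le_sum_of_mem (List.get_mem l v)
    have h2 : (l.get v : ℝ) ≤ N := by exact_mod_cast h1.trans hl
    exact mul_le_mul_of_nonneg_right h2 hδ0.le
  have hlim := limit_ineq' (none : Option (Fin c.length))
    (fun v : Option (Fin c.length) => v.elim c0 c.get)
    (fun v => v.elim (orderOf g) (fun _ => 1))
    (fun v => v.elim ((c0 : ℝ) * δ + c.length * ε) (fun v => (c.get v : ℝ) * δ + (-ε)))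
    (by
      rintro (_ | v)
      · exact hc3
      · exact hc2 _ (List.get_mem c v))
    (by
      rintro (_ | v) h
      · exact absurd rfl h
      · rfl)
    (by
      intro h
      exact hg (orderOf_eq_one_iff.1 h))
    ε hε1
    (by
      rintro (_ | v) h
      · exact absurd rfl h
      · refine ⟨ε - (c.get v : ℝ) * δ, ?_, ?_, ?_⟩
        · have := hle c v (by omega)
          linarith
        · have : (0 : ℝ) ≤ (c.get v : ℝ) * δ := by positivity
          linarith
        · simp only [Option.elim]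
          ring)
    (fun v : Fin cY.length => cY.get v) (fun v => (cY.get v : ℝ) * δ + 0)
    (fun v => hY1 _ (List.get_mem cY v))
    (fun v => by
      have h1 : (0 : ℝ) < cY.get v := by exact_mod_cast hY1 _ (List.get_mem cY v)
      positivity)
    (fun v => by
      have := hle cY v hY2.le
      linarith)
    ((Fintype.card (PP W f st) : ℝ) - d)
    (fun K _ => by
      have h := hineq K
      rw [TrIneq.SK_eq, TrIneq.SK_eq] at h
      have h1 : (fun q => (WD.trG ((TrIneq.sc G (mat μ z) * (u • U)) ^ q)).im) =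
        Lim.imT (fun v : Option (Fin c.length) => v.elim c0 c.get)
        (fun v => v.elim (orderOf g) (fun _ => 1))
        (fun v => v.elim ((c0 : ℝ) * δ + c.length * ε) (fun v => (c.get v : ℝ) * δ + (-ε))) :=
        funext hX
      have h2 := funext hY
      rw [← h1, ← h2]
      rw [hMM]
      exact h)
  have hsum : ∑ v : Fin cY.length, (1 / 2 - ((cY.get v : ℝ) * δ + 0)) =
      (cY.length : ℝ) / 2 - N * δ := by
    rw [sum_sub_distrib, sum_const, card_univ, Fintype.card_fin]
    have h1 : ∑ v : Fin cY.length, ((cY.get v : ℝ) * δ + 0) = (N : ℝ) * δ := by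
      simp only [add_zero]
      rw [← sum_mul]
      congr 1
      have hY2' : cY.sum = N := hY2
      have h3 : ∑ v : Fin cY.length, cY.get v = cY.sum := by
        have := Fin.sum_univ_getElem cY
        simpa using this
      rw [← hY2', ← h3]
      push_cast
      rfl
    rw [h1]
    simp only [nsmul_eq_mul]
    ring
  rw [hsum, Fintype.card_option, Fintype.card_fin] at hlim
  have hPP : (Fintype.card (PP W f st) : ℝ) = c.length := by
    have : Fintype.card (PP W f st) = c.length := by omega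
    exact_mod_cast this
  rw [hPP] at hlim
  exact final_arith N (∑ i, f i) c.length cY.length d hN0 hc1 hY3 hlim

/-- final statement, given W4 -/
theorem key_of_W4 (hW4 : ∀ (n : ℕ) (W : Fin n → List (G × Fin n × Bool)) (f : Fin n → ℕ)
    (hW : ∀ i, 0 < (W i).length) (st : Ka f → List (G × Fin n × Bool))
    (hst : ∀ k, 0 < (st k).length) (ord : List (Ka f)) (hnd : ord.Nodup)
    (hall : ∀ k, k ∈ ord), ord ≠ [] → (∀ k, (blk W f hW st hst ord hnd hall).a0 k = 1) →
    W4 W f hW st hst ord hnd hall) : Key G := by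
  intro n W htri hdiag g hg
  by_contra hg1
  obtain ⟨f, st, ord, hst1, hnd, hall, hprod⟩ := W259.exists_kappa W htri hdiag g hg
  have hW : ∀ i, 0 < (W i).length := by
    intro i
    rw [List.length_pos_iff_ne_nil]
    intro h
    apply hdiag i
    rw [h]
    rfl
  have hst : ∀ k, 0 < (st k).length := by
    intro k
    obtain ⟨p, t, h⟩ := hst1 k
    rw [h]
    simp
  have hne : ord ≠ [] := by
    rintro rfl
    apply hg1
    rw [List.map_nil, List.prod_nil] at hprod
    exact Coprod.inl_injective (hprod.trans (map_one _).symm)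
  have ha0 : ∀ k, (blk W f hW st hst ord hnd hall).a0 k = 1 := by
    intro k
    obtain ⟨p, t, h⟩ := hst1 k
    have : ∀ (l : List (G × Fin n × Bool)) (hl : 0 < l.length), l = (1, p) :: t →
        (l.get ⟨0, hl⟩).1 = 1 := by
      rintro l hl rfl
      rfl
    exact this (st k) (hst k) h
  have hval : (ord.map (blk W f hW st hst ord hnd hall).val).prod = Coprod.inl g := by
    rw [hprod]
    rfl
  obtain ⟨M, hM, hsmall⟩ := small_kernel W f hW st hst ord hnd hall hne ha0 g hg1 hval
    (hW4 n W f hW st hst ord hnd hall hne ha0)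
  have hcardA : Fintype.card (Σ i : Fin n, Fin (f i)) = ∑ i, f i := by
    simp
  refine contra (sys W f) (St f st) (MainP.gr (sys W f)) ?_ ?_ M hM ?_
  · intro i x hx
    rw [sys_E]
    exact htri i x hx
  · intro i
    rw [sys_E]
    exact hdiag i
  · intro σ hσ
    rw [hcardA]
    exact hsmall σ hσ

end

end Crest.Agent.R174.Glue
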