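import Mathlib
import Crest.Agent.R174.GRDefs

/-!
# R174, block G4 (helper850): the map `Φ₁` to which `J` is homotopic.

`Phi1 S r X x = 1 + ∑ i, W (zp (E i x) (X i) - 1) Wᵀ`, where `W = S.W x i (r x i)` is the inclusion
of the faces of type `i` at the reference position `r x i` (a position of relator `i` with unknown
`x`, if there is one; otherwise `W = 0` whatever `r x i` is).
-/

set_option autoImplicit false
open scoped Matrix.Norms.L2Operator

noncomputable section

namespace Crest.Agent.R174.GR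

/-- integer power, with `Ring.inverse` -/
def zp {R : Type*} [MonoidWithZero R] (k : ℤ) (X : R) : R :=
  if 0 ≤ k then X ^ k.toNat else (Ring.inverse X) ^ (-k).toNat

theorem zp_unit {R : Type*} [MonoidWithZero R] (k : ℤ) (u : Rˣ) :
    zp k (u : R) = ((u ^ k : Rˣ) : R) := by
  unfold zp
  split_ifs with h
  · obtain ⟨n, rfl⟩ := Int.eq_ofNat_of_zero_le h
    simp
  · have h' : 0 ≤ -k := by omega
    obtain ⟨n, hn⟩ := Int.eq_ofNat_of_zero_le h'
    have hk : k = -(n : ℤ) := by omega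
    subst hk
    simp

variable {ι A Q : Type} [Fintype ι] [LinearOrder ι] [Fintype A] [DecidableEq A]
  [Fintype Q] [DecidableEq Q]

/-- inclusion of the faces of type `i` at the position `q` -/
def Sys.W (S : Sys ι A Q) (x i : ι) (q : Q) : Matrix (S.Po x) (S.Fa i) ℂ :=
  Matrix.of fun p a => if p.1 = (a.1, q) then 1 else 0

/-- the map `Φ₁` -/
def Sys.Phi1 (S : Sys ι A Q) (r : ι → ι → Q) (X : S.KA) : S.VA := fun x =>
  1 + ∑ i, S.W x i (r x i) * (zp (S.E i x) (X i) - 1) * (S.W x i (r x i)).transpose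

/-- the condition on the reference positions -/
def Sys.RefOK (S : Sys ι A Q) (q0 : ι → Q) (r : ι → ι → Q) : Prop :=
  (∀ x, r x x = q0 x) ∧
  ∀ x i, (∃ q, S.rel q = i ∧ S.var q = x) → S.rel (r x i) = i ∧ S.var (r x i) = x

theorem Sys.exists_refOK (S : Sys ι A Q) (q0 : ι → Q)
    (hq : ∀ x, S.rel (q0 x) = x ∧ S.var (q0 x) = x) : ∃ r, S.RefOK q0 r := by
  classical
  refine ⟨fun x i => if i = x then q0 x else
    if h : ∃ q, S.rel q = i ∧ S.var q = x then h.choose else q0 x, ?_, ?_⟩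
  · intro x; simp
  · intro x i h
    by_cases hix : i = x
    · subst hix; simpa using hq i
    · simp only [hix, if_false]
      rw [dif_pos h]
      exact h.choose_spec

/-- block G4a: `DD J = DD Φ₁` (helper661) -/
def G4a (S : Sys ι A Q) : Prop :=
  ∀ (q0 : ι → Q) (hq : ∀ x, S.rel (q0 x) = x ∧ S.var (q0 x) = x) (r : ι → ι → Q),
    S.RefOK q0 r → DD (S.refR q0 hq) S.Jm = DD (S.refR q0 hq) (S.Phi1 r)

/-- block G4b: evaluation (helper850) -/
def G4b (S : Sys ι A Q) : Prop :=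
  (∀ i x, x < i → S.E i x = 0) → (∀ i, S.E i i ≠ 0) →
  ∀ (q0 : ι → Q) (hq : ∀ x, S.rel (q0 x) = x ∧ S.var (q0 x) = x) (r : ι → ι → Q),
    S.RefOK q0 r → DD (S.refR q0 hq) (S.Phi1 r) ≠ 0

theorem T3_of (S : Sys ι A Q) (ha : G4a S) (hb : G4b S) : T3 S := by
  intro h0 hd q0 hq
  obtain ⟨r, hr⟩ := S.exists_refOK q0 hq
  rw [ha q0 hq r hr]
  exact hb h0 hd q0 hq r hr

end Crest.Agent.R174.GR
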