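import Mathlib
import Crest.Agent.R174.G4Defs

/-!
# R174, block G4b (helper850), part 2: logarithmic derivative of integer powers.
-/

set_option autoImplicit false

noncomputable section

namespace Crest.Agent.R174.G4

open Crest.Agent.R174.GR Finset

variable {R : Type*} [NormedRing R] [NormedAlgebra ℂ R] [HasSummableGeomSeries R]

/-- `∑_{j<n} u^j ξ u^{-j}` -/
def sumConj (n : ℕ) (u : Rˣ) (ξ : R) : R := ∑ j ∈ range n, ((u ^ j : Rˣ) : R) * ξ * ((u⁻¹ ^ j : Rˣ) : R)

omit [HasSummableGeomSeries R] in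
theorem hasFDerivAt_npow (n : ℕ) (u : Rˣ) :
    ∃ L : R →L[ℂ] R, HasFDerivAt (fun X : R => X ^ n) L (u : R) ∧
      ∀ ξ : R, L (ξ * u) = sumConj n u ξ * ((u ^ n : Rˣ) : R) := by
  induction n with
  | zero =>
    refine ⟨0, ?_, ?_⟩
    · simpa using hasFDerivAt_const (1 : R) (u : R)
    · intro ξ; simp [sumConj]
  | succ n ih =>
    obtain ⟨L, hL, hL'⟩ := ih
    have h := hL.mul' (hasFDerivAt_id (𝕜 := ℂ) (u : R))
    have h2 : (fun X : R => X ^ (n + 1)) = (fun X : R => X ^ n) * id := by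
      funext X
      simp [pow_succ]
    refine ⟨_, by rw [h2]; exact h, ?_⟩
    intro ξ
    simp only [sumConj, sum_range_succ] at hL' ⊢
    simp only [id_eq, add_apply, smul_apply,
      ContinuousLinearMap.coe_id', smul_eq_mul, MulOpposite.smul_eq_mul_unop]
    rw [show (L (ξ * ↑u)) = _ from hL' ξ]
    simp only [add_mul, pow_succ, Units.val_mul, Units.val_pow_eq_pow_val, mul_assoc]
    have : ((u⁻¹ : Rˣ) : R) ^ n * ((u : R) ^ n * (u : R)) = (u : R) := by
      rw [← mul_assoc, ← Units.val_pow_eq_pow_val, ← Units.val_pow_eq_pow_val, ← Units.val_mul]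
      simp
    rw [this]
    simp [add_comm]

/-- `T_k(u) ξ`, the logarithmic derivative of `u ↦ u ^ k` in the direction `ξ u`. -/
def logp (k : ℤ) (u : Rˣ) (ξ : R) : R :=
  if 0 ≤ k then sumConj k.toNat u ξ
  else - sumConj (-k).toNat u⁻¹ (((u⁻¹ : Rˣ) : R) * ξ * (u : R))

theorem hasFDerivAt_zp (k : ℤ) (u : Rˣ) :
    ∃ L : R →L[ℂ] R, HasFDerivAt (fun X : R => zp k X) L (u : R) ∧
      ∀ ξ : R, L (ξ * u) = logp k u ξ * ((u ^ k : Rˣ) : R) := by
  by_cases hk : 0 ≤ k
  · obtain ⟨L, hL, hL'⟩ := hasFDerivAt_npow (R := R) k.toNat u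
    refine ⟨L, ?_, ?_⟩
    · simpa [zp, hk] using hL
    · intro ξ
      rw [hL' ξ]
      obtain ⟨n, rfl⟩ := Int.eq_ofNat_of_zero_le hk
      simp [logp]
  · obtain ⟨L, hL, hL'⟩ := hasFDerivAt_npow (R := R) (-k).toNat u⁻¹
    have hinv := hasFDerivAt_ringInverse (𝕜 := ℂ) u
    have hL2 : HasFDerivAt (fun X : R => X ^ (-k).toNat) L (Ring.inverse (u : R)) := by
      rw [Ring.inverse_unit]; exact hL
    have hcomp := hL2.comp (u : R) hinv
    have hfun : (fun X : R => zp k X) = (fun X : R => X ^ (-k).toNat) ∘ Ring.inverse := by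
      funext X
      simp [zp, hk]
    rw [← hfun] at hcomp
    refine ⟨_, hcomp, ?_⟩
    · intro ξ
      have h' : 0 ≤ -k := by omega
      obtain ⟨n, hn⟩ := Int.eq_ofNat_of_zero_le h'
      have hkn : k = -(n : ℤ) := by omega
      have h1 : (-ContinuousLinearMap.mulLeftRight ℂ R ↑u⁻¹ ↑u⁻¹) (ξ * (u : R)) =
          (-(((u⁻¹ : Rˣ) : R) * ξ * (u : R))) * ((u⁻¹ : Rˣ) : R) := by
        simp [mul_assoc]
      rw [ContinuousLinearMap.comp_apply, h1, hL']
      simp only [logp, hk, if_false]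
      congr 1
      · simp [sumConj]
      · congr 1
        subst hkn
        simp

end Crest.Agent.R174.G4
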