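import Mathlib

/-!
# R174, block G4b (helper850), part 1: determinant of a block triangular endomorphism of a product.
-/

set_option autoImplicit false

noncomputable section

namespace Crest.Agent.R174.G4

open Matrix

variable {ι : Type*} [Fintype ι] [LinearOrder ι] {V : ι → Type*}
  [∀ i, AddCommGroup (V i)] [∀ i, Module ℂ (V i)] [∀ i, FiniteDimensional ℂ (V i)]

/-- the diagonal block -/
def diagBlock (T : ((i : ι) → V i) →ₗ[ℂ] ((i : ι) → V i)) (x : ι) : V x →ₗ[ℂ] V x :=
  (LinearMap.proj x) ∘ₗ T ∘ₗ (LinearMap.single ℂ V x)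

theorem det_of_triangular (T : ((i : ι) → V i) →ₗ[ℂ] ((i : ι) → V i))
    (hT : ∀ (x i : ι), x < i → ∀ v : V i, T (Pi.single i v) x = 0) :
    LinearMap.det T = ∏ x, LinearMap.det (diagBlock T x) := by
  classical
  let b : (i : ι) → Module.Basis (Fin (Module.finrank ℂ (V i))) ℂ (V i) :=
    fun i => Module.finBasis ℂ (V i)
  let B := Pi.basis b
  have hentry : ∀ (p q : Σ i, Fin (Module.finrank ℂ (V i))),
      LinearMap.toMatrix B B T p q = (b p.1).repr (T (Pi.single q.1 (b q.1 q.2)) p.1) p.2 := by
    intro p q
    rw [LinearMap.toMatrix_apply]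
    simp only [B, Pi.basis_repr]
    rw [Pi.basis_apply]
  rw [← LinearMap.det_toMatrix B T]
  let f : (Σ i, Fin (Module.finrank ℂ (V i))) → ιᵒᵈ := fun p => OrderDual.toDual p.1
  have htri : (LinearMap.toMatrix B B T).BlockTriangular f := by
    intro p q hpq
    have hlt : p.1 < q.1 := hpq
    rw [hentry, hT p.1 q.1 hlt]
    simp
  rw [htri.det_fintype]
  have hk : ∀ x : ι, ((LinearMap.toMatrix B B T).toSquareBlock f (OrderDual.toDual x)).det =
      LinearMap.det (diagBlock T x) := by
    intro x
    rw [← LinearMap.det_toMatrix (b x)]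
    let e : Fin (Module.finrank ℂ (V x)) ≃ {a // f a = OrderDual.toDual x} :=
      { toFun := fun a => ⟨⟨x, a⟩, rfl⟩
        invFun := fun a => Fin.cast (by
          have h : a.1.1 = x := a.2
          rw [h]) a.1.2
        left_inv := fun a => by simp
        right_inv := fun a => by
          obtain ⟨⟨y, a⟩, ha⟩ := a
          have h : y = x := ha
          subst h
          simp }
    rw [← Matrix.det_submatrix_equiv_self e]
    congr 1
    ext a c
    simp only [Matrix.submatrix_apply, Matrix.toSquareBlock_def, Matrix.of_apply]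
    rw [hentry, LinearMap.toMatrix_apply]
    rfl
  exact (Fintype.prod_equiv OrderDual.toDual (fun x => LinearMap.det (diagBlock T x))
    (fun k => ((LinearMap.toMatrix B B T).toSquareBlock f k).det) (fun x => (hk x).symm)).symm

end Crest.Agent.R174.G4
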