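import Mathlib

set_option autoImplicit false
open Matrix Finset

namespace Crest.Agent.R174.GRDet

variable {n : Type*} [Fintype n] [DecidableEq n]

/-- `X ↦ A * X * B` as a `ℂ`-linear endomorphism of matrices. -/
noncomputable def twoSided (A B : Matrix n n ℂ) : Module.End ℂ (Matrix n n ℂ) :=
  LinearMap.mulLeft ℂ A * LinearMap.mulRight ℂ B

@[simp] theorem twoSided_apply (A B X : Matrix n n ℂ) : twoSided A B X = A * X * B := by
  simp [twoSided, Matrix.mul_assoc]

theorem twoSided_mul (A B A' B' : Matrix n n ℂ) :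
    twoSided A B * twoSided A' B' = twoSided (A * A') (B' * B) := by
  ext1 X; simp [Matrix.mul_assoc]

theorem twoSided_one : twoSided (1 : Matrix n n ℂ) 1 = 1 := by
  ext1 X; simp

theorem toMatrix_stdBasis_apply (f : Module.End ℂ (Matrix n n ℂ)) (p q : n × n) :
    LinearMap.toMatrix (Matrix.stdBasis ℂ n n) (Matrix.stdBasis ℂ n n) f p q
      = f (Matrix.single q.1 q.2 1) p.1 p.2 := by
  rw [LinearMap.toMatrix_apply]
  rcases q with ⟨k, l⟩
  rw [Matrix.stdBasis_eq_single]
  rfl

/-- `det (X ↦ A X) = det A ^ n`. -/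
theorem det_mulLeft (A : Matrix n n ℂ) :
    LinearMap.det (LinearMap.mulLeft ℂ A) = A.det ^ Fintype.card n := by
  rw [← LinearMap.det_toMatrix (Matrix.stdBasis ℂ n n)]
  have : LinearMap.toMatrix (Matrix.stdBasis ℂ n n) (Matrix.stdBasis ℂ n n)
      (LinearMap.mulLeft ℂ A) = Matrix.kroneckerMap (· * ·) A (1 : Matrix n n ℂ) := by
    ext ⟨i, j⟩ ⟨k, l⟩
    rw [toMatrix_stdBasis_apply]
    by_cases h : j = l
    · subst h; simp
    · simp [h]
  rw [this, Matrix.det_kronecker]
  simp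

theorem det_mulRight (A : Matrix n n ℂ) :
    LinearMap.det (LinearMap.mulRight ℂ A) = A.det ^ Fintype.card n := by
  rw [← LinearMap.det_toMatrix (Matrix.stdBasis ℂ n n)]
  have : LinearMap.toMatrix (Matrix.stdBasis ℂ n n) (Matrix.stdBasis ℂ n n)
      (LinearMap.mulRight ℂ A) = Matrix.kroneckerMap (· * ·) (1 : Matrix n n ℂ) Aᵀ := by
    ext ⟨i, j⟩ ⟨k, l⟩
    rw [toMatrix_stdBasis_apply]
    by_cases h : i = k
    · subst h; simp
    · simp [h]
  rw [this, Matrix.det_kronecker]
  simp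

theorem det_twoSided (A B : Matrix n n ℂ) :
    LinearMap.det (twoSided A B) = (A.det * B.det) ^ Fintype.card n := by
  rw [twoSided, map_mul, det_mulLeft, det_mulRight, mul_pow]

/-- `X ↦ σ X σᴴ`. -/
noncomputable def ad (σ : Matrix n n ℂ) : Module.End ℂ (Matrix n n ℂ) := twoSided σ σᴴ

@[simp] theorem ad_apply (σ X : Matrix n n ℂ) : ad σ X = σ * X * σᴴ := by simp [ad]

theorem ad_pow (σ : Matrix n n ℂ) (j : ℕ) : ad σ ^ j = twoSided (σ ^ j) (σᴴ ^ j) := by
  induction j with
  | zero => simp [twoSided_one]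
  | succ j ih => rw [pow_succ, ih, ad, twoSided_mul, pow_succ, pow_succ' σᴴ]

/-- `X ↦ ∑_{j<k} σ^j X (σᴴ)^j`. -/
noncomputable def adSum (k : ℕ) (σ : Matrix n n ℂ) : Module.End ℂ (Matrix n n ℂ) :=
  ∑ j ∈ range k, ad σ ^ j

theorem adSum_apply (k : ℕ) (σ X : Matrix n n ℂ) :
    adSum k σ X = ∑ j ∈ range k, σ ^ j * X * σᴴ ^ j := by
  simp [adSum, ad_pow]

/-- The Frobenius square norm, as a real number. -/
noncomputable def frob (X : Matrix n n ℂ) : ℝ := ∑ i, ∑ j, ‖X i j‖ ^ 2

omit [DecidableEq n] in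
theorem frob_eq_trace (X : Matrix n n ℂ) : (frob X : ℂ) = (Xᴴ * X).trace := by
  simp only [frob, Matrix.trace, Matrix.diag, Matrix.mul_apply, Matrix.conjTranspose_apply]
  push_cast
  rw [Finset.sum_comm]
  refine Finset.sum_congr rfl fun i _ => Finset.sum_congr rfl fun j _ => ?_
  have h : star (X j i) * X j i = ((‖X j i‖ ^ 2 : ℝ) : ℂ) := by
    rw [← Complex.normSq_eq_norm_sq, Complex.normSq_eq_conj_mul_self]; rfl
  rw [h]; push_cast; rfl

omit [DecidableEq n] in
theorem frob_eq_zero {X : Matrix n n ℂ} (h : frob X = 0) : X = 0 := by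
  ext i j
  unfold frob at h
  rw [Finset.sum_eq_zero_iff_of_nonneg (fun i _ => Finset.sum_nonneg fun j _ => by positivity)] at h
  have h1 := h i (Finset.mem_univ _)
  rw [Finset.sum_eq_zero_iff_of_nonneg (fun j _ => by positivity)] at h1
  have h2 := h1 j (Finset.mem_univ _)
  simpa using h2

omit [DecidableEq n] in
theorem frob_smul (r : ℝ) (X : Matrix n n ℂ) : frob ((r : ℂ) • X) = r ^ 2 * frob X := by
  simp [frob, mul_pow, Finset.mul_sum]

theorem frob_conj {σ : Matrix n n ℂ} (hσ : σ ∈ Matrix.unitaryGroup n ℂ) (X : Matrix n n ℂ) :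
    frob (σ * X * σᴴ) = frob X := by
  have h1 : σᴴ * σ = 1 := Matrix.mem_unitaryGroup_iff'.1 hσ
  have : ((frob (σ * X * σᴴ) : ℝ) : ℂ) = (frob X : ℝ) := by
    rw [frob_eq_trace, frob_eq_trace]
    rw [Matrix.conjTranspose_mul, Matrix.conjTranspose_mul, Matrix.conjTranspose_conjTranspose]
    have : σ * (Xᴴ * σᴴ) * (σ * X * σᴴ) = σ * (Xᴴ * X * σᴴ) := by
      calc σ * (Xᴴ * σᴴ) * (σ * X * σᴴ) = σ * (Xᴴ * (σᴴ * σ) * (X * σᴴ)) := by
            simp only [Matrix.mul_assoc]
        _ = σ * (Xᴴ * X * σᴴ) := by rw [h1, Matrix.mul_one, Matrix.mul_assoc]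
    rw [this, Matrix.trace_mul_comm, Matrix.mul_assoc, h1, Matrix.mul_one]
  exact_mod_cast this

/-- The damped sum `X ↦ ∑_{j<k} r^j σ^j X (σᴴ)^j`. -/
noncomputable def damped (k : ℕ) (σ : Matrix n n ℂ) (r : ℝ) : Module.End ℂ (Matrix n n ℂ) :=
  ∑ j ∈ range k, ((r : ℂ) • ad σ) ^ j

theorem damped_one (k : ℕ) (σ : Matrix n n ℂ) : damped k σ 1 = adSum k σ := by
  simp [damped, adSum]

theorem damped_zero {k : ℕ} (hk : 0 < k) (σ : Matrix n n ℂ) : damped k σ 0 = 1 := by
  obtain ⟨k, rfl⟩ : ∃ m, k = m + 1 := ⟨k - 1, by omega⟩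
  simp [damped, Finset.sum_range_succ']

theorem pow_apply_frob {σ : Matrix n n ℂ} (hσ : σ ∈ Matrix.unitaryGroup n ℂ) (r : ℝ) (k : ℕ)
    (X : Matrix n n ℂ) : frob ((((r : ℂ) • ad σ) ^ k) X) = (r ^ k) ^ 2 * frob X := by
  induction k with
  | zero => simp
  | succ k ih =>
    rw [pow_succ', Module.End.mul_apply, LinearMap.smul_apply, frob_smul, ad_apply, frob_conj hσ, ih]
    ring

theorem damped_det_ne_zero {k : ℕ} (hk : 0 < k) {σ : Matrix n n ℂ}
    (hσ : σ ∈ Matrix.unitaryGroup n ℂ) {r : ℝ} (hr0 : 0 ≤ r) (hr : r < 1) :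
    LinearMap.det (damped k σ r) ≠ 0 := by
  have hinj : Function.Injective
      (((r : ℂ) • ad σ) ^ k - 1 : Module.End ℂ (Matrix n n ℂ)) := by
    rw [injective_iff_map_eq_zero]
    intro X hX
    have h1 : (((r : ℂ) • ad σ) ^ k) X = X := by
      simpa [sub_eq_zero] using hX
    have h2 := pow_apply_frob hσ r k X
    rw [h1] at h2
    have h3 : (r ^ k) ^ 2 < 1 := by
      rw [← pow_mul]
      exact pow_lt_one₀ hr0 hr (by omega)
    have h4 : frob X = 0 := by
      have : (1 - (r ^ k) ^ 2) * frob X = 0 := by linarith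
      rcases mul_eq_zero.1 this with h | h
      · linarith
      · exact h
    exact frob_eq_zero h4
  have hdet : LinearMap.det (((r : ℂ) • ad σ) ^ k - 1 : Module.End ℂ (Matrix n n ℂ)) ≠ 0 := by
    intro h0
    exact (LinearMap.bot_lt_ker_of_det_eq_zero h0).ne' (LinearMap.ker_eq_bot.2 hinj)
  rw [← geom_sum_mul, map_mul] at hdet
  exact left_ne_zero_of_mul hdet

/-- `det` of an endomorphism commuting with `X ↦ Xᴴ` is real. -/
theorem det_conj_of_commute {f : Module.End ℂ (Matrix n n ℂ)}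
    (hf : ∀ X, f Xᴴ = (f X)ᴴ) : (starRingEnd ℂ) (LinearMap.det f) = LinearMap.det f := by
  rw [← LinearMap.det_toMatrix (Matrix.stdBasis ℂ n n)]
  rw [RingHom.map_det]
  have : (starRingEnd ℂ).mapMatrix
      (LinearMap.toMatrix (Matrix.stdBasis ℂ n n) (Matrix.stdBasis ℂ n n) f)
      = (LinearMap.toMatrix (Matrix.stdBasis ℂ n n) (Matrix.stdBasis ℂ n n) f).submatrix
        (Equiv.prodComm n n) (Equiv.prodComm n n) := by
    ext ⟨i, j⟩ ⟨k, l⟩
    rw [RingHom.mapMatrix_apply, Matrix.map_apply, Matrix.submatrix_apply,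
      toMatrix_stdBasis_apply, toMatrix_stdBasis_apply]
    simp only [Equiv.prodComm_apply, Prod.swap]
    have : (Matrix.single l k (1 : ℂ)) = (Matrix.single k l (1 : ℂ))ᴴ := by
      rw [Matrix.conjTranspose_single]; simp
    rw [this, hf]
    simp [Matrix.conjTranspose_apply]
  rw [this, Matrix.det_submatrix_equiv_self]

theorem damped_conjTranspose (k : ℕ) (σ : Matrix n n ℂ) (r : ℝ) (X : Matrix n n ℂ) :
    damped k σ r Xᴴ = (damped k σ r X)ᴴ := by
  have h1 : ∀ (j : ℕ) (X : Matrix n n ℂ),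
      (((r : ℂ) • ad σ) ^ j) Xᴴ = ((((r : ℂ) • ad σ) ^ j) X)ᴴ := by
    intro j
    induction j with
    | zero => intro X; simp
    | succ j ih =>
      intro X
      rw [pow_succ, Module.End.mul_apply, Module.End.mul_apply, ← ih]
      congr 1
      simp [Matrix.mul_assoc]
  simp only [damped, LinearMap.sum_apply, Matrix.conjTranspose_sum]
  exact Finset.sum_congr rfl fun j _ => h1 j X

theorem continuous_damped_det (k : ℕ) :
    Continuous fun p : Matrix n n ℂ × ℝ => LinearMap.det (damped k p.1 p.2) := by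
  have : (fun p : Matrix n n ℂ × ℝ => LinearMap.det (damped k p.1 p.2))
    = fun p : Matrix n n ℂ × ℝ => (LinearMap.toMatrix (Matrix.stdBasis ℂ n n)
      (Matrix.stdBasis ℂ n n) (damped k p.1 p.2)).det := by
    funext p
    rw [LinearMap.det_toMatrix]
  rw [this]
  refine Continuous.matrix_det ?_
  refine continuous_matrix fun i j => ?_
  simp only [toMatrix_stdBasis_apply]
  simp only [damped, smul_pow, ad_pow, LinearMap.sum_apply, LinearMap.smul_apply, twoSided_apply]
  refine Continuous.matrix_elem ?_ _ _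
  fun_prop

theorem damped_det_re_pos {k : ℕ} (hk : 0 < k) {σ : Matrix n n ℂ}
    (hσ : σ ∈ Matrix.unitaryGroup n ℂ) {r : ℝ} (hr0 : 0 ≤ r) (hr : r < 1) :
    0 < (LinearMap.det (damped k σ r)).re := by
  have him : ∀ r : ℝ, (LinearMap.det (damped k σ r)).im = 0 := fun r =>
    Complex.conj_eq_iff_im.1 (det_conj_of_commute (damped_conjTranspose k σ r))
  have hcont : Continuous fun r : ℝ => (LinearMap.det (damped k σ r)).re := by
    have := (continuous_damped_det (n := n) k).comp
      (continuous_const.prodMk continuous_id : Continuous fun r : ℝ => (σ, r))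
    exact Complex.continuous_re.comp this
  by_contra hneg
  push Not at hneg
  have h0 : (LinearMap.det (damped k σ 0)).re = 1 := by
    rw [damped_zero hk]; simp
  have hmem : (0 : ℝ) ∈ Set.Icc (LinearMap.det (damped k σ r)).re
      (LinearMap.det (damped k σ 0)).re := ⟨hneg, by rw [h0]; norm_num⟩
  obtain ⟨s, hs, hs0⟩ := intermediate_value_Icc' hr0 hcont.continuousOn hmem
  exact damped_det_ne_zero hk hσ hs.1 (lt_of_le_of_lt hs.2 hr) (Complex.ext hs0 (by simp [him s]))

/-- **G5.** For unitary `σ`, `det_ℂ (X ↦ ∑_{j<k} σ^j X σ^{-j})` is a nonnegative real. -/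
theorem det_adSum_nonneg (k : ℕ) {σ : Matrix n n ℂ} (hσ : σ ∈ Matrix.unitaryGroup n ℂ) :
    0 ≤ (LinearMap.det (adSum k σ)).re ∧ (LinearMap.det (adSum k σ)).im = 0 := by
  have him : (LinearMap.det (adSum k σ)).im = 0 := by
    rw [← damped_one]
    exact Complex.conj_eq_iff_im.1 (det_conj_of_commute (damped_conjTranspose k σ 1))
  refine ⟨?_, him⟩
  rcases Nat.eq_zero_or_pos k with rfl | hk
  · have : adSum 0 σ = (0 : Module.End ℂ (Matrix n n ℂ)) := by simp [adSum]
    rw [this, LinearMap.det_zero]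
    rcases Nat.eq_zero_or_pos (Module.finrank ℂ (Matrix n n ℂ)) with h | h
    · rw [h]; simp
    · rw [zero_pow h.ne']; simp
  · have hcont : Continuous fun r : ℝ => (LinearMap.det (damped k σ r)).re := by
      have := (continuous_damped_det (n := n) k).comp
        (continuous_const.prodMk continuous_id : Continuous fun r : ℝ => (σ, r))
      exact Complex.continuous_re.comp this
    rw [← damped_one]
    have hclosed : IsClosed {r : ℝ | 0 ≤ (LinearMap.det (damped k σ r)).re} :=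
      isClosed_le continuous_const hcont
    have hsub : Set.Ico (0 : ℝ) 1 ⊆ {r : ℝ | 0 ≤ (LinearMap.det (damped k σ r)).re} :=
      fun r hr => (damped_det_re_pos hk hσ hr.1 hr.2).le
    have h1 : (1 : ℝ) ∈ closure (Set.Ico (0 : ℝ) 1) := by
      rw [closure_Ico (by norm_num)]; exact ⟨by norm_num, le_refl _⟩
    exact hclosed.closure_subset_iff.2 hsub h1

theorem adSum_one (k : ℕ) : adSum k (1 : Matrix n n ℂ) = (k : ℂ) • (1 : Module.End ℂ _) := by
  ext1 X
  rw [adSum_apply]
  simp only [one_pow, Matrix.one_mul, Matrix.conjTranspose_one, Matrix.mul_one,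
    Finset.sum_const, Finset.card_range, LinearMap.smul_apply, Module.End.one_apply]
  exact (Nat.cast_smul_eq_nsmul ℂ k X).symm

theorem det_adSum_one (k : ℕ) :
    LinearMap.det (adSum k (1 : Matrix n n ℂ)) = (k : ℂ) ^ (Fintype.card n * Fintype.card n) := by
  rw [adSum_one, LinearMap.det_smul]
  simp [Module.finrank_matrix]

theorem continuous_det_adSum (k : ℕ) :
    Continuous fun σ : Matrix n n ℂ => LinearMap.det (adSum k σ) := by
  have := (continuous_damped_det (n := n) k).comp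
    (continuous_id.prodMk continuous_const : Continuous fun σ : Matrix n n ℂ => (σ, (1 : ℝ)))
  refine this.congr fun σ => ?_
  simp [damped_one]

end Crest.Agent.R174.GRDet
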