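import Mathlib
import Crest.Agent.R174.G4Defs
import Crest.Agent.R174.G4Tri
import Crest.Agent.R174.G4Log
import Crest.Agent.R174.GRDet

/-!
# R174, block G4b (helper850), part 3: evaluation of `DD Φ₁`.
-/

set_option autoImplicit false
set_option linter.unusedSectionVars false
set_option linter.unusedSimpArgs false
set_option linter.unusedVariables false
open scoped Matrix.Norms.L2Operator

noncomputable section

namespace Crest.Agent.R174.GR

open Crest.Agent.R174.G4 Matrix Finset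

variable {ι A Q : Type} [Fintype ι] [LinearOrder ι] [Fintype A] [DecidableEq A]
  [Fintype Q] [DecidableEq Q]

omit [Fintype ι] [DecidableEq Q] in
theorem Sys.W_zero [DecidableEq Q] (S : Sys ι A Q) {x i : ι} (q : Q)
    (h : ¬ ∃ q, S.rel q = i ∧ S.var q = x) :
    S.W x i q = 0 := by
  ext p a
  simp only [Sys.W, Matrix.of_apply, Matrix.zero_apply, ite_eq_right_iff, one_ne_zero, imp_false]
  intro hp
  apply h
  refine ⟨p.1.2, ?_, p.2.2⟩
  rw [← p.2.1, hp]
  exact a.2

theorem Sys.W_orth (S : Sys ι A Q) {x i j : ι} (q q' : Q) (hij : i ≠ j) :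
    (S.W x i q)ᵀ * S.W x j q' = 0 := by
  ext a b
  rw [Matrix.mul_apply]
  apply Finset.sum_eq_zero
  intro p _
  simp only [Matrix.transpose_apply, Sys.W, Matrix.of_apply]
  by_cases h1 : p.1 = (a.1, q)
  · by_cases h2 : p.1 = (b.1, q')
    · exfalso
      apply hij
      have : a.1 = b.1 := by
        have := h1.symm.trans h2
        exact (Prod.mk.inj this).1
      rw [← a.2, ← b.2, this]
    · simp [h2]
  · simp [h1]

/-- the inclusion of faces as ports -/
def Sys.port (S : Sys ι A Q) {x i : ι} {q : Q} (hq : S.rel q = i ∧ S.var q = x) (a : S.Fa i) :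
    S.Po x := ⟨(a.1, q), by rw [hq.1]; exact a.2, hq.2⟩

theorem Sys.W_eq (S : Sys ι A Q) {x i : ι} {q : Q} (hq : S.rel q = i ∧ S.var q = x) :
    S.W x i q = (1 : Matrix (S.Po x) (S.Po x) ℂ).submatrix id (S.port hq) := by
  ext p a
  simp only [Sys.W, Matrix.of_apply, Matrix.submatrix_apply, id, Matrix.one_apply]
  congr 1
  apply propext
  constructor
  · intro h; exact Subtype.ext h
  · intro h; rw [h]; rfl

theorem Sys.port_injective (S : Sys ι A Q) {x i : ι} {q : Q} (hq : S.rel q = i ∧ S.var q = x) :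
    Function.Injective (S.port hq) := by
  intro a b h
  have := congrArg (fun p : S.Po x => p.1.1) h
  exact Subtype.ext this

theorem Sys.compress_eq (S : Sys ι A Q) {x i : ι} {q : Q} (hq : S.rel q = i ∧ S.var q = x)
    (Y : Matrix (S.Po x) (S.Po x) ℂ) :
    (S.W x i q)ᵀ * Y * S.W x i q = Y.submatrix (S.port hq) (S.port hq) := by
  rw [S.W_eq hq]
  rw [Matrix.transpose_submatrix, Matrix.transpose_one]
  have h1 : (1 : Matrix (S.Po x) (S.Po x) ℂ).submatrix (S.port hq) id * Y =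
      Y.submatrix (S.port hq) id := by
    have := (Matrix.submatrix_mul (1 : Matrix (S.Po x) (S.Po x) ℂ) Y (S.port hq) id id
      Function.bijective_id)
    rw [Matrix.one_mul] at this
    rw [this]
    simp
  rw [h1]
  have := (Matrix.submatrix_mul Y (1 : Matrix (S.Po x) (S.Po x) ℂ) (S.port hq) id (S.port hq)
      Function.bijective_id)
  rw [Matrix.mul_one] at this
  rw [this]

theorem Sys.W_self (S : Sys ι A Q) {x i : ι} {q : Q} (hq : S.rel q = i ∧ S.var q = x) :
    (S.W x i q)ᵀ * S.W x i q = 1 := by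
  have := S.compress_eq hq (1 : Matrix (S.Po x) (S.Po x) ℂ)
  rw [Matrix.mul_one] at this
  rw [this]
  ext a b
  simp only [Matrix.submatrix_apply, Matrix.one_apply]
  congr 1
  exact propext (S.port_injective hq).eq_iff

theorem Sys.W_three (S : Sys ι A Q) {q0 : ι → Q} {r : ι → ι → Q} (hr : S.RefOK q0 r) (x i : ι) :
    S.W x i (r x i) * ((S.W x i (r x i))ᵀ * S.W x i (r x i)) = S.W x i (r x i) := by
  by_cases h : ∃ q, S.rel q = i ∧ S.var q = x
  · rw [S.W_self (hr.2 x i h), Matrix.mul_one]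
  · rw [S.W_zero _ h]; simp

/-- `Y ↦ W Y Wᵀ` as continuous linear map -/
def Sys.embL (S : Sys ι A Q) (x i : ι) (q : Q) :
    Matrix (S.Fa i) (S.Fa i) ℂ →L[ℂ] Matrix (S.Po x) (S.Po x) ℂ :=
  LinearMap.toContinuousLinearMap
    { toFun := fun Y => S.W x i q * Y * (S.W x i q)ᵀ
      map_add' := fun Y Z => by rw [Matrix.mul_add, Matrix.add_mul]
      map_smul' := fun c Y => by simp }

theorem Sys.embL_apply (S : Sys ι A Q) (x i : ι) (q : Q) (Y : Matrix (S.Fa i) (S.Fa i) ℂ) :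
    S.embL x i q Y = S.W x i q * Y * (S.W x i q)ᵀ := rfl

/-- products of embedded matrices -/
theorem Sys.embL_mul (S : Sys ι A Q) {q0 : ι → Q} {r : ι → ι → Q} (hr : S.RefOK q0 r)
    (x i j : ι) (Y : Matrix (S.Fa i) (S.Fa i) ℂ) (Z : Matrix (S.Fa i) (S.Fa i) ℂ) :
    S.embL x i (r x i) Y * S.embL x i (r x i) Z = S.embL x i (r x i) (Y * Z) := by
  simp only [Sys.embL_apply]
  by_cases h : ∃ q, S.rel q = i ∧ S.var q = x
  · have := S.W_self (hr.2 x i h)
    calc S.W x i (r x i) * Y * (S.W x i (r x i))ᵀ * (S.W x i (r x i) * Z * (S.W x i (r x i))ᵀ)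
        = S.W x i (r x i) * Y * ((S.W x i (r x i))ᵀ * S.W x i (r x i)) * Z *
          (S.W x i (r x i))ᵀ := by simp only [Matrix.mul_assoc]
      _ = _ := by rw [this]; simp only [Matrix.mul_assoc, Matrix.mul_one, Matrix.one_mul]
  · simp [S.W_zero _ h]

theorem Sys.embL_mul_ne (S : Sys ι A Q) (x i j : ι) (hij : i ≠ j) (q q' : Q)
    (Y : Matrix (S.Fa i) (S.Fa i) ℂ) (Z : Matrix (S.Fa j) (S.Fa j) ℂ) :
    S.embL x i q Y * S.embL x j q' Z = 0 := by
  simp only [Sys.embL_apply]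
  have := S.W_orth (x := x) q q' hij
  calc S.W x i q * Y * (S.W x i q)ᵀ * (S.W x j q' * Z * (S.W x j q')ᵀ)
        = S.W x i q * Y * ((S.W x i q)ᵀ * S.W x j q') * Z * (S.W x j q')ᵀ := by
          simp only [Matrix.mul_assoc]
      _ = _ := by rw [this]; simp

/-- `1 + ∑ i, W (Y i - 1) Wᵀ` -/
def Sys.lift (S : Sys ι A Q) (r : ι → ι → Q) (x : ι)
    (Y : (i : ι) → Matrix (S.Fa i) (S.Fa i) ℂ) : Matrix (S.Po x) (S.Po x) ℂ :=
  1 + ∑ i, S.embL x i (r x i) (Y i - 1)

theorem Sys.sum_mul_sum (S : Sys ι A Q) {q0 : ι → Q} {r : ι → ι → Q} (hr : S.RefOK q0 r)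
    (x : ι) (Y Z : (i : ι) → Matrix (S.Fa i) (S.Fa i) ℂ) :
    (∑ i, S.embL x i (r x i) (Y i)) * (∑ i, S.embL x i (r x i) (Z i)) =
      ∑ i, S.embL x i (r x i) (Y i * Z i) := by
  rw [Finset.sum_mul_sum]
  refine Finset.sum_congr rfl fun i _ => ?_
  rw [Finset.sum_eq_single i]
  · exact S.embL_mul hr x i i _ _
  · intro j _ hj
    exact S.embL_mul_ne x i j (Ne.symm hj) _ _ _ _
  · intro h; exact absurd (Finset.mem_univ i) h

theorem Sys.mul_lift (S : Sys ι A Q) {q0 : ι → Q} {r : ι → ι → Q} (hr : S.RefOK q0 r)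
    (x : ι) (T Y : (i : ι) → Matrix (S.Fa i) (S.Fa i) ℂ) :
    (∑ i, S.embL x i (r x i) (T i)) * S.lift r x Y = ∑ i, S.embL x i (r x i) (T i * Y i) := by
  rw [Sys.lift, mul_add, mul_one, S.sum_mul_sum hr, ← Finset.sum_add_distrib]
  refine Finset.sum_congr rfl fun i _ => ?_
  rw [← map_add]
  congr 1
  rw [mul_sub, mul_one]
  abel

theorem Sys.lift_mul (S : Sys ι A Q) {q0 : ι → Q} {r : ι → ι → Q} (hr : S.RefOK q0 r)
    (x : ι) (Y Z : (i : ι) → Matrix (S.Fa i) (S.Fa i) ℂ) :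
    S.lift r x Y * S.lift r x Z = S.lift r x (fun i => Y i * Z i) := by
  conv_lhs => rw [Sys.lift, add_mul, one_mul, S.mul_lift hr]
  rw [Sys.lift, Sys.lift, add_assoc, ← Finset.sum_add_distrib]
  congr 1
  refine Finset.sum_congr rfl fun i _ => ?_
  rw [← map_add]
  congr 1
  rw [sub_mul, one_mul]
  abel

theorem Sys.lift_one (S : Sys ι A Q) (r : ι → ι → Q) (x : ι) :
    S.lift r x (fun _ => 1) = 1 := by
  simp [Sys.lift]

theorem Sys.Phi1_eq_lift (S : Sys ι A Q) (r : ι → ι → Q) (X : S.KA) (x : ι) :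
    S.Phi1 r X x = S.lift r x (fun i => zp (S.E i x) (X i)) := rfl

theorem Sys.Phi1_unit (S : Sys ι A Q) {q0 : ι → Q} {r : ι → ι → Q} (hr : S.RefOK q0 r)
    (u : (i : ι) → (Matrix (S.Fa i) (S.Fa i) ℂ)ˣ) :
    IsUnit (S.Phi1 r (fun i => (u i : Matrix (S.Fa i) (S.Fa i) ℂ))) := by
  rw [Pi.isUnit_iff]
  intro x
  rw [S.Phi1_eq_lift]
  refine IsUnit.of_mul_eq_one (S.lift r x (fun i => ((u i ^ (-(S.E i x)) : _ˣ) :
    Matrix (S.Fa i) (S.Fa i) ℂ))) ?_
  rw [S.lift_mul hr]
  conv_rhs => rw [← S.lift_one r x]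
  congr 1
  funext i
  rw [zp_unit, ← Units.val_mul, ← _root_.zpow_add]
  simp

theorem Sys.hasFDerivAt_Phi1 (S : Sys ι A Q) (r : ι → ι → Q)
    (u : (i : ι) → (Matrix (S.Fa i) (S.Fa i) ℂ)ˣ) :
    ∃ L : S.KA →L[ℂ] S.VA, HasFDerivAt (S.Phi1 r) L (fun i => (u i : Matrix (S.Fa i) (S.Fa i) ℂ)) ∧
      ∀ ξ : S.KA, ∀ x, L (ξ * fun i => (u i : Matrix (S.Fa i) (S.Fa i) ℂ)) x =
        ∑ i, S.embL x i (r x i) (logp (S.E i x) (u i) (ξ i) * ((u i ^ (S.E i x) : _ˣ) :
          Matrix (S.Fa i) (S.Fa i) ℂ)) := by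
  have hL : ∀ (x i : ι), ∃ L : Matrix (S.Fa i) (S.Fa i) ℂ →L[ℂ] Matrix (S.Fa i) (S.Fa i) ℂ,
      HasFDerivAt (fun X => zp (S.E i x) X) L (u i : Matrix (S.Fa i) (S.Fa i) ℂ) ∧
      ∀ ξ, L (ξ * (u i : Matrix (S.Fa i) (S.Fa i) ℂ)) =
        logp (S.E i x) (u i) ξ * ((u i ^ (S.E i x) : _ˣ) : Matrix (S.Fa i) (S.Fa i) ℂ) :=
    fun x i => hasFDerivAt_zp (S.E i x) (u i)
  choose L hL1 hL2 using hL
  refine ⟨ContinuousLinearMap.pi fun x => ∑ i, (S.embL x i (r x i)).comp
    ((L x i).comp (ContinuousLinearMap.proj i)), ?_, ?_⟩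
  · rw [hasFDerivAt_pi]
    intro x
    have h1 : (fun X : S.KA => S.Phi1 r X x) = fun X => (1 : Matrix (S.Po x) (S.Po x) ℂ) +
        ∑ i, (S.embL x i (r x i)) (zp (S.E i x) (X i) - 1) := by
      funext X; rfl
    rw [h1]
    apply HasFDerivAt.const_add
    apply HasFDerivAt.fun_sum
    intro i _
    apply (S.embL x i (r x i)).hasFDerivAt.comp
    apply HasFDerivAt.sub_const
    have h2 : HasFDerivAt (𝕜 := ℂ) (fun X : S.KA => X i) (ContinuousLinearMap.proj i)
      (fun i => (u i : Matrix (S.Fa i) (S.Fa i) ℂ)) := hasFDerivAt_apply i _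
    exact HasFDerivAt.comp (g := fun X => zp (S.E i x) X) (f := fun X : S.KA => X i)
      (fun i => (u i : Matrix (S.Fa i) (S.Fa i) ℂ)) (hL1 x i) h2
  · intro ξ x
    simp only [ContinuousLinearMap.pi_apply, _root_.sum_apply,
      ContinuousLinearMap.comp_apply, ContinuousLinearMap.proj_apply, Pi.mul_apply]
    refine Finset.sum_congr rfl fun i _ => ?_
    rw [hL2]

theorem Sys.Aop_Phi1 (S : Sys ι A Q) {q0 : ι → Q} {r : ι → ι → Q} (hr : S.RefOK q0 r)
    (u : (i : ι) → (Matrix (S.Fa i) (S.Fa i) ℂ)ˣ) (ξ : S.KA) (x : ι) :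
    Aop (S.Phi1 r) (fun i => (u i : Matrix (S.Fa i) (S.Fa i) ℂ)) ξ x =
      ∑ i, S.embL x i (r x i) (logp (S.E i x) (u i) (ξ i)) := by
  obtain ⟨L, hL1, hL2⟩ := S.hasFDerivAt_Phi1 r u
  have h1 : Aop (S.Phi1 r) (fun i => (u i : Matrix (S.Fa i) (S.Fa i) ℂ)) ξ =
      L (ξ * fun i => (u i : Matrix (S.Fa i) (S.Fa i) ℂ)) *
        Ring.inverse (S.Phi1 r (fun i => (u i : Matrix (S.Fa i) (S.Fa i) ℂ))) := by
    simp only [Aop, LinearMap.coe_mk, AddHom.coe_mk]
    rw [hL1.fderiv]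
  have h2 : L (ξ * fun i => (u i : Matrix (S.Fa i) (S.Fa i) ℂ)) =
      (fun x => ∑ i, S.embL x i (r x i) (logp (S.E i x) (u i) (ξ i)) : S.VA) *
        S.Phi1 r (fun i => (u i : Matrix (S.Fa i) (S.Fa i) ℂ)) := by
    funext x
    rw [hL2, Pi.mul_apply, S.Phi1_eq_lift, S.mul_lift hr]
    simp only [zp_unit]
  rw [h1, h2, mul_assoc, Ring.mul_inverse_cancel _ (S.Phi1_unit hr u), mul_one]

/-- `logp` as a linear endomorphism -/
def logpLin {n : Type} [Fintype n] [DecidableEq n] (k : ℤ) (u : (Matrix n n ℂ)ˣ) :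
    Module.End ℂ (Matrix n n ℂ) where
  toFun v := logp k u v
  map_add' v w := by
    simp only [logp, sumConj]
    split_ifs
    · simp [mul_add, add_mul, Finset.sum_add_distrib]
    · simp [mul_add, add_mul, Finset.sum_add_distrib]
      abel
  map_smul' c v := by
    simp only [logp, sumConj]
    split_ifs
    · simp [Finset.smul_sum]
    · simp [Finset.smul_sum]

theorem logp_zero {n : Type} [Fintype n] [DecidableEq n] (u : (Matrix n n ℂ)ˣ) (v : Matrix n n ℂ) :
    logp 0 u v = 0 := by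
  simp [logp, sumConj]

/-- sign factor -/
def sg (k : ℤ) (n : ℕ) : ℂ := if 0 ≤ k then 1 else (-1) ^ (n * n)

theorem sg_ne_zero (k : ℤ) (n : ℕ) : sg k n ≠ 0 := by
  unfold sg
  split_ifs
  · exact one_ne_zero
  · exact pow_ne_zero _ (by norm_num)

/-- nonnegative real factor -/
def rr {n : Type} [Fintype n] [DecidableEq n] (k : ℤ) (σ : Matrix n n ℂ) : ℝ :=
  if 0 ≤ k then (LinearMap.det (GRDet.adSum k.toNat σ)).re
  else (LinearMap.det (GRDet.adSum (-k).toNat σᴴ)).re

theorem rr_continuous {n : Type} [Fintype n] [DecidableEq n] (k : ℤ) :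
    Continuous fun σ : Matrix n n ℂ => rr k σ := by
  unfold rr
  split_ifs
  · exact Complex.continuous_re.comp (GRDet.continuous_det_adSum _)
  · exact Complex.continuous_re.comp ((GRDet.continuous_det_adSum _).comp
      continuous_id.matrix_conjTranspose)

theorem rr_nonneg {n : Type} [Fintype n] [DecidableEq n] (k : ℤ) {σ : Matrix n n ℂ}
    (hσ : σ ∈ Matrix.unitaryGroup n ℂ) : 0 ≤ rr k σ := by
  unfold rr
  split_ifs
  · exact (GRDet.det_adSum_nonneg _ hσ).1
  · exact (GRDet.det_adSum_nonneg _ (Unitary.star_mem hσ)).1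

theorem rr_one_pos {n : Type} [Fintype n] [DecidableEq n] {k : ℤ} (hk : k ≠ 0) :
    0 < rr k (1 : Matrix n n ℂ) := by
  unfold rr
  have h : ∀ m : ℕ, m ≠ 0 → 0 < (LinearMap.det (GRDet.adSum m (1 : Matrix n n ℂ))).re := by
    intro m hm
    rw [GRDet.det_adSum_one]
    rw [← Nat.cast_pow, Complex.natCast_re]
    have : 0 < m ^ (Fintype.card n * Fintype.card n) := Nat.pos_of_ne_zero (pow_ne_zero _ hm)
    exact_mod_cast this
  split_ifs with h0
  · exact h _ (by omega)
  · rw [Matrix.conjTranspose_one]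
    exact h _ (by omega)

theorem det_logpLin {n : Type} [Fintype n] [DecidableEq n] (k : ℤ) (u : (Matrix n n ℂ)ˣ)
    (hu : (u : Matrix n n ℂ) ∈ Matrix.unitaryGroup n ℂ) :
    LinearMap.det (logpLin k u) = sg k (Fintype.card n) * (rr k (u : Matrix n n ℂ) : ℂ) := by
  have hinv : ((u⁻¹ : (Matrix n n ℂ)ˣ) : Matrix n n ℂ) = (u : Matrix n n ℂ)ᴴ :=
    Units.inv_eq_of_mul_eq_one_right (Matrix.mem_unitaryGroup_iff.mp hu)
  by_cases hk : 0 ≤ k
  · have h1 : logpLin k u = GRDet.adSum k.toNat (u : Matrix n n ℂ) := by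
      ext1 v
      rw [GRDet.adSum_apply]
      simp only [logpLin, LinearMap.coe_mk, AddHom.coe_mk, logp, hk, if_true, sumConj]
      refine Finset.sum_congr rfl fun j _ => ?_
      rw [Units.val_pow_eq_pow_val, Units.val_pow_eq_pow_val, hinv]
    rw [h1]
    simp only [sg, rr, hk, if_true, one_mul]
    apply Complex.ext
    · simp
    · simpa using (GRDet.det_adSum_nonneg k.toNat hu).2
  · have h1 : logpLin k u = (-1 : ℂ) • (GRDet.adSum (-k).toNat (u : Matrix n n ℂ)ᴴ *
        GRDet.ad (u : Matrix n n ℂ)ᴴ) := by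
      ext1 v
      rw [LinearMap.smul_apply, Module.End.mul_apply, GRDet.adSum_apply, GRDet.ad_apply]
      simp only [logpLin, LinearMap.coe_mk, AddHom.coe_mk, logp, hk, if_false, sumConj]
      rw [neg_one_smul]
      congr 1
      refine Finset.sum_congr rfl fun j _ => ?_
      rw [Units.val_pow_eq_pow_val, Units.val_pow_eq_pow_val, inv_inv, hinv,
        Matrix.conjTranspose_conjTranspose]
    rw [h1, LinearMap.det_smul, map_mul]
    have h2 : LinearMap.det (GRDet.ad (u : Matrix n n ℂ)ᴴ) = 1 := by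
      rw [GRDet.ad, GRDet.det_twoSided, ← Matrix.det_mul, Matrix.conjTranspose_conjTranspose]
      have : (u : Matrix n n ℂ)ᴴ * (u : Matrix n n ℂ) = 1 := Matrix.mem_unitaryGroup_iff'.mp hu
      rw [this]; simp
    rw [h2, mul_one, Module.finrank_matrix]
    simp only [sg, rr, hk, if_false, Module.finrank_self, mul_one]
    congr 1
    apply Complex.ext
    · simp
    · have := (GRDet.det_adSum_nonneg (-k).toNat (Unitary.star_mem hu)).2
      rw [Matrix.star_eq_conjTranspose] at this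
      simpa using this

/-- compression of `U` -/
def Sys.Bc (S : Sys ι A Q) {q0 : ι → Q} (hq : ∀ x, S.rel (q0 x) = x ∧ S.var (q0 x) = x)
    (U : S.VA) (x : ι) : Matrix (S.Fa x) (S.Fa x) ℂ :=
  (U x).submatrix (S.port (hq x)) (S.port (hq x))

theorem Sys.det_block (S : Sys ι A Q) (h0 : ∀ i x, x < i → S.E i x = 0)
    {q0 : ι → Q} (hq : ∀ x, S.rel (q0 x) = x ∧ S.var (q0 x) = x)
    {r : ι → ι → Q} (hr : S.RefOK q0 r)
    (u : (i : ι) → (Matrix (S.Fa i) (S.Fa i) ℂ)ˣ) (U : S.VA) :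
    LinearMap.det (Cop (S.refR q0 hq) U ∘ₗ
      Aop (S.Phi1 r) (fun i => (u i : Matrix (S.Fa i) (S.Fa i) ℂ))) =
    ∏ x, (((S.Bc hq U x)ᴴ.det * (S.Bc hq U x).det) ^ (Fintype.card (S.Fa x)) *
      LinearMap.det (logpLin (S.E x x) (u x))) := by
  have hT : ∀ (ξ : S.KA) (x : ι), (Cop (S.refR q0 hq) U ∘ₗ
      Aop (S.Phi1 r) (fun i => (u i : Matrix (S.Fa i) (S.Fa i) ℂ))) ξ x =
      ((U x)ᴴ * (∑ i, S.embL x i (r x i) (logp (S.E i x) (u i) (ξ i))) * U x).submatrix
        (S.port (hq x)) (S.port (hq x)) := by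
    intro ξ x
    rw [← S.Aop_Phi1 hr u ξ x]
    rfl
  rw [det_of_triangular]
  · refine Finset.prod_congr rfl fun x _ => ?_
    have hd : diagBlock (Cop (S.refR q0 hq) U ∘ₗ
      Aop (S.Phi1 r) (fun i => (u i : Matrix (S.Fa i) (S.Fa i) ℂ))) x =
        GRDet.twoSided (S.Bc hq U x)ᴴ (S.Bc hq U x) * logpLin (S.E x x) (u x) := by
      ext1 v
      rw [Module.End.mul_apply, GRDet.twoSided_apply]
      have h1 : diagBlock (Cop (S.refR q0 hq) U ∘ₗ
        Aop (S.Phi1 r) (fun i => (u i : Matrix (S.Fa i) (S.Fa i) ℂ))) x v =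
        (Cop (S.refR q0 hq) U ∘ₗ
        Aop (S.Phi1 r) (fun i => (u i : Matrix (S.Fa i) (S.Fa i) ℂ))) (Pi.single x v) x := rfl
      rw [h1, hT]
      have h2 : (∑ i, S.embL x i (r x i) (logp (S.E i x) (u i)
          ((Pi.single x v : S.KA) i))) = S.embL x x (r x x) (logp (S.E x x) (u x) v) := by
        rw [Finset.sum_eq_single x]
        · rw [Pi.single_eq_same]
        · intro i _ hi
          rw [Pi.single_eq_of_ne hi]
          have : logp (S.E i x) (u i) (0 : Matrix (S.Fa i) (S.Fa i) ℂ) = 0 :=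
            (logpLin (S.E i x) (u i)).map_zero
          rw [this, map_zero]
        · intro h; exact absurd (Finset.mem_univ x) h
      rw [h2, hr.1 x]
      have h3 : (S.Bc hq U x)ᴴ = (S.W x x (q0 x))ᵀ * (U x)ᴴ * S.W x x (q0 x) := by
        rw [S.compress_eq (hq x)]
        rfl
      have h4 : (S.Bc hq U x) = (S.W x x (q0 x))ᵀ * (U x) * S.W x x (q0 x) := by
        rw [S.compress_eq (hq x)]
        rfl
      rw [h3, h4, ← S.compress_eq (hq x), Sys.embL_apply]
      simp only [Matrix.mul_assoc]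
      rfl
    rw [hd, map_mul, GRDet.det_twoSided]
  · intro x i hxi v
    rw [hT]
    have h2 : (∑ j, S.embL x j (r x j) (logp (S.E j x) (u j)
          ((Pi.single i v : S.KA) j))) = 0 := by
      apply Finset.sum_eq_zero
      intro j _
      by_cases hj : j = i
      · subst hj
        rw [h0 j x hxi, logp_zero, map_zero]
      · rw [Pi.single_eq_of_ne hj]
        have : logp (S.E j x) (u j) (0 : Matrix (S.Fa j) (S.Fa j) ℂ) = 0 :=
            (logpLin (S.E j x) (u j)).map_zero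
        rw [this, map_zero]
    rw [h2]
    simp

theorem integral_pos_of_one {𝔸 : Type} [NormedRing 𝔸] [StarRing 𝔸] [CStarRing 𝔸]
    [NormedAlgebra ℂ 𝔸] [StarModule ℂ 𝔸] [FiniteDimensional ℂ 𝔸] (f : 𝔸 → ℝ)
    (hf : Continuous f) (hnn : ∀ σ ∈ unitary 𝔸, 0 ≤ f σ) (h1 : 0 < f 1) :
    0 < ∫ σ : UG 𝔸, f σ.val ∂(haarU 𝔸) := by
  have hc : Continuous fun σ : UG 𝔸 => f σ.val := hf.comp UG.continuous_val
  refine hc.integral_pos_of_hasCompactSupport_nonneg_nonzero (x := (1 : UG 𝔸))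
    (HasCompactSupport.of_compactSpace _) (fun σ => hnn _ σ.val_mem) ?_
  have : (1 : UG 𝔸).val = 1 := rfl
  rw [this]
  exact h1.ne'

theorem G4b_holds (S : Sys ι A Q) : G4b S := by
  intro h0 hd q0 hq r hr
  have hpt : ∀ (σ : UG S.KA) (U : UG S.VA),
      LinearMap.det (Cop (S.refR q0 hq) U.val ∘ₗ Aop (S.Phi1 r) σ.val) =
      ((∏ x, sg (S.E x x) (Fintype.card (S.Fa x))) * ((∏ x, rr (S.E x x) (σ.val x) : ℝ) : ℂ)) *
        ((∏ x, (Complex.normSq (S.Bc hq U.val x).det) ^ (Fintype.card (S.Fa x)) : ℝ) : ℂ) := by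
    intro σ U
    have hσ : ∀ x, σ.val x ∈ Matrix.unitaryGroup (S.Fa x) ℂ := by
      intro x
      have h := σ.val_mem
      rw [Unitary.mem_iff] at h ⊢
      exact ⟨congrFun h.1 x, congrFun h.2 x⟩
    obtain ⟨u, hu⟩ : ∃ u : (i : ι) → (Matrix (S.Fa i) (S.Fa i) ℂ)ˣ,
        ∀ i, (u i : Matrix (S.Fa i) (S.Fa i) ℂ) = σ.val i :=
      ⟨fun i => Unitary.toUnits ⟨σ.val i, hσ i⟩, fun i => rfl⟩
    have hu' : σ.val = fun i => (u i : Matrix (S.Fa i) (S.Fa i) ℂ) := funext fun i => (hu i).symm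
    rw [hu', S.det_block h0 hq hr u U.val]
    rw [Finset.prod_mul_distrib]
    have h1 : ∀ x, LinearMap.det (logpLin (S.E x x) (u x)) =
        sg (S.E x x) (Fintype.card (S.Fa x)) *
          (rr (S.E x x) (u x : Matrix (S.Fa x) (S.Fa x) ℂ) : ℂ) := by
      intro x
      apply det_logpLin
      rw [hu x]
      exact hσ x
    rw [Finset.prod_congr rfl (fun x _ => h1 x)]
    rw [Finset.prod_mul_distrib]
    have h2 : ∀ x, (S.Bc hq U.val x)ᴴ.det * (S.Bc hq U.val x).det =
        ((Complex.normSq (S.Bc hq U.val x).det : ℝ) : ℂ) := by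
      intro x
      rw [Matrix.det_conjTranspose, Complex.normSq_eq_conj_mul_self]
      rfl
    rw [Finset.prod_congr rfl (fun x _ => by rw [h2 x])]
    push_cast
    ring
  unfold DD
  simp only [hpt]
  simp only [MeasureTheory.integral_const_mul, MeasureTheory.integral_mul_const]
  refine mul_ne_zero (mul_ne_zero ?_ ?_) ?_
  · exact Finset.prod_ne_zero_iff.mpr fun x _ => sg_ne_zero _ _
  · rw [integral_complex_ofReal]
    have := integral_pos_of_one (𝔸 := S.KA) (fun σ => ∏ x, rr (S.E x x) (σ x))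
      (by
        apply continuous_finsetProd
        intro x _
        exact (rr_continuous _).comp (continuous_apply x))
      (by
        intro σ hσ
        apply Finset.prod_nonneg
        intro x _
        apply rr_nonneg
        rw [Unitary.mem_iff] at hσ ⊢
        exact ⟨congrFun hσ.1 x, congrFun hσ.2 x⟩)
      (by
        apply Finset.prod_pos
        intro x _
        exact rr_one_pos (hd x))
    exact_mod_cast this.ne'
  · rw [integral_complex_ofReal]
    have := integral_pos_of_one (𝔸 := S.VA)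
      (fun U => ∏ x, (Complex.normSq (S.Bc hq U x).det) ^ (Fintype.card (S.Fa x)))
      (by
        apply continuous_finsetProd
        intro x _
        apply Continuous.pow
        apply Complex.continuous_normSq.comp
        apply Continuous.matrix_det
        exact (continuous_apply x).matrix_submatrix _ _)
      (by
        intro σ _
        apply Finset.prod_nonneg
        intro x _
        exact pow_nonneg (Complex.normSq_nonneg _) _)
      (by
        apply Finset.prod_pos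
        intro x _
        apply pow_pos
        rw [Complex.normSq_pos]
        have : S.Bc hq 1 x = 1 := by
          ext a b
          simp only [Sys.Bc, Pi.one_apply, Matrix.submatrix_apply, Matrix.one_apply]
          congr 1
          exact propext (S.port_injective (hq x)).eq_iff
        rw [this, Matrix.det_one]
        exact one_ne_zero)
    exact_mod_cast this.ne'

end Crest.Agent.R174.GR
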