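import Crest.Agent.R174.G4a661

/-!
# R174, block G4a (helper661), analytic part: rotation homotopy `DD J = DD Φ₁`.
-/

set_option autoImplicit false
set_option linter.unusedSectionVars false
open MeasureTheory Matrix
open scoped Matrix.Norms.L2Operator Topology

noncomputable section

namespace Crest.Agent.R174.G4a

open Crest.Agent.R174.GR

section congr

variable {𝔸 : Type} [NormedRing 𝔸] [StarRing 𝔸] [CStarRing 𝔸] [NormedAlgebra ℂ 𝔸]
  [StarModule ℂ 𝔸] [FiniteDimensional ℂ 𝔸]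
variable {𝕍 : Type} [NormedRing 𝕍] [StarRing 𝕍] [CStarRing 𝕍] [NormedAlgebra ℂ 𝕍]
  [StarModule ℂ 𝕍] [FiniteDimensional ℂ 𝕍]

/-- `DD` only depends on the germs of `Φ` at the unitary elements -/
theorem DD_congr (ρ : 𝕍 →ₗ[ℂ] 𝔸) (Φ Ψ : 𝔸 → 𝕍)
    (h : ∀ σ ∈ unitary 𝔸, Φ =ᶠ[𝓝 σ] Ψ) : DD ρ Φ = DD ρ Ψ := by
  unfold DD
  congr 1
  funext σ
  have : Aop Φ σ.val = Aop Ψ σ.val := by
    apply LinearMap.ext
    intro ξ
    show fderiv ℂ Φ σ.val (ξ * σ.val) * Ring.inverse (Φ σ.val) =
      fderiv ℂ Ψ σ.val (ξ * σ.val) * Ring.inverse (Ψ σ.val)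
    rw [(h _ σ.val_mem).fderiv_eq, (h _ σ.val_mem).eq_of_nhds]
  rw [this]

end congr

variable {ι A Q : Type} [Fintype ι] [LinearOrder ι] [Fintype A] [DecidableEq A]
  [Fintype Q] [DecidableEq Q]

variable {S : Sys ι A Q}

theorem isUnit_of_unitary {X : S.KA} (hX : X ∈ unitary S.KA) : IsUnit X :=
  IsUnit.of_mul_eq_one _ (Unitary.mul_star_self_of_mem hX)

theorem eventually_isUnit {X : S.KA} (hX : X ∈ unitary S.KA) : ∀ᶠ Y in 𝓝 X, IsUnit Y := by
  have : CompleteSpace S.KA := FiniteDimensional.complete ℂ _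
  exact Units.isOpen.mem_nhds (isUnit_of_unitary hX)

/-- the factor of the homotopy at position `q` -/
def fac (S : Sys ι A Q) (x : ι) (ρ : Q → Q) (q : Q) (z : ℂ × S.KA) :
    Matrix (S.Po x) (S.Po x) ℂ :=
  if S.var q = x then
    1 + Pth S x ρ q z.1 * ((if S.pos q then z.2 (S.rel q) else Ring.inverse (z.2 (S.rel q))) - 1)
      * (Pth S x ρ q z.1)ᵀ
  else 1

/-- the rotation homotopy -/
def Psi (S : Sys ι A Q) (ρ : Q → Q) (z : ℂ × S.KA) : S.VA := fun x =>
  (Finset.univ.toList.map (fun q => fac S x ρ q z)).prod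

theorem Psi_zero (ρ : Q → Q) (X : S.KA) (hX : IsUnit X) : Psi S ρ (0, X) = S.Jm X := by
  funext x
  have hX' : ∀ i, IsUnit (X i) := Pi.isUnit_iff.1 hX
  rw [Jm_eq_diagQ]
  have h := prod_elem (S := S) (x := x) id (fun _ => rfl) (fun _ => rfl) X hX' Finset.univ.toList
  have h2 : diagQ x (fun q => (X (S.rel q)) ^ (sg S q)) =
      diagQ x (fun r => (X (S.rel r)) ^ (cnt S x id Finset.univ.toList r)) := by
    apply diagQ_congr
    intro q hq
    rw [cnt_id q hq]
  rw [h2, ← h]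
  unfold Psi
  congr 2
  funext q
  unfold fac
  simp only [Pth_zero, sg_zpow, id]

theorem Psi_one {q0 : ι → Q} (R : RefMap S q0) (X : S.KA) (hX : IsUnit X) :
    Psi S R.r (1, X) = Phi1 R X := by
  funext x
  have hX' : ∀ i, IsUnit (X i) := Pi.isUnit_iff.1 hX
  rw [Phi1_eq_diagQ]
  have h := prod_elem (S := S) (x := x) R.r R.rel_r R.var_r X hX' Finset.univ.toList
  have h2 : diagQ x (fun q => (X (S.rel q)) ^ (R.kk q)) =
      diagQ x (fun r => (X (S.rel r)) ^ (cnt S x R.r Finset.univ.toList r)) := by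
    apply diagQ_congr
    intro q hq
    rw [cnt_ref R q hq]
  rw [h2, ← h]
  unfold Psi
  congr 2
  funext q
  unfold fac
  simp only [Pth_one, sg_zpow]

theorem Psi_isUnit (ρ : Q → Q) (hrel : ∀ q, S.rel (ρ q) = S.rel q)
    (hvar : ∀ q, S.var (ρ q) = S.var q) (s : ℂ) (X : S.KA) (hX : IsUnit X) :
    IsUnit (Psi S ρ (s, X)) := by
  have hX' : ∀ i, IsUnit (X i) := Pi.isUnit_iff.1 hX
  apply Pi.isUnit_iff.2
  intro x
  unfold Psi
  have : ∀ L : List Q, IsUnit ((L.map (fun q => fac S x ρ q (s, X))).prod) := by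
    intro L
    induction L with
    | nil => simp
    | cons q L ih =>
      rw [List.map_cons, List.prod_cons]
      refine IsUnit.mul ?_ ih
      unfold fac
      split_ifs with h1 h2
      · exact isUnit_elem _ (Pth_isometry ρ hrel hvar q h1 s) _ (hX' _)
      · refine isUnit_elem _ (Pth_isometry ρ hrel hvar q h1 s) _ ?_
        obtain ⟨u, hu⟩ := hX' (S.rel q)
        change IsUnit (Ring.inverse (X (S.rel q)))
        rw [← hu, Ring.inverse_unit]
        exact u⁻¹.isUnit
      · exact isUnit_one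
  exact this _

/-- smoothness of a linear map between matrix spaces -/
theorem contDiff_linear {m n : Type} [Fintype m] [DecidableEq m] [Fintype n] [DecidableEq n]
    (T : Matrix n n ℂ →ₗ[ℂ] Matrix m m ℂ) {k : WithTop ℕ∞} : ContDiff ℂ k T := by
  have : (T : Matrix n n ℂ → Matrix m m ℂ) = (LinearMap.toContinuousLinearMap T) := by
    funext; simp
  rw [this]
  exact ContinuousLinearMap.contDiff _

/-- the linear map `Y ↦ P * Y * R` -/
def sandwich {m n : Type} [Fintype m] [DecidableEq m] [Fintype n] [DecidableEq n]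
    (P : Matrix m n ℂ) (R : Matrix n m ℂ) : Matrix n n ℂ →ₗ[ℂ] Matrix m m ℂ where
  toFun Y := P * Y * R
  map_add' Y Z := by rw [Matrix.mul_add, Matrix.add_mul]
  map_smul' c Y := by simp

theorem fac_contDiffAt (x : ι) (ρ : Q → Q) (q : Q) (s : ℂ) (X : S.KA) (hX : IsUnit X) :
    ContDiffAt ℂ ⊤ (fac S x ρ q) (s, X) := by
  have hX' : ∀ i, IsUnit (X i) := Pi.isUnit_iff.1 hX
  by_cases hv : S.var q = x
  swap
  · have : fac S x ρ q = fun _ => 1 := by funext z; unfold fac; rw [if_neg hv]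
    rw [this]; exact contDiffAt_const
  -- the middle factor
  have hpr : ContDiffAt ℂ ⊤ (fun z : ℂ × S.KA => z.2 (S.rel q)) (s, X) := by
    have h1 : ContDiff ℂ ⊤ (fun z : ℂ × S.KA => z.2) := contDiff_snd
    have h2 : ContDiff ℂ ⊤ (fun y : S.KA => y (S.rel q)) :=
      (ContinuousLinearMap.proj (R := ℂ) (φ := fun i => Matrix (S.Fa i) (S.Fa i) ℂ)
        (S.rel q)).contDiff
    exact (h2.comp h1).contDiffAt
  have hmid : ContDiffAt ℂ ⊤ (fun z : ℂ × S.KA =>
      (if S.pos q then z.2 (S.rel q) else Ring.inverse (z.2 (S.rel q))) - 1) (s, X) := by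
    split_ifs with h
    · exact hpr.sub contDiffAt_const
    · refine ContDiffAt.sub ?_ contDiffAt_const
      obtain ⟨u, hu⟩ := hX' (S.rel q)
      have : CompleteSpace (Matrix (S.Fa (S.rel q)) (S.Fa (S.rel q)) ℂ) :=
        FiniteDimensional.complete ℂ _
      have h3 : ContDiffAt ℂ ⊤ Ring.inverse (u : Matrix (S.Fa (S.rel q)) (S.Fa (S.rel q)) ℂ) :=
        contDiffAt_ringInverse ℂ u
      rw [hu] at h3
      exact ContDiffAt.comp (s, X) h3 hpr
  set M : ℂ × S.KA → Matrix (S.Fa (S.rel q)) (S.Fa (S.rel q)) ℂ := fun z =>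
      (if S.pos q then z.2 (S.rel q) else Ring.inverse (z.2 (S.rel q))) - 1 with hM
  have hlin : ∀ T : Matrix (S.Fa (S.rel q)) (S.Fa (S.rel q)) ℂ →ₗ[ℂ]
      Matrix (S.Po x) (S.Po x) ℂ, ContDiffAt ℂ ⊤ (fun z => T (M z)) (s, X) := by
    intro T
    exact (contDiff_linear T).contDiffAt.comp (s, X) hmid
  have hcos : ContDiffAt ℂ ⊤ (fun z : ℂ × S.KA => Complex.cos (z.1 * (Real.pi / 2))) (s, X) :=
    (Complex.contDiff_cos.comp (contDiff_fst.mul contDiff_const)).contDiffAt
  have hsin : ContDiffAt ℂ ⊤ (fun z : ℂ × S.KA => Complex.sin (z.1 * (Real.pi / 2))) (s, X) :=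
    (Complex.contDiff_sin.comp (contDiff_fst.mul contDiff_const)).contDiffAt
  by_cases hρ : ρ q = q
  · have : fac S x ρ q = fun z => 1 +
        sandwich (inc S x (S.rel q) q) (inc S x (S.rel q) q)ᵀ (M z) := by
      funext z
      unfold fac
      rw [if_pos hv]
      unfold Pth
      rw [if_pos hρ]
      rfl
    rw [this]
    exact contDiffAt_const.add (hlin _)
  · have : fac S x ρ q = fun z => 1 +
        ((Complex.cos (z.1 * (Real.pi / 2)) * Complex.cos (z.1 * (Real.pi / 2))) •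
          sandwich (inc S x (S.rel q) q) (inc S x (S.rel q) q)ᵀ (M z) +
        (Complex.cos (z.1 * (Real.pi / 2)) * Complex.sin (z.1 * (Real.pi / 2))) •
          sandwich (inc S x (S.rel q) q) (inc S x (S.rel q) (ρ q))ᵀ (M z) +
        (Complex.sin (z.1 * (Real.pi / 2)) * Complex.cos (z.1 * (Real.pi / 2))) •
          sandwich (inc S x (S.rel q) (ρ q)) (inc S x (S.rel q) q)ᵀ (M z) +
        (Complex.sin (z.1 * (Real.pi / 2)) * Complex.sin (z.1 * (Real.pi / 2))) •
          sandwich (inc S x (S.rel q) (ρ q)) (inc S x (S.rel q) (ρ q))ᵀ (M z)) := by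
      funext z
      unfold fac
      rw [if_pos hv]
      unfold Pth
      rw [if_neg hρ]
      congr 1
      change (Complex.cos (z.1 * (Real.pi / 2)) • inc S x (S.rel q) q +
          Complex.sin (z.1 * (Real.pi / 2)) • inc S x (S.rel q) (ρ q)) * M z *
          (Complex.cos (z.1 * (Real.pi / 2)) • inc S x (S.rel q) q +
          Complex.sin (z.1 * (Real.pi / 2)) • inc S x (S.rel q) (ρ q))ᵀ = _
      simp only [sandwich, LinearMap.coe_mk, AddHom.coe_mk, Matrix.transpose_add,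
        Matrix.transpose_smul, Matrix.add_mul, Matrix.mul_add, Matrix.smul_mul, Matrix.mul_smul,
        smul_smul, smul_add]
      rw [mul_comm (Complex.sin (z.1 * (Real.pi / 2))) (Complex.cos (z.1 * (Real.pi / 2)))]
      abel
    rw [this]
    refine contDiffAt_const.add ?_
    refine ((ContDiffAt.add ?_ ?_).add ?_).add ?_
    · exact (hcos.mul hcos).smul (hlin _)
    · exact (hcos.mul hsin).smul (hlin _)
    · exact (hsin.mul hcos).smul (hlin _)
    · exact (hsin.mul hsin).smul (hlin _)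

theorem Psi_contDiffAt (ρ : Q → Q) (s : ℂ) (X : S.KA) (hX : IsUnit X) :
    ContDiffAt ℂ ⊤ (Psi S ρ) (s, X) := by
  apply contDiffAt_pi.2
  intro x
  unfold Psi
  have : ∀ L : List Q, ContDiffAt ℂ ⊤ (fun z => (L.map (fun q => fac S x ρ q z)).prod)
      (s, X) := by
    intro L
    induction L with
    | nil => simp only [List.map_nil, List.prod_nil]; exact contDiffAt_const
    | cons q L ih =>
      simp only [List.map_cons, List.prod_cons]
      exact (fac_contDiffAt x ρ q s X hX).mul ih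
  exact this _

/-- **Block G4a.** -/
theorem T3a_of_T1 (S : Sys ι A Q) (h1 : T1 S.KA S.VA)
    (h0 : ∀ ξ : S.KA, LinearMap.trace ℂ S.KA (LinearMap.mulLeft ℂ ξ - LinearMap.mulRight ℂ ξ) = 0) :
    T3a S := by
  intro q0 hq R
  have h := h1 h0 (S.refR q0 hq) (Psi S R.r)
    (fun s _ σ hσ => Psi_contDiffAt R.r s σ (isUnit_of_unitary hσ))
    (fun s _ σ hσ => Psi_isUnit R.r R.rel_r R.var_r s σ (isUnit_of_unitary hσ))
  rw [DD_congr (S.refR q0 hq) (fun X => Psi S R.r (0, X)) S.Jm, DD_congr (S.refR q0 hq)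
    (fun X => Psi S R.r (1, X)) (Phi1 R)] at h
  · exact h
  · intro σ hσ
    filter_upwards [eventually_isUnit hσ] with X hX
    exact Psi_one R X hX
  · intro σ hσ
    filter_upwards [eventually_isUnit hσ] with X hX
    exact Psi_zero R.r X hX

end Crest.Agent.R174.G4a
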