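import Mathlib
import Crest.Agent.R174.G4Eval
import Crest.Agent.R174.G4b661

/-!
# R174, block G4 (helper850): T3 from helper661's G4a and G4b.
-/

set_option autoImplicit false
set_option linter.unusedSectionVars false
open MeasureTheory Matrix
open scoped Matrix.Norms.L2Operator Topology

noncomputable section

namespace Crest.Agent.R174.GR

open Crest.Agent.R174.G4a

variable {ι A Q : Type} [Fintype ι] [LinearOrder ι] [Fintype A] [DecidableEq A]
  [Fintype Q] [DecidableEq Q]

/-- reference positions from a reference map -/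
def refOf {S : Sys ι A Q} {q0 : ι → Q} (R : RefMap S q0) (x i : ι) : Q :=
  open Classical in
  if h : ∃ q, S.rel q = i ∧ S.var q = x then R.r h.choose else q0 x

theorem refOf_eq {S : Sys ι A Q} {q0 : ι → Q} (R : RefMap S q0) (q : Q) :
    refOf R (S.var q) (S.rel q) = R.r q := by
  unfold refOf
  have h : ∃ q', S.rel q' = S.rel q ∧ S.var q' = S.var q := ⟨q, rfl, rfl⟩
  rw [dif_pos h]
  exact R.congr _ _ h.choose_spec.1 h.choose_spec.2

theorem refOf_ok {S : Sys ι A Q} {q0 : ι → Q} (hq : ∀ x, S.rel (q0 x) = x ∧ S.var (q0 x) = x)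
    (R : RefMap S q0) : S.RefOK q0 (refOf R) := by
  refine ⟨?_, ?_⟩
  · intro x
    have := refOf_eq R (q0 x)
    rw [(hq x).1, (hq x).2, R.r_q0] at this
    exact this
  · rintro x i ⟨q, rfl, rfl⟩
    rw [refOf_eq]
    exact ⟨R.rel_r q, R.var_r q⟩

theorem W_eq_inc (S : Sys ι A Q) (x i : ι) (q : Q) : S.W x i q = inc S x i q := by
  ext p a
  simp only [Sys.W, inc, Matrix.of_apply]
  congr 1
  apply propext
  constructor
  · intro h; rw [h]; exact ⟨rfl, rfl⟩
  · rintro ⟨h1, h2⟩; exact Prod.ext h2 h1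

theorem zp_eq_zpow {n : Type} [Fintype n] [DecidableEq n] (k : ℤ) {X : Matrix n n ℂ}
    (hX : IsUnit X) : zp k X = X ^ k := by
  obtain ⟨u, rfl⟩ := hX
  rw [zp_unit]
  cases k with
  | ofNat n => simp
  | negSucc n =>
    rw [_root_.zpow_negSucc, _root_.zpow_negSucc, Matrix.coe_units_inv, Units.val_pow_eq_pow_val]

theorem Phi1_link {S : Sys ι A Q} {q0 : ι → Q}
    (hq : ∀ x, S.rel (q0 x) = x ∧ S.var (q0 x) = x)
    (R : RefMap S q0) {X : S.KA} (hX : IsUnit X) : Phi1 R X = S.Phi1 (refOf R) X := by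
  funext x
  have hXi : ∀ i, IsUnit (X i) := fun i => (Pi.isUnit_iff.mp hX) i
  ext p p'
  unfold Sys.Phi1 Phi1
  rw [Matrix.add_apply, Matrix.sum_apply, Matrix.of_apply]
  simp only [W_eq_inc]
  have hother : ∀ i, i ≠ S.rel p.1.2 →
      (inc S x i (refOf R x i) * (zp (S.E i x) (X i) - 1) * (inc S x i (refOf R x i))ᵀ :
        Matrix (S.Po x) (S.Po x) ℂ) p p' = 0 := by
    intro i hi
    by_cases h : ∃ q, S.rel q = i ∧ S.var q = x
    · apply blk_apply_zero
      rintro ⟨h1, -⟩
      apply hi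
      rw [h1]
      exact ((refOf_ok hq R).2 x i h).1.symm
    · rw [← W_eq_inc, S.W_zero _ h]
      simp
  rw [Finset.sum_eq_single (S.rel p.1.2) (fun i _ hi => hother i hi)
    (fun h => absurd (Finset.mem_univ _) h)]
  have href : refOf R x (S.rel p.1.2) = R.r p.1.2 := by
    rw [← refOf_eq R p.1.2, p.2.2]
  rw [href]
  by_cases h : p.1.2 = p'.1.2
  · rw [dif_pos h]
    by_cases hr : R.r p.1.2 = p.1.2
    · have hkk : R.kk p.1.2 = S.E (S.rel p.1.2) x := by
        unfold RefMap.kk
        rw [if_pos hr, p.2.2]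
      rw [hkk, blk_apply _ _ _ p p' hr.symm (h ▸ hr.symm) (R.rel_r _), Matrix.sub_apply,
        zp_eq_zpow _ (hXi _), Matrix.one_apply, Matrix.one_apply]
      have : (p = p') ↔ ((⟨p.1.1, by exact p.2.1⟩ : S.Fa (S.rel p.1.2)) =
          ⟨p'.1.1, by rw [h]; exact p'.2.1⟩) := by
        constructor
        · intro h'; apply Subtype.ext; exact congrArg (fun p => p.1.1) h'
        · intro h'
          exact Subtype.ext (Prod.ext (congrArg Subtype.val h') h)
      by_cases hpp : p = p'
      · rw [if_pos hpp, if_pos (this.mp hpp)]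
        ring
      · rw [if_neg hpp, if_neg (fun h' => hpp (this.mpr h'))]
        ring
    · have hkk : R.kk p.1.2 = 0 := by
        unfold RefMap.kk
        rw [if_neg hr]
      rw [hkk, blk_apply_zero _ _ _ _ _ (fun h' => hr h'.1.symm), add_zero, zpow_zero,
        Matrix.one_apply, Matrix.one_apply]
      congr 1
      apply propext
      constructor
      · intro h'
        exact Subtype.ext (Prod.ext (congrArg Subtype.val h') h)
      · intro h'; apply Subtype.ext; exact congrArg (fun p => p.1.1) h'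
  · rw [dif_neg h, Matrix.one_apply, if_neg (fun h' => h (by rw [h'])),
      blk_apply_zero _ _ _ _ _ (fun h' => h (h'.1.trans h'.2.symm)), add_zero]

/-- **T3** (evaluation): `DD J ≠ 0`. -/
theorem T3_holds (S : Sys ι A Q) (h1 : T1 S.KA S.VA)
    (h0 : ∀ ξ : S.KA, LinearMap.trace ℂ S.KA (LinearMap.mulLeft ℂ ξ - LinearMap.mulRight ℂ ξ) = 0) :
    T3 S := by
  intro ht hd q0 hq
  let R := mkRef S q0 hq
  rw [T3a_of_T1 S h1 h0 q0 hq R]
  rw [DD_congr (S.refR q0 hq) (Phi1 R) (S.Phi1 (refOf R))]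
  · exact G4b_holds S ht hd q0 hq _ (refOf_ok hq R)
  · intro σ hσ
    filter_upwards [eventually_isUnit hσ] with X hX
    exact Phi1_link hq R hX

end Crest.Agent.R174.GR
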