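import Crest.Agent.R174.G4aDefs661

/-!
# R174, block G4a (helper661): rotation homotopy `DD J = DD Φ₁`.
-/

set_option autoImplicit false
set_option linter.unusedSectionVars false
open MeasureTheory Matrix
open scoped Matrix.Norms.L2Operator

noncomputable section

namespace Crest.Agent.R174.G4a

open Crest.Agent.R174.GR

variable {ι A Q : Type} [Fintype ι] [LinearOrder ι] [Fintype A] [DecidableEq A]
  [Fintype Q] [DecidableEq Q]

section algebra

variable (S : Sys ι A Q) (x : ι)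

/-- inclusion of the faces of type `i` at the position `q` -/
def inc (i : ι) (q : Q) : Matrix (S.Po x) (S.Fa i) ℂ :=
  Matrix.of fun p a => if p.1.2 = q ∧ p.1.1 = a.1 then 1 else 0

variable {S x}

theorem inc_t_mul_inc_self {i : ι} {q : Q} (hr : S.rel q = i) (hv : S.var q = x) :
    (inc S x i q)ᵀ * inc S x i q = 1 := by
  subst hr
  ext a b
  rw [Matrix.mul_apply, Matrix.one_apply]
  rw [Finset.sum_eq_single (⟨(a.1, q), a.2, hv⟩ : S.Po x)]
  · by_cases hab : a = b
    · subst hab; simp [inc]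
    · have : a.1 ≠ b.1 := fun h => hab (Subtype.ext h)
      simp [inc, hab, this]
  · intro p _ hp
    simp only [inc, Matrix.transpose_apply, Matrix.of_apply]
    rw [if_neg, zero_mul]
    rintro ⟨h1, h2⟩
    apply hp
    apply Subtype.ext
    exact Prod.ext h2 h1
  · intro h; exact absurd (Finset.mem_univ _) h

theorem inc_t_mul_inc_of_ne {i j : ι} {q r : Q} (h : q ≠ r) :
    (inc S x i q)ᵀ * inc S x j r = 0 := by
  ext a b
  rw [Matrix.mul_apply, Matrix.zero_apply]
  apply Finset.sum_eq_zero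
  intro p _
  simp only [inc, Matrix.transpose_apply, Matrix.of_apply]
  by_cases h1 : p.1.2 = q
  · have h2 : p.1.2 ≠ r := fun h3 => h (h1.symm.trans h3)
    simp [h2]
  · simp [h1]

theorem inc_eq_zero {i : ι} {q : Q} (hv : S.var q ≠ x) : inc S x i q = 0 := by
  ext p a
  simp only [inc, Matrix.of_apply, Matrix.zero_apply]
  rw [if_neg]
  rintro ⟨h1, -⟩
  exact hv (h1 ▸ p.2.2)

/-- entries of a block -/
theorem blk_apply (i : ι) (q : Q) (Y : Matrix (S.Fa i) (S.Fa i) ℂ) (p p' : S.Po x)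
    (h : p.1.2 = q) (h' : p'.1.2 = q) (hi : S.rel q = i) :
    (inc S x i q * Y * (inc S x i q)ᵀ) p p' =
      Y ⟨p.1.1, by rw [← hi, ← h]; exact p.2.1⟩ ⟨p'.1.1, by rw [← hi, ← h']; exact p'.2.1⟩ := by
  rw [Matrix.mul_apply, Finset.sum_eq_single
    (⟨p'.1.1, by rw [← hi, ← h']; exact p'.2.1⟩ : S.Fa i)]
  · rw [Matrix.mul_apply, Finset.sum_eq_single
      (⟨p.1.1, by rw [← hi, ← h]; exact p.2.1⟩ : S.Fa i)]
    · simp [inc, h, h']
    · intro b _ hb
      have : p.1.1 ≠ b.1 := fun h => hb (Subtype.ext h.symm)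
      simp [inc, this]
    · intro h; exact absurd (Finset.mem_univ _) h
  · intro b _ hb
    have : p'.1.1 ≠ b.1 := fun h => hb (Subtype.ext h.symm)
    simp [inc, this]
  · intro h; exact absurd (Finset.mem_univ _) h

theorem blk_apply_zero (i : ι) (q : Q) (Y : Matrix (S.Fa i) (S.Fa i) ℂ) (p p' : S.Po x)
    (h : ¬ (p.1.2 = q ∧ p'.1.2 = q)) :
    (inc S x i q * Y * (inc S x i q)ᵀ) p p' = 0 := by
  rw [Matrix.mul_apply]
  apply Finset.sum_eq_zero
  intro b _
  rw [Matrix.mul_apply, Finset.sum_mul]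
  apply Finset.sum_eq_zero
  intro a _
  simp only [inc, Matrix.transpose_apply, Matrix.of_apply]
  by_cases h1 : p.1.2 = q
  · have h2 : p'.1.2 ≠ q := fun h3 => h ⟨h1, h3⟩
    simp [h2]
  · simp [h1]

/-- block diagonal matrix with blocks `Y q` -/
def diagQ (x : ι) (Y : (q : Q) → Matrix (S.Fa (S.rel q)) (S.Fa (S.rel q)) ℂ) :
    Matrix (S.Po x) (S.Po x) ℂ :=
  ∑ q : Q, inc S x (S.rel q) q * Y q * (inc S x (S.rel q) q)ᵀ

theorem diagQ_apply (Y : (q : Q) → Matrix (S.Fa (S.rel q)) (S.Fa (S.rel q)) ℂ) (p p' : S.Po x) :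
    diagQ x Y p p' = if h : p.1.2 = p'.1.2 then
      (Y p.1.2) ⟨p.1.1, p.2.1⟩ ⟨p'.1.1, (p'.2.1).trans (congrArg S.rel h.symm)⟩ else 0 := by
  unfold diagQ
  rw [Matrix.sum_apply, Finset.sum_eq_single p.1.2]
  · split_ifs with h
    · rw [blk_apply _ _ _ _ _ rfl h.symm rfl]
    · exact blk_apply_zero _ _ _ _ _ (fun h' => h (h'.2.symm))
  · intro q _ hq
    exact blk_apply_zero _ _ _ _ _ (fun h' => hq h'.1.symm)
  · intro h; exact absurd (Finset.mem_univ _) h

theorem diagQ_one : diagQ x (fun q => (1 : Matrix (S.Fa (S.rel q)) (S.Fa (S.rel q)) ℂ)) = 1 := by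
  ext p p'
  rw [diagQ_apply, Matrix.one_apply]
  split_ifs with h h2 h2
  · subst h2; simp
  · rw [Matrix.one_apply, if_neg]
    intro h3
    apply h2
    apply Subtype.ext
    exact Prod.ext (congrArg Subtype.val h3) h
  · exact absurd (by rw [h2]) h
  · rfl

/-- multiplying by an elementary block changes one block -/
theorem elem_mul_diagQ (r : Q) (hv : S.var r = x) (Z : Matrix (S.Fa (S.rel r)) (S.Fa (S.rel r)) ℂ)
    (Y : (q : Q) → Matrix (S.Fa (S.rel q)) (S.Fa (S.rel q)) ℂ) :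
    (1 + inc S x (S.rel r) r * (Z - 1) * (inc S x (S.rel r) r)ᵀ) * diagQ x Y =
      diagQ x (Function.update Y r (Z * Y r)) := by
  have h1 : (inc S x (S.rel r) r * (Z - 1) * (inc S x (S.rel r) r)ᵀ) * diagQ x Y =
      inc S x (S.rel r) r * ((Z - 1) * Y r) * (inc S x (S.rel r) r)ᵀ := by
    unfold diagQ
    rw [Finset.mul_sum, Finset.sum_eq_single r]
    · have := inc_t_mul_inc_self (S := S) (x := x) (q := r) rfl hv
      calc inc S x (S.rel r) r * (Z - 1) * (inc S x (S.rel r) r)ᵀ *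
            (inc S x (S.rel r) r * Y r * (inc S x (S.rel r) r)ᵀ)
          = inc S x (S.rel r) r * (Z - 1) * ((inc S x (S.rel r) r)ᵀ * inc S x (S.rel r) r) *
            Y r * (inc S x (S.rel r) r)ᵀ := by simp only [Matrix.mul_assoc]
        _ = _ := by rw [this]; simp only [Matrix.mul_assoc, Matrix.one_mul]
    · intro q _ hq
      have := inc_t_mul_inc_of_ne (S := S) (x := x) (i := S.rel r) (j := S.rel q)
        (q := r) (r := q) (Ne.symm hq)
      calc inc S x (S.rel r) r * (Z - 1) * (inc S x (S.rel r) r)ᵀ *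
            (inc S x (S.rel q) q * Y q * (inc S x (S.rel q) q)ᵀ)
          = inc S x (S.rel r) r * (Z - 1) * ((inc S x (S.rel r) r)ᵀ * inc S x (S.rel q) q) *
            Y q * (inc S x (S.rel q) q)ᵀ := by simp only [Matrix.mul_assoc]
        _ = 0 := by rw [this]; simp
    · intro h; exact absurd (Finset.mem_univ _) h
  rw [add_mul, one_mul, h1]
  ext p p'
  rw [Matrix.add_apply, diagQ_apply, diagQ_apply]
  by_cases h : p.1.2 = p'.1.2
  · rw [dif_pos h, dif_pos h]
    by_cases hr : p.1.2 = r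
    · subst hr
      rw [blk_apply _ _ _ _ _ rfl h.symm rfl, Function.update_self]
      rw [sub_mul, one_mul, Matrix.sub_apply]
      ring
    · rw [blk_apply_zero _ _ _ _ _ (fun h' => hr h'.1), add_zero, Function.update_of_ne hr]
  · rw [dif_neg h, dif_neg h, blk_apply_zero _ _ _ _ _ (fun h' => h (h'.1.trans h'.2.symm)),
      add_zero]

theorem diagQ_congr (Y Y' : (q : Q) → Matrix (S.Fa (S.rel q)) (S.Fa (S.rel q)) ℂ)
    (h : ∀ q, S.var q = x → Y q = Y' q) : diagQ x Y = diagQ x Y' := by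
  unfold diagQ
  apply Finset.sum_congr rfl
  intro q _
  by_cases hv : S.var q = x
  · rw [h q hv]
  · rw [inc_eq_zero hv]; simp

/-- the sign of a position -/
def sg (S : Sys ι A Q) (q : Q) : ℤ := if S.pos q then 1 else -1

theorem sg_zpow (X : S.KA) (q : Q) :
    (X (S.rel q)) ^ (sg S q) = if S.pos q then X (S.rel q) else Ring.inverse (X (S.rel q)) := by
  unfold sg
  split_ifs with h
  · exact zpow_one _
  · rw [Matrix.zpow_neg_one, Matrix.nonsing_inv_eq_ringInverse]

theorem Jm_eq_diagQ (X : S.KA) (x : ι) :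
    S.Jm X x = diagQ x (fun q => (X (S.rel q)) ^ (sg S q)) := by
  ext p p'
  rw [diagQ_apply]
  unfold Sys.Jm
  rw [Matrix.of_apply]
  split_ifs with h h2
  · rw [sg_zpow, if_pos h2]
  · rw [sg_zpow, if_neg h2]
  · rfl

theorem Phi1_eq_diagQ {q0 : ι → Q} (R : RefMap S q0) (X : S.KA) (x : ι) :
    Phi1 R X x = diagQ x (fun q => (X (S.rel q)) ^ (R.kk q)) := by
  ext p p'
  rw [diagQ_apply]
  rfl

theorem elem_transport (X : S.KA) (r : Q) (k : ℤ) {i j : ι} (h : i = j) :
    (1 + inc S x i r * ((X i) ^ k - 1) * (inc S x i r)ᵀ) =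
    (1 + inc S x j r * ((X j) ^ k - 1) * (inc S x j r)ᵀ) := by
  subst h; rfl

/-- exponents of the product over a list -/
def cnt (S : Sys ι A Q) (x : ι) (ρ : Q → Q) (L : List Q) (r : Q) : ℤ :=
  (L.map (fun q => if ρ q = r ∧ S.var q = x then sg S q else 0)).sum

/-- product of the elementary blocks moved by `ρ` -/
theorem prod_elem (ρ : Q → Q) (hrel : ∀ q, S.rel (ρ q) = S.rel q)
    (hvar : ∀ q, S.var (ρ q) = S.var q) (X : S.KA) (hX : ∀ i, IsUnit (X i)) (L : List Q) :
    (L.map (fun q => if S.var q = x then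
      1 + inc S x (S.rel q) (ρ q) * ((X (S.rel q)) ^ (sg S q) - 1) * (inc S x (S.rel q) (ρ q))ᵀ
      else 1)).prod = diagQ x (fun r => (X (S.rel r)) ^ (cnt S x ρ L r)) := by
  induction L with
  | nil =>
    simp only [List.map_nil, List.prod_nil, cnt, List.sum_nil, zpow_zero]
    exact diagQ_one.symm
  | cons q L ih =>
    rw [List.map_cons, List.prod_cons, ih]
    by_cases hv : S.var q = x
    · rw [if_pos hv, elem_transport X (ρ q) (sg S q) (hrel q).symm,
        elem_mul_diagQ (ρ q) ((hvar q).trans hv)]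
      congr 1
      funext r
      by_cases hr : r = ρ q
      · subst hr
        rw [Function.update_self]
        have hdet : IsUnit (X (S.rel (ρ q))).det := (Matrix.isUnit_iff_isUnit_det _).1 (hX _)
        rw [← Matrix.zpow_add hdet]
        simp [cnt, hv]
      · rw [Function.update_of_ne hr]
        have : ρ q ≠ r := fun h => hr h.symm
        simp [cnt, this]
    · rw [if_neg hv, one_mul]
      congr 1
      funext r
      simp [cnt, hv]

theorem cnt_univ (S : Sys ι A Q) (x : ι) (ρ : Q → Q) (r : Q) :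
    cnt S x ρ Finset.univ.toList r =
      ∑ q : Q, if ρ q = r ∧ S.var q = x then sg S q else 0 := by
  unfold cnt
  rw [Finset.sum_map_toList]

theorem cnt_id (r : Q) (hr : S.var r = x) :
    cnt S x id Finset.univ.toList r = sg S r := by
  rw [cnt_univ, Finset.sum_eq_single r]
  · simp [hr]
  · intro q _ hq
    simp [hq]
  · intro h; exact absurd (Finset.mem_univ _) h

theorem cnt_ref {q0 : ι → Q} (R : RefMap S q0) (r : Q) (hr : S.var r = x) :
    cnt S x R.r Finset.univ.toList r = R.kk r := by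
  rw [cnt_univ]
  unfold RefMap.kk
  split_ifs with h
  · unfold Sys.E
    apply Finset.sum_congr rfl
    intro q _
    have : (R.r q = r ∧ S.var q = x) ↔ (S.rel q = S.rel r ∧ S.var q = S.var r) := by
      constructor
      · rintro ⟨h1, h2⟩
        exact ⟨by rw [← h1, R.rel_r], by rw [h2, hr]⟩
      · rintro ⟨h1, h2⟩
        exact ⟨by rw [R.congr q r h1 h2, h], by rw [h2, hr]⟩
    by_cases h3 : R.r q = r ∧ S.var q = x
    · rw [if_pos h3, if_pos (this.1 h3)]; rfl
    · rw [if_neg h3, if_neg (fun h4 => h3 (this.2 h4))]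
  · apply Finset.sum_eq_zero
    intro q _
    rw [if_neg]
    rintro ⟨h1, -⟩
    exact h (by rw [← h1, R.idem])

/-- a moving isometry -/
def Pth (S : Sys ι A Q) (x : ι) (ρ : Q → Q) (q : Q) (s : ℂ) :
    Matrix (S.Po x) (S.Fa (S.rel q)) ℂ :=
  if ρ q = q then inc S x (S.rel q) q else
    Complex.cos (s * (Real.pi / 2)) • inc S x (S.rel q) q +
      Complex.sin (s * (Real.pi / 2)) • inc S x (S.rel q) (ρ q)

theorem Pth_zero (ρ : Q → Q) (q : Q) : Pth S x ρ q 0 = inc S x (S.rel q) q := by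
  unfold Pth
  split_ifs
  · rfl
  · simp

theorem Pth_one (ρ : Q → Q) (q : Q) : Pth S x ρ q 1 = inc S x (S.rel q) (ρ q) := by
  unfold Pth
  split_ifs with h
  · rw [h]
  · simp

theorem Pth_isometry (ρ : Q → Q) (hrel : ∀ q, S.rel (ρ q) = S.rel q)
    (hvar : ∀ q, S.var (ρ q) = S.var q) (q : Q) (hv : S.var q = x) (s : ℂ) :
    (Pth S x ρ q s)ᵀ * Pth S x ρ q s = 1 := by
  unfold Pth
  split_ifs with h
  · exact inc_t_mul_inc_self rfl hv
  · have h1 := inc_t_mul_inc_self (S := S) (x := x) (q := q) rfl hv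
    have h2 := inc_t_mul_inc_self (S := S) (x := x) (q := ρ q) (hrel q) ((hvar q).trans hv)
    have h3 := inc_t_mul_inc_of_ne (S := S) (x := x) (i := S.rel q) (j := S.rel q)
      (q := q) (r := ρ q) (Ne.symm h)
    have h4 := inc_t_mul_inc_of_ne (S := S) (x := x) (i := S.rel q) (j := S.rel q)
      (q := ρ q) (r := q) h
    rw [Matrix.transpose_add, Matrix.transpose_smul, Matrix.transpose_smul, Matrix.add_mul,
      Matrix.mul_add, Matrix.mul_add]
    simp only [Matrix.smul_mul, Matrix.mul_smul, h1, h2, h3, h4, smul_zero, add_zero, zero_add]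
    rw [smul_smul, smul_smul, ← add_smul]
    have : Complex.cos (s * (Real.pi / 2)) * Complex.cos (s * (Real.pi / 2)) +
      Complex.sin (s * (Real.pi / 2)) * Complex.sin (s * (Real.pi / 2)) = 1 := by
      have := Complex.cos_sq_add_sin_sq (s * (Real.pi / 2))
      rw [← this]; ring
    rw [this, one_smul]

theorem isUnit_elem {m n : Type} [Fintype m] [DecidableEq m] [Fintype n] [DecidableEq n]
    (P : Matrix m n ℂ) (hP : Pᵀ * P = 1) (Y : Matrix n n ℂ) (hY : IsUnit Y) :
    IsUnit (1 + P * (Y - 1) * Pᵀ) := by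
  obtain ⟨u, rfl⟩ := hY
  have key : (1 + P * ((u : Matrix n n ℂ) - 1) * Pᵀ) *
      (1 + P * (((u⁻¹ : (Matrix n n ℂ)ˣ) : Matrix n n ℂ) - 1) * Pᵀ) = 1 := by
    have h1 : P * ((u : Matrix n n ℂ) - 1) * Pᵀ *
        (P * (((u⁻¹ : (Matrix n n ℂ)ˣ) : Matrix n n ℂ) - 1) * Pᵀ) =
        P * (((u : Matrix n n ℂ) - 1) * (((u⁻¹ : (Matrix n n ℂ)ˣ) : Matrix n n ℂ) - 1)) * Pᵀ := by
      calc P * ((u : Matrix n n ℂ) - 1) * Pᵀ *
          (P * (((u⁻¹ : (Matrix n n ℂ)ˣ) : Matrix n n ℂ) - 1) * Pᵀ)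
          = P * ((u : Matrix n n ℂ) - 1) * (Pᵀ * P) *
            (((u⁻¹ : (Matrix n n ℂ)ˣ) : Matrix n n ℂ) - 1) * Pᵀ := by
              simp only [Matrix.mul_assoc]
        _ = _ := by rw [hP]; simp only [Matrix.mul_assoc, Matrix.one_mul]
    have h2 : ((u : Matrix n n ℂ) - 1) * (((u⁻¹ : (Matrix n n ℂ)ˣ) : Matrix n n ℂ) - 1) =
        (1 - (u : Matrix n n ℂ)) + (1 - ((u⁻¹ : (Matrix n n ℂ)ˣ) : Matrix n n ℂ)) := by
      rw [sub_mul, mul_sub, one_mul, mul_one, Units.mul_inv]
      abel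
    rw [add_mul, mul_add, mul_add, h1, h2]
    simp only [Matrix.mul_add, Matrix.add_mul, Matrix.mul_sub, Matrix.sub_mul, Matrix.mul_one,
      Matrix.one_mul]
    abel
  exact IsUnit.of_mul_eq_one _ key

end algebra

end Crest.Agent.R174.G4a
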