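import Crest.Agent.R174.GRDefs

/-!
# R174, block G4a (helper661): the form of `Φ₁` (end point of the rotation homotopy).

`RefMap S q0` : a choice `r` of a reference position for every pair (relator, unknown), compatible
with `q0`.  `Phi1 R X` acts at the reference position of `(i, x)` by `(X i) ^ (E i x)` and by `1`
at all other positions.
-/

set_option autoImplicit false
set_option linter.unusedSectionVars false
open MeasureTheory
open scoped Matrix.Norms.L2Operator

noncomputable section

namespace Crest.Agent.R174.G4a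

open Crest.Agent.R174.GR

variable {ι A Q : Type} [Fintype ι] [LinearOrder ι] [Fintype A] [DecidableEq A]
  [Fintype Q] [DecidableEq Q]

/-- a choice of reference positions: `r q` is the reference position of `(rel q, var q)`. -/
structure RefMap (S : Sys ι A Q) (q0 : ι → Q) where
  r : Q → Q
  rel_r : ∀ q, S.rel (r q) = S.rel q
  var_r : ∀ q, S.var (r q) = S.var q
  congr : ∀ q q', S.rel q = S.rel q' → S.var q = S.var q' → r q = r q'
  r_q0 : ∀ x, r (q0 x) = q0 x

variable {S : Sys ι A Q} {q0 : ι → Q}

theorem RefMap.idem (R : RefMap S q0) (q : Q) : R.r (R.r q) = R.r q :=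
  R.congr _ _ (R.rel_r q) (R.var_r q)

/-- the exponent at position `q`: `E (rel q) (var q)` at reference positions, `0` elsewhere. -/
def RefMap.kk (R : RefMap S q0) (q : Q) : ℤ :=
  if R.r q = q then S.E (S.rel q) (S.var q) else 0

/-- `Φ₁(X)`: at the reference position of `(i,x)` it acts by `(X i)^(E i x)`, elsewhere by `1`. -/
def Phi1 (R : RefMap S q0) (X : S.KA) : S.VA := fun x =>
  Matrix.of fun p p' =>
    if h : p.1.2 = p'.1.2 then
      ((X (S.rel p.1.2)) ^ (R.kk p.1.2))
        ⟨p.1.1, p.2.1⟩ ⟨p'.1.1, (p'.2.1).trans (congrArg S.rel h.symm)⟩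
    else 0

/-- auxiliary choice -/
def refAux (S : Sys ι A Q) (i x : ι) (h : ∃ q, S.rel q = i ∧ S.var q = x) : Q := Classical.choose h

theorem refAux_spec (S : Sys ι A Q) (i x : ι) (h : ∃ q, S.rel q = i ∧ S.var q = x) :
    S.rel (refAux S i x h) = i ∧ S.var (refAux S i x h) = x := Classical.choose_spec h

theorem refAux_congr (S : Sys ι A Q) (i x i' x' : ι) (h : ∃ q, S.rel q = i ∧ S.var q = x)
    (h' : ∃ q, S.rel q = i' ∧ S.var q = x') (hi : i = i') (hx : x = x') :
    refAux S i x h = refAux S i' x' h' := by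
  subst hi; subst hx; rfl

/-- existence of a reference map. -/
def mkRef (S : Sys ι A Q) (q0 : ι → Q) (hq : ∀ x, S.rel (q0 x) = x ∧ S.var (q0 x) = x) :
    RefMap S q0 where
  r q := if S.rel q = S.var q then q0 (S.rel q) else refAux S (S.rel q) (S.var q) ⟨q, rfl, rfl⟩
  rel_r q := by
    split_ifs with h
    · exact (hq _).1
    · exact (refAux_spec S _ _ _).1
  var_r q := by
    split_ifs with h
    · rw [(hq _).2, h]
    · exact (refAux_spec S _ _ _).2
  congr q q' h1 h2 := by
    by_cases h : S.rel q = S.var q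
    · have h' : S.rel q' = S.var q' := by rw [← h1, ← h2, h]
      rw [if_pos h, if_pos h', h1]
    · have h' : ¬ S.rel q' = S.var q' := by rw [← h1, ← h2]; exact h
      rw [if_neg h, if_neg h']
      exact refAux_congr S _ _ _ _ _ _ h1 h2
  r_q0 x := by
    have h : S.rel (q0 x) = S.var (q0 x) := by rw [(hq x).1, (hq x).2]
    rw [if_pos h, (hq x).1]

/-- the statement delivered by block G4a -/
def T3a (S : Sys ι A Q) : Prop :=
  ∀ (q0 : ι → Q) (hq : ∀ x, S.rel (q0 x) = x ∧ S.var (q0 x) = x) (R : RefMap S q0),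
    DD (S.refR q0 hq) S.Jm = DD (S.refR q0 hq) (Phi1 R)

end Crest.Agent.R174.G4a
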