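import Crest.Agent.R174.GRDefs

/-! # R174 P3: compactness (uniform arc) and orthogonality choice. -/

set_option autoImplicit false
open scoped Matrix.Norms.L2Operator

namespace Crest.Agent.R174.GR.Delta

open Crest.Agent.R174.GR

section onematrix

variable {N : Type} [Fintype N] [DecidableEq N]

/-- multiplicity of the eigenvalue one -/
theorem card_le_finrank_ker (Z W : Matrix N N ℂ) (hW : W ∈ unitary (Matrix N N ℂ)) (d : N → ℂ)
    (hZ : Z = W * Matrix.diagonal d * star W) (T : Finset N) (hT : ∀ j ∈ T, d j = 1) :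
    T.card ≤ Module.finrank ℂ (LinearMap.ker (Matrix.mulVecLin (Z - 1))) := by
  classical
  have hW1 : star W * W = 1 := (Unitary.mem_iff.1 hW).1
  have hW2 : W * star W = 1 := (Unitary.mem_iff.1 hW).2
  have hker : ∀ j ∈ T, W.col j ∈ LinearMap.ker (Matrix.mulVecLin (Z - 1)) := by
    intro j hj
    have e1 : W.col j = W.mulVec (Pi.single j 1) := by
      ext i; simp [Matrix.col]
    rw [LinearMap.mem_ker, Matrix.mulVecLin_apply, e1, Matrix.mulVec_mulVec]
    have e2 : (Z - 1) * W = W * (Matrix.diagonal d - 1) := by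
      rw [hZ, sub_mul, mul_sub, Matrix.mul_assoc, Matrix.mul_assoc, hW1]
      simp [Matrix.mul_assoc]
    rw [e2, ← Matrix.mulVec_mulVec]
    have e3 : (Matrix.diagonal d - 1 : Matrix N N ℂ).mulVec (Pi.single j 1) = 0 := by
      rw [Matrix.sub_mulVec, Matrix.one_mulVec]
      ext i
      rw [Pi.sub_apply, Matrix.mulVec_diagonal]
      by_cases hij : i = j
      · subst hij; simp [hT i hj]
      · simp [Pi.single_apply, hij]
    rw [e3, Matrix.mulVec_zero]
  have hdet : W.det ≠ 0 := by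
    intro h0
    have : (W * star W).det = 0 := by rw [Matrix.det_mul, h0, zero_mul]
    rw [hW2, Matrix.det_one] at this
    exact one_ne_zero this
  have hli : LinearIndependent ℂ W.col := Matrix.linearIndependent_cols_of_det_ne_zero hdet
  have hli2 : LinearIndependent ℂ (fun j : T => W.col j.1) := hli.comp _ Subtype.val_injective
  have hli3 : LinearIndependent ℂ
      (fun j : T => (⟨W.col j.1, hker j.1 j.2⟩ : LinearMap.ker (Matrix.mulVecLin (Z - 1)))) := by
    apply LinearIndependent.of_comp (LinearMap.ker (Matrix.mulVecLin (Z - 1))).subtype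
    exact hli2
  have := hli3.fintype_card_le_finrank
  simpa using this

end onematrix

section sys

variable {ι A Q : Type} [Fintype ι] [LinearOrder ι] [Fintype A] [DecidableEq A]
  [Fintype Q] [DecidableEq Q]

theorem exists_delta (S : Sys ι A Q) (R : UG S.KA → S.VA) (hR : Continuous R)
    (hker : ∀ σ : UG S.KA, ∃ x : ι,
      Module.finrank ℂ (LinearMap.ker (Matrix.mulVecLin (R σ x - 1))) < Fintype.card (S.Fa x)) :
    ∃ δ : ℝ, 0 < δ ∧ ∀ (σ : UG S.KA) (W : UG S.VA) (d : (x : ι) → S.Po x → ℂ),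
      (∀ x j, ‖d x j‖ = 1) → (∀ x, R σ x = W.val x * Matrix.diagonal (d x) * star (W.val x)) →
      ∃ x, (Finset.univ.filter (fun j => ‖d x j - 1‖ < δ)).card < Fintype.card (S.Fa x) := by
  classical
  let P : Type := UG S.KA × UG S.VA × ((x : ι) → S.Po x → Metric.sphere (0 : ℂ) 1)
  let CC : Set P := {p | ∀ x, R p.1 x =
      p.2.1.val x * Matrix.diagonal (fun j => (p.2.2 x j : ℂ)) * star (p.2.1.val x)}
  have hclosed : IsClosed CC := by
    have : CC = ⋂ x, {p : P | R p.1 x =
      p.2.1.val x * Matrix.diagonal (fun j => (p.2.2 x j : ℂ)) * star (p.2.1.val x)} := by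
      ext p; simp [CC]
    rw [this]
    refine isClosed_iInter fun x => isClosed_eq ?_ ?_
    · exact (continuous_apply x).comp (hR.comp continuous_fst)
    · have h1 : Continuous fun p : P => p.2.1.val x :=
        (continuous_apply x).comp (UG.continuous_val.comp (continuous_fst.comp continuous_snd))
      have h2 : Continuous fun p : P => Matrix.diagonal (fun j => (p.2.2 x j : ℂ)) := by
        refine Continuous.matrix_diagonal ?_
        refine continuous_pi fun j => ?_
        exact continuous_subtype_val.comp ((continuous_apply j).comp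
          ((continuous_apply x).comp (continuous_snd.comp continuous_snd)))
      exact (h1.mul h2).mul h1.star
  have hcompact : IsCompact CC := hclosed.isCompact
  -- for every selection of finsets of the right size the sum of distances is bounded below
  have key : ∀ T : (x : ι) → Finset (S.Po x), (∀ x, (T x).card = Fintype.card (S.Fa x)) →
      ∃ m : ℝ, 0 < m ∧ ∀ p ∈ CC, m ≤ ∑ x, ∑ j ∈ T x, ‖(p.2.2 x j : ℂ) - 1‖ := by
    intro T hT
    rcases CC.eq_empty_or_nonempty with hE | hne
    · exact ⟨1, one_pos, by simp [hE]⟩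
    let g : P → ℝ := fun p => ∑ x, ∑ j ∈ T x, ‖(p.2.2 x j : ℂ) - 1‖
    have hg : Continuous g := by
      refine continuous_finset_sum _ fun x _ => continuous_finset_sum _ fun j _ => ?_
      refine Continuous.norm (Continuous.sub ?_ continuous_const)
      exact continuous_subtype_val.comp ((continuous_apply j).comp
          ((continuous_apply x).comp (continuous_snd.comp continuous_snd)))
    obtain ⟨p0, hp0, hmin⟩ := hcompact.exists_isMinOn hne hg.continuousOn
    refine ⟨g p0, ?_, fun p hp => hmin hp⟩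
    have hnn : 0 ≤ g p0 := Finset.sum_nonneg fun x _ => Finset.sum_nonneg fun j _ => norm_nonneg _
    rcases hnn.lt_or_eq with h | h
    · exact h
    exfalso
    obtain ⟨x, hx⟩ := hker p0.1
    have h1 : ∑ j ∈ T x, ‖(p0.2.2 x j : ℂ) - 1‖ = 0 :=
      (Finset.sum_eq_zero_iff_of_nonneg (fun x _ => Finset.sum_nonneg fun j _ => norm_nonneg _)).1
        h.symm x (Finset.mem_univ x)
    have h2 : ∀ j ∈ T x, (p0.2.2 x j : ℂ) = 1 := by
      intro j hj
      have := (Finset.sum_eq_zero_iff_of_nonneg (fun j _ => norm_nonneg _)).1 h1 j hj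
      rwa [norm_eq_zero, sub_eq_zero] at this
    have hWx : p0.2.1.val x ∈ unitary (Matrix (S.Po x) (S.Po x) ℂ) := by
      have := p0.2.1.val_mem
      rw [Unitary.mem_iff] at this ⊢
      exact ⟨congrFun this.1 x, congrFun this.2 x⟩
    have h3 := card_le_finrank_ker (R p0.1 x) (p0.2.1.val x) hWx (fun j => (p0.2.2 x j : ℂ))
      (hp0 x) (T x) h2
    rw [hT x] at h3
    exact absurd hx (not_lt.2 h3)
  -- a uniform lower bound
  have hunif : ∃ m : ℝ, 0 < m ∧ ∀ T : (x : ι) → Finset (S.Po x),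
      (∀ x, (T x).card = Fintype.card (S.Fa x)) →
      ∀ p ∈ CC, m ≤ ∑ x, ∑ j ∈ T x, ‖(p.2.2 x j : ℂ) - 1‖ := by
    have hch : ∀ T : (x : ι) → Finset (S.Po x), ∃ m : ℝ, 0 < m ∧
        ((∀ x, (T x).card = Fintype.card (S.Fa x)) →
          ∀ p ∈ CC, m ≤ ∑ x, ∑ j ∈ T x, ‖(p.2.2 x j : ℂ) - 1‖) := by
      intro T
      by_cases h : ∀ x, (T x).card = Fintype.card (S.Fa x)
      · obtain ⟨m, hm, h'⟩ := key T h
        exact ⟨m, hm, fun _ => h'⟩
      · exact ⟨1, one_pos, fun h' => absurd h' h⟩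
    choose m hm hm2 using hch
    have hne : (Finset.univ : Finset ((x : ι) → Finset (S.Po x))).Nonempty :=
      ⟨fun _ => ∅, Finset.mem_univ _⟩
    refine ⟨Finset.univ.inf' hne m, (Finset.lt_inf'_iff hne).2 fun T _ => hm T, ?_⟩
    intro T hT p hp
    exact (Finset.inf'_le m (Finset.mem_univ T)).trans (hm2 T hT p hp)
  obtain ⟨m, hm, hmT⟩ := hunif
  set B : ℝ := 1 + ∑ x : ι, (Fintype.card (S.Po x) : ℝ) with hB
  have hBpos : 0 < B := by positivity
  refine ⟨m / B, by positivity, ?_⟩
  intro σ W d hd hdiag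
  by_contra hcon
  push Not at hcon
  have hsel : ∀ x, ∃ T : Finset (S.Po x), (∀ j ∈ T, ‖d x j - 1‖ < m / B) ∧
      T.card = Fintype.card (S.Fa x) := by
    intro x
    obtain ⟨T, hT1, hT2⟩ := Finset.exists_subset_card_eq (hcon x)
    exact ⟨T, fun j hj => (Finset.mem_filter.1 (hT1 hj)).2, hT2⟩
  choose T hT1 hT2 using hsel
  let p : P := ⟨σ, W, fun x j => ⟨d x j, by rw [mem_sphere_zero_iff_norm]; exact hd x j⟩⟩
  have hp : p ∈ CC := hdiag
  have h1 := hmT T hT2 p hp
  have h2 : ∑ x, ∑ j ∈ T x, ‖(p.2.2 x j : ℂ) - 1‖ ≤ ∑ x : ι, (Fintype.card (S.Po x) : ℝ) * (m / B) := by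
    refine Finset.sum_le_sum fun x _ => ?_
    calc ∑ j ∈ T x, ‖(p.2.2 x j : ℂ) - 1‖ ≤ ∑ j ∈ T x, m / B :=
          Finset.sum_le_sum fun j hj => (hT1 x j hj).le
      _ = (T x).card * (m / B) := by rw [Finset.sum_const, nsmul_eq_mul]
      _ ≤ (Fintype.card (S.Po x) : ℝ) * (m / B) := by
          gcongr
          exact Finset.card_le_univ _
  rw [← Finset.sum_mul] at h2
  have h3 : (∑ x : ι, (Fintype.card (S.Po x) : ℝ)) * (m / B) < m := by
    have : (∑ x : ι, (Fintype.card (S.Po x) : ℝ)) = B - 1 := by rw [hB]; ring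
    rw [this]
    have : (B - 1) * (m / B) = m - m / B := by field_simp
    rw [this]
    have : 0 < m / B := by positivity
    linarith
  linarith

end sys

/-- A nonzero vector supported on `F` (via `r`) orthogonal to fewer than `card F` conditions. -/
theorem exists_orth {F N : Type} [Fintype F] [DecidableEq F] [Fintype N] [DecidableEq N]
    (r : F → N) (Y : Matrix N N ℂ) (T : Finset N) (hT : T.card < Fintype.card F) :
    ∃ c : F → ℂ, dotProduct (star c) c = 1 ∧
      ∀ j ∈ T, (∑ a, Y j (r a) * c a) = 0 := by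
  classical
  let f : (F → ℂ) →ₗ[ℂ] (T → ℂ) :=
    { toFun := fun c j => ∑ a, Y j.1 (r a) * c a
      map_add' := by
        intro x y; funext j; simp [mul_add, Finset.sum_add_distrib]
      map_smul' := by
        intro s x; funext j; simp [Finset.mul_sum]; refine Finset.sum_congr rfl fun a _ => by ring }
  have hlt : Module.finrank ℂ (T → ℂ) < Module.finrank ℂ (F → ℂ) := by simpa using hT
  have hne := LinearMap.ker_ne_bot_of_finrank_lt (f := f) hlt
  obtain ⟨v, hv, hv0⟩ := (Submodule.ne_bot_iff _).1 hne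
  have hv' : ∀ j ∈ T, (∑ a, Y j (r a) * v a) = 0 := fun j hj => congrFun (LinearMap.mem_ker.1 hv) ⟨j, hj⟩
  have hpos : 0 < ∑ a, ‖v a‖ ^ 2 := by
    have hnn : 0 ≤ ∑ a, ‖v a‖ ^ 2 := Finset.sum_nonneg fun a _ => by positivity
    rcases hnn.lt_or_eq with h | h
    · exact h
    exfalso
    apply hv0
    funext a
    have := (Finset.sum_eq_zero_iff_of_nonneg (fun a _ => by positivity)).1 h.symm a
      (Finset.mem_univ a)
    simpa using this
  set s : ℝ := Real.sqrt (∑ a, ‖v a‖ ^ 2) with hs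
  have hspos : 0 < s := Real.sqrt_pos.2 hpos
  have hs2 : s ^ 2 = ∑ a, ‖v a‖ ^ 2 := Real.sq_sqrt hpos.le
  refine ⟨fun a => (s : ℂ)⁻¹ * v a, ?_, ?_⟩
  · have h1 : dotProduct (star fun a => (s : ℂ)⁻¹ * v a) (fun a => (s : ℂ)⁻¹ * v a)
        = ∑ a, (s : ℂ)⁻¹ ^ 2 * ((‖v a‖ ^ 2 : ℝ) : ℂ) := by
      unfold dotProduct
      refine Finset.sum_congr rfl fun a _ => ?_
      simp only [Pi.star_apply, star_mul', RCLike.star_def, map_inv₀, Complex.conj_ofReal]
      have : (starRingEnd ℂ) (v a) * v a = ((‖v a‖ ^ 2 : ℝ) : ℂ) := by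
        rw [mul_comm, Complex.mul_conj, Complex.normSq_eq_norm_sq]
      calc (s : ℂ)⁻¹ * (starRingEnd ℂ) (v a) * ((s : ℂ)⁻¹ * v a)
          = (s : ℂ)⁻¹ ^ 2 * ((starRingEnd ℂ) (v a) * v a) := by ring
        _ = _ := by rw [this]
    rw [h1, ← Finset.mul_sum, ← Complex.ofReal_sum, ← hs2]
    have : (s : ℂ) ≠ 0 := by exact_mod_cast hspos.ne'
    push_cast
    field_simp
  · intro j hj
    have : (∑ a, Y j (r a) * ((s : ℂ)⁻¹ * v a)) = (s : ℂ)⁻¹ * ∑ a, Y j (r a) * v a := by
      rw [Finset.mul_sum]; refine Finset.sum_congr rfl fun a _ => by ring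
    rw [this, hv' j hj, mul_zero]

end Crest.Agent.R174.GR.Delta
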