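import Mathlib

/-! # R174 P3, G7b: a linear endomorphism with one almost vanishing functional has small determinant. -/

set_option autoImplicit false

namespace Crest.Agent.R174.GRDetSmall

variable {E : Type*} [NormedAddCommGroup E] [NormedSpace ℂ E] [FiniteDimensional ℂ E]

theorem det_small (C C' : ℝ) {η : ℝ} (hη : 0 < η) :
    ∃ κ : ℝ, 0 < κ ∧ ∀ (L : E →ₗ[ℂ] E) (l : E →ₗ[ℂ] ℂ) (e : E),
      (∀ ξ, ‖L ξ‖ ≤ C * ‖ξ‖) → l e = 1 → ‖e‖ ≤ C' → (∀ ξ, ‖l (L ξ)‖ ≤ κ * ‖ξ‖) →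
      ‖LinearMap.det L‖ ≤ η := by
  classical
  -- uniform continuity of det on a compact ball
  have hprop : ProperSpace (E →L[ℂ] E) := FiniteDimensional.proper ℂ _
  set C0 : ℝ := |C| + 1 with hC0
  have hcomp : IsCompact (Metric.closedBall (0 : E →L[ℂ] E) C0) := isCompact_closedBall _ _
  have hcont : Continuous fun f : E →L[ℂ] E => f.det := ContinuousLinearMap.continuous_det
  have huc := hcomp.uniformContinuousOn_of_continuous hcont.continuousOn
  rw [Metric.uniformContinuousOn_iff] at huc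
  obtain ⟨δ, hδ, hd⟩ := huc η hη
  set κ : ℝ := min (1 / (|C'| + 1)) (δ / (2 * (|C'| + 1))) with hκ
  have hC'pos : 0 < |C'| + 1 := by positivity
  have hκpos : 0 < κ := lt_min (by positivity) (by positivity)
  refine ⟨κ, hκpos, ?_⟩
  intro L l e hL hle he hsmall
  let Lc : E →L[ℂ] E := LinearMap.toContinuousLinearMap L
  let lc : E →L[ℂ] ℂ := LinearMap.toContinuousLinearMap l
  let L' : E →L[ℂ] E := Lc - (lc.comp Lc).smulRight e
  have hdet' : L'.det = 0 := by
    -- l ∘ L' = 0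
    by_contra hne
    have hne' : LinearMap.det (L' : E →ₗ[ℂ] E) ≠ 0 := hne
    have hunit : IsUnit (L' : E →ₗ[ℂ] E) := by
      rw [LinearMap.isUnit_iff_isUnit_det]
      exact isUnit_iff_ne_zero.2 hne'
    have hsurj : Function.Surjective (L' : E →ₗ[ℂ] E) :=
      ((Module.End.isUnit_iff _).1 hunit).2
    obtain ⟨v, hv⟩ := hsurj e
    have h0 : l ((L' : E →ₗ[ℂ] E) v) = 0 := by
      change l (L v - (l (L v)) • e) = 0
      rw [map_sub, map_smul, hle, smul_eq_mul, mul_one, sub_self]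
    rw [hv, hle] at h0
    exact one_ne_zero h0
  have he' : ‖e‖ ≤ |C'| + 1 := he.trans ((le_abs_self C').trans (by linarith))
  have hdiff : ‖Lc - L'‖ ≤ κ * (|C'| + 1) := by
    have : Lc - L' = (lc.comp Lc).smulRight e := by simp [L']
    rw [this]
    refine ContinuousLinearMap.opNorm_le_bound _ (by positivity) ?_
    intro ξ
    have h1 : ((lc.comp Lc).smulRight e) ξ = (l (L ξ)) • e := rfl
    rw [h1, norm_smul]
    calc ‖l (L ξ)‖ * ‖e‖ ≤ (κ * ‖ξ‖) * (|C'| + 1) :=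
          mul_le_mul (hsmall ξ) he' (norm_nonneg _) (by positivity)
      _ = κ * (|C'| + 1) * ‖ξ‖ := by ring
  have hκ1 : κ * (|C'| + 1) ≤ 1 := by
    have := min_le_left (1 / (|C'| + 1)) (δ / (2 * (|C'| + 1)))
    calc κ * (|C'| + 1) ≤ (1 / (|C'| + 1)) * (|C'| + 1) := by gcongr
      _ = 1 := by field_simp
  have hκ2 : κ * (|C'| + 1) ≤ δ / 2 := by
    have := min_le_right (1 / (|C'| + 1)) (δ / (2 * (|C'| + 1)))
    calc κ * (|C'| + 1) ≤ (δ / (2 * (|C'| + 1))) * (|C'| + 1) := by gcongr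
      _ = δ / 2 := by field_simp
  have hLn : ‖Lc‖ ≤ |C| := by
    refine ContinuousLinearMap.opNorm_le_bound _ (abs_nonneg _) ?_
    intro ξ
    exact (hL ξ).trans (mul_le_mul_of_nonneg_right (le_abs_self C) (norm_nonneg _))
  have hmem1 : Lc ∈ Metric.closedBall (0 : E →L[ℂ] E) C0 := by
    rw [mem_closedBall_zero_iff]; linarith
  have hmem2 : L' ∈ Metric.closedBall (0 : E →L[ℂ] E) C0 := by
    rw [mem_closedBall_zero_iff]
    have : ‖L'‖ ≤ ‖Lc‖ + ‖Lc - L'‖ := by
      calc ‖L'‖ = ‖Lc - (Lc - L')‖ := by congr 1; abel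
        _ ≤ ‖Lc‖ + ‖Lc - L'‖ := norm_sub_le _ _
    linarith
  have hdist : dist Lc L' < δ := by
    rw [dist_eq_norm]; linarith
  have := hd Lc hmem1 L' hmem2 hdist
  simp only [hdet', dist_zero_right] at this
  exact this.le

end Crest.Agent.R174.GRDetSmall
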