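import Mathlib

/-! # R174 P3, G7b: a linear endomorphism with one almost vanishing functional has small determinant,
quantitative version. -/

set_option autoImplicit false

namespace Crest.Agent.R174.GRDetSmall

variable {E : Type*} [NormedAddCommGroup E] [NormedSpace ℂ E] [FiniteDimensional ℂ E]

/-- `|det L| ≤ K B^n` if `‖L ξ‖ ≤ B ‖ξ‖`. -/
theorem det_bound : ∃ K : ℝ, 0 < K ∧ ∀ (B : ℝ), 0 < B → ∀ (L : E →ₗ[ℂ] E),
    (∀ ξ, ‖L ξ‖ ≤ B * ‖ξ‖) → ‖LinearMap.det L‖ ≤ K * B ^ (Module.finrank ℂ E) := by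
  classical
  have hprop : ProperSpace (E →L[ℂ] E) := FiniteDimensional.proper ℂ _
  have hcomp : IsCompact (Metric.closedBall (0 : E →L[ℂ] E) 1) := isCompact_closedBall _ _
  have hcont : Continuous fun f : E →L[ℂ] E => f.det := ContinuousLinearMap.continuous_det
  obtain ⟨K, hK⟩ := hcomp.exists_bound_of_continuousOn hcont.continuousOn
  refine ⟨|K| + 1, by positivity, ?_⟩
  intro B hB L hL
  let L1 : E →ₗ[ℂ] E := ((B : ℂ)⁻¹) • L
  have hBc : (B : ℂ) ≠ 0 := by exact_mod_cast hB.ne'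
  have hL1 : L = (B : ℂ) • L1 := by
    simp only [L1, smul_smul]
    rw [mul_inv_cancel₀ hBc, one_smul]
  have hn : ‖LinearMap.toContinuousLinearMap L1‖ ≤ 1 := by
    refine ContinuousLinearMap.opNorm_le_bound _ zero_le_one fun ξ => ?_
    have : (LinearMap.toContinuousLinearMap L1) ξ = (B : ℂ)⁻¹ • L ξ := rfl
    rw [this, norm_smul, norm_inv, Complex.norm_real, Real.norm_of_nonneg hB.le, one_mul]
    calc B⁻¹ * ‖L ξ‖ ≤ B⁻¹ * (B * ‖ξ‖) := by gcongr; exact hL ξ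
      _ = ‖ξ‖ := by field_simp
  have h1 : ‖LinearMap.det L1‖ ≤ |K| + 1 := by
    have := hK (LinearMap.toContinuousLinearMap L1) (by rw [mem_closedBall_zero_iff]; exact hn)
    have h2 : (LinearMap.toContinuousLinearMap L1).det = LinearMap.det L1 := rfl
    rw [h2] at this
    exact this.trans ((le_abs_self K).trans (by linarith))
  rw [hL1, LinearMap.det_smul, norm_mul, norm_pow, Complex.norm_real, Real.norm_of_nonneg hB.le,
    mul_comm]
  gcongr

/-- `|det L| ≤ K B^(n-1) b` if in addition one functional is small on the range. -/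
theorem det_small2 (C' : ℝ) : ∃ K : ℝ, 0 < K ∧ ∀ (B b : ℝ), 0 < B → 0 < b →
    ∀ (L : E →ₗ[ℂ] E) (l : E →ₗ[ℂ] ℂ) (e : E),
    (∀ ξ, ‖L ξ‖ ≤ B * ‖ξ‖) → l e = 1 → ‖e‖ ≤ C' → (∀ ξ, ‖l (L ξ)‖ ≤ b * ‖ξ‖) →
    ‖LinearMap.det L‖ * B ≤ K * B ^ (Module.finrank ℂ E) * b := by
  classical
  obtain ⟨K, hK, hdet⟩ := det_bound (E := E)
  refine ⟨K * (1 + |C'|) ^ (Module.finrank ℂ E), by positivity, ?_⟩
  intro B b hB hb L l e hL hle he hsmall
  -- the transvection-like map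
  let t : ℂ := ((B / b : ℝ) : ℂ)
  have htn : ‖t‖ = B / b := by
    simp only [t, Complex.norm_real]
    exact Real.norm_of_nonneg (by positivity)
  let V : E →ₗ[ℂ] E := LinearMap.transvection (t • l) e
  have hV : LinearMap.det V = 1 + t := by
    simp only [V]
    rw [LinearMap.transvection.det, LinearMap.smul_apply, hle, smul_eq_mul, mul_one]
  have he' : ‖e‖ ≤ |C'| := he.trans (le_abs_self C')
  have hVL : ∀ ξ, ‖(V ∘ₗ L) ξ‖ ≤ (B * (1 + |C'|)) * ‖ξ‖ := by
    intro ξ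
    have h1 : (V ∘ₗ L) ξ = L ξ + (t * l (L ξ)) • e := rfl
    rw [h1]
    calc ‖L ξ + (t * l (L ξ)) • e‖ ≤ ‖L ξ‖ + ‖(t * l (L ξ)) • e‖ := norm_add_le _ _
      _ ≤ B * ‖ξ‖ + (B / b * (b * ‖ξ‖)) * |C'| := by
          rw [norm_smul, norm_mul, htn]
          gcongr
          · exact hL ξ
          · exact hsmall ξ
      _ = (B * (1 + |C'|)) * ‖ξ‖ := by field_simp
  have h2 := hdet (B * (1 + |C'|)) (by positivity) (V ∘ₗ L) hVL
  rw [LinearMap.det_comp, hV, norm_mul] at h2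
  have h3 : B / b ≤ ‖1 + t‖ := by
    have : 1 + t = ((1 + B / b : ℝ) : ℂ) := by simp only [t]; push_cast; ring
    rw [this, Complex.norm_real, Real.norm_of_nonneg (by positivity)]
    linarith
  have h4 : B / b * ‖LinearMap.det L‖ ≤ K * (B * (1 + |C'|)) ^ Module.finrank ℂ E :=
    (mul_le_mul_of_nonneg_right h3 (norm_nonneg _)).trans h2
  have h5 : ‖LinearMap.det L‖ * B = (B / b * ‖LinearMap.det L‖) * b := by field_simp
  rw [h5]
  calc (B / b * ‖LinearMap.det L‖) * b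
      ≤ (K * (B * (1 + |C'|)) ^ Module.finrank ℂ E) * b := by gcongr
    _ = K * (1 + |C'|) ^ Module.finrank ℂ E * B ^ Module.finrank ℂ E * b := by
        rw [mul_pow]; ring

end Crest.Agent.R174.GRDetSmall
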