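import Crest.Agent.R174.GRDefs

/-! # R174 P3: block embeddings at a position, `Jm` is unitary on unitaries and analytic there. -/

set_option autoImplicit false
open scoped Matrix.Norms.L2Operator

noncomputable section

namespace Crest.Agent.R174.GR

variable {ι A Q : Type} [Fintype ι] [LinearOrder ι] [Fintype A] [DecidableEq A]
  [Fintype Q] [DecidableEq Q]

/-- put the matrix `Y` (over the faces of type `rel q`) at position `q` -/
def Sys.emb (S : Sys ι A Q) (q : Q) (x : ι) :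
    Matrix (S.Fa (S.rel q)) (S.Fa (S.rel q)) ℂ →ₗ[ℂ] Matrix (S.Po x) (S.Po x) ℂ where
  toFun Y := Matrix.of fun p p' =>
    if h : p.1.2 = q ∧ p'.1.2 = q then
      Y ⟨p.1.1, p.2.1.trans (congrArg S.rel h.1)⟩ ⟨p'.1.1, p'.2.1.trans (congrArg S.rel h.2)⟩
    else 0
  map_add' Y Z := by
    ext p p'
    by_cases h : p.1.2 = q ∧ p'.1.2 = q
    · simp only [Matrix.of_apply, dif_pos h, Matrix.add_apply]
    · simp only [Matrix.of_apply, dif_neg h, Matrix.add_apply, add_zero]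
  map_smul' r Y := by
    ext p p'
    by_cases h : p.1.2 = q ∧ p'.1.2 = q
    · simp only [Matrix.of_apply, dif_pos h, Matrix.smul_apply, RingHom.id_apply]
    · simp only [Matrix.of_apply, dif_neg h, Matrix.smul_apply, smul_zero]

omit [Fintype ι] [Fintype Q] [Fintype A] in
theorem Sys.emb_apply (S : Sys ι A Q) (q : Q) (x : ι)
    (Y : Matrix (S.Fa (S.rel q)) (S.Fa (S.rel q)) ℂ) (p p' : S.Po x) :
    S.emb q x Y p p' = if h : p.1.2 = q ∧ p'.1.2 = q then
      Y ⟨p.1.1, p.2.1.trans (congrArg S.rel h.1)⟩ ⟨p'.1.1, p'.2.1.trans (congrArg S.rel h.2)⟩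
    else 0 := rfl

/-- the block of `J(X)` at position `q` -/
def Sys.blk (S : Sys ι A Q) (X : S.KA) (q : Q) : Matrix (S.Fa (S.rel q)) (S.Fa (S.rel q)) ℂ :=
  if S.pos q then X (S.rel q) else Ring.inverse (X (S.rel q))

theorem Sys.Jm_eq_sum (S : Sys ι A Q) (X : S.KA) (x : ι) :
    S.Jm X x = ∑ q : Q, S.emb q x (S.blk X q) := by
  ext p p'
  rw [Matrix.sum_apply]
  simp only [Sys.emb_apply, Sys.Jm, Matrix.of_apply]
  by_cases h : p.1.2 = p'.1.2
  · rw [dif_pos h, Finset.sum_eq_single p.1.2]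
    · rw [dif_pos ⟨rfl, h.symm⟩]
      rfl
    · intro q _ hq
      rw [dif_neg]
      exact fun h' => hq h'.1.symm
    · intro h'; exact absurd (Finset.mem_univ _) h'
  · rw [dif_neg h]
    symm
    refine Finset.sum_eq_zero fun q _ => ?_
    rw [dif_neg]
    rintro ⟨h1, h2⟩
    exact h (h1.trans h2.symm)

theorem Sys.emb_mul (S : Sys ι A Q) (q : Q) (x : ι) (hx : S.var q = x)
    (Y Z : Matrix (S.Fa (S.rel q)) (S.Fa (S.rel q)) ℂ) :
    S.emb q x Y * S.emb q x Z = S.emb q x (Y * Z) := by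
  ext p p'
  rw [Matrix.mul_apply]
  simp only [Sys.emb_apply]
  by_cases h : p.1.2 = q ∧ p'.1.2 = q
  · rw [dif_pos h, Matrix.mul_apply]
    symm
    refine Finset.sum_of_injOn
      (fun a : S.Fa (S.rel q) => (⟨(a.1, q), a.2, hx⟩ : S.Po x)) ?_ ?_ ?_ ?_
    · intro a _ b _ hab
      simp only [Subtype.mk.injEq, Prod.mk.injEq, and_true] at hab
      exact Subtype.ext hab
    · intro a _; exact Finset.mem_coe.2 (Finset.mem_univ _)
    · intro r _ hr
      by_cases hrq : r.1.2 = q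
      · exfalso
        apply hr
        refine ⟨⟨r.1.1, r.2.1.trans (congrArg S.rel hrq)⟩, Finset.mem_coe.2 (Finset.mem_univ _), ?_⟩
        apply Subtype.ext
        exact Prod.ext rfl hrq.symm
      · rw [dif_neg (fun h' => hrq h'.2), zero_mul]
    · intro a _
      rw [dif_pos ⟨h.1, rfl⟩, dif_pos ⟨rfl, h.2⟩]
  · rw [dif_neg h]
    refine Finset.sum_eq_zero fun r _ => ?_
    by_cases h1 : p.1.2 = q
    · have h2 : ¬ p'.1.2 = q := fun h2 => h ⟨h1, h2⟩
      rw [dif_neg (c := r.1.2 = q ∧ p'.1.2 = q) (fun h' => h2 h'.2), mul_zero]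
    · rw [dif_neg (c := p.1.2 = q ∧ r.1.2 = q) (fun h' => h1 h'.1), zero_mul]

omit [Fintype ι] in
theorem Sys.emb_eq_zero (S : Sys ι A Q) (q : Q) (x : ι) (hx : S.var q ≠ x)
    (Y : Matrix (S.Fa (S.rel q)) (S.Fa (S.rel q)) ℂ) : S.emb q x Y = 0 := by
  ext p p'
  rw [Sys.emb_apply, dif_neg, Matrix.zero_apply]
  rintro ⟨h, -⟩
  exact hx (h ▸ p.2.2)

theorem Sys.emb_mul' (S : Sys ι A Q) (q : Q) (x : ι)
    (Y Z : Matrix (S.Fa (S.rel q)) (S.Fa (S.rel q)) ℂ) :
    S.emb q x Y * S.emb q x Z = S.emb q x (Y * Z) := by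
  by_cases hx : S.var q = x
  · exact S.emb_mul q x hx Y Z
  · rw [S.emb_eq_zero q x hx, S.emb_eq_zero q x hx, zero_mul, S.emb_eq_zero q x hx]

theorem Sys.emb_mul_of_ne (S : Sys ι A Q) (q q' : Q) (hq : q ≠ q') (x : ι)
    (Y : Matrix (S.Fa (S.rel q)) (S.Fa (S.rel q)) ℂ)
    (Z : Matrix (S.Fa (S.rel q')) (S.Fa (S.rel q')) ℂ) :
    S.emb q x Y * S.emb q' x Z = 0 := by
  ext p p'
  rw [Matrix.mul_apply, Matrix.zero_apply]
  refine Finset.sum_eq_zero fun r _ => ?_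
  rw [Sys.emb_apply, Sys.emb_apply]
  by_cases h1 : r.1.2 = q
  · rw [dif_neg (c := r.1.2 = q' ∧ p'.1.2 = q') (fun h' => hq (h1.symm.trans h'.1)), mul_zero]
  · rw [dif_neg (c := p.1.2 = q ∧ r.1.2 = q) (fun h' => h1 h'.2), zero_mul]

omit [Fintype ι] [Fintype Q] [Fintype A] in
theorem Sys.emb_star (S : Sys ι A Q) (q : Q) (x : ι)
    (Y : Matrix (S.Fa (S.rel q)) (S.Fa (S.rel q)) ℂ) :
    star (S.emb q x Y) = S.emb q x (star Y) := by
  ext p p'
  rw [Matrix.star_apply, Sys.emb_apply, Sys.emb_apply]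
  by_cases h : p.1.2 = q ∧ p'.1.2 = q
  · rw [dif_pos h, dif_pos ⟨h.2, h.1⟩, Matrix.star_apply]
  · rw [dif_neg h, dif_neg (fun h' => h ⟨h'.2, h'.1⟩), star_zero]

theorem Sys.sum_emb_one (S : Sys ι A Q) (x : ι) :
    ∑ q : Q, S.emb q x (1 : Matrix (S.Fa (S.rel q)) (S.Fa (S.rel q)) ℂ) = 1 := by
  ext p p'
  rw [Matrix.sum_apply]
  simp only [Sys.emb_apply]
  by_cases h : p.1.2 = p'.1.2
  · rw [Finset.sum_eq_single p.1.2]
    · rw [dif_pos ⟨rfl, h.symm⟩, Matrix.one_apply, Matrix.one_apply]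
      by_cases h2 : p.1.1 = p'.1.1
      · rw [if_pos (Subtype.ext h2), if_pos (Subtype.ext (Prod.ext h2 h))]
      · rw [if_neg (fun h' => h2 (congrArg Subtype.val h')),
          if_neg (fun h' => h2 (by rw [h']))]
    · intro q _ hq
      rw [dif_neg]
      exact fun h' => hq h'.1.symm
    · intro h'; exact absurd (Finset.mem_univ _) h'
  · rw [Matrix.one_apply, if_neg (fun h' => h (by rw [h']))]
    refine Finset.sum_eq_zero fun q _ => ?_
    rw [dif_neg]
    rintro ⟨h1, h2⟩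
    exact h (h1.trans h2.symm)

omit [LinearOrder ι] [Fintype ι] in
theorem pi_unitary {B : ι → Type} [∀ i, Ring (B i)] [∀ i, StarRing (B i)]
    {X : (i : ι) → B i} : X ∈ unitary ((i : ι) → B i) ↔ ∀ i, X i ∈ unitary (B i) := by
  rw [Unitary.mem_iff]
  constructor
  · intro h i
    rw [Unitary.mem_iff]
    exact ⟨congrFun h.1 i, congrFun h.2 i⟩
  · intro h
    exact ⟨funext fun i => (Unitary.mem_iff.1 (h i)).1, funext fun i => (Unitary.mem_iff.1 (h i)).2⟩

theorem ringInverse_unitary {B : Type} [Ring B] [StarRing B] {u : B} (hu : u ∈ unitary B) :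
    Ring.inverse u = star u := by
  have h := Unitary.mem_iff.1 hu
  let v : Bˣ := ⟨u, star u, h.2, h.1⟩
  exact Ring.inverse_unit v

theorem Sys.blk_unitary (S : Sys ι A Q) {X : S.KA} (hX : X ∈ unitary S.KA) (q : Q) :
    S.blk X q ∈ unitary (Matrix (S.Fa (S.rel q)) (S.Fa (S.rel q)) ℂ) := by
  have h := pi_unitary.1 hX (S.rel q)
  unfold Sys.blk
  by_cases hp : S.pos q = true
  · rw [if_pos hp]; exact h
  · rw [if_neg hp, ringInverse_unitary h]
    exact Unitary.star_mem h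

/-- sum of unitary blocks -/
theorem Sys.sum_emb_unitary (S : Sys ι A Q)
    (Y : (q : Q) → Matrix (S.Fa (S.rel q)) (S.Fa (S.rel q)) ℂ)
    (hY : ∀ q, Y q ∈ unitary (Matrix (S.Fa (S.rel q)) (S.Fa (S.rel q)) ℂ)) (x : ι) :
    (∑ q : Q, S.emb q x (Y q)) ∈ unitary (Matrix (S.Po x) (S.Po x) ℂ) := by
  have h1 : ∀ Y Z : (q : Q) → Matrix (S.Fa (S.rel q)) (S.Fa (S.rel q)) ℂ,
      (∑ q : Q, S.emb q x (Y q)) * (∑ q : Q, S.emb q x (Z q))
        = ∑ q : Q, S.emb q x (Y q * Z q) := by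
    intro Y Z
    rw [Finset.sum_mul_sum]
    refine Finset.sum_congr rfl fun q _ => ?_
    rw [Finset.sum_eq_single q]
    · exact S.emb_mul' q x _ _
    · intro q' _ hq'
      exact S.emb_mul_of_ne q q' (Ne.symm hq') x _ _
    · intro h'; exact absurd (Finset.mem_univ _) h'
  have h2 : star (∑ q : Q, S.emb q x (Y q)) = ∑ q : Q, S.emb q x (star (Y q)) := by
    rw [star_sum]; exact Finset.sum_congr rfl fun q _ => S.emb_star q x _
  rw [Unitary.mem_iff, h2, h1, h1]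
  constructor
  · rw [← S.sum_emb_one x]
    exact Finset.sum_congr rfl fun q _ => by rw [(Unitary.mem_iff.1 (hY q)).1]
  · rw [← S.sum_emb_one x]
    exact Finset.sum_congr rfl fun q _ => by rw [(Unitary.mem_iff.1 (hY q)).2]

theorem Sys.Jm_unitary (S : Sys ι A Q) {X : S.KA} (hX : X ∈ unitary S.KA) :
    S.Jm X ∈ unitary S.VA := by
  rw [pi_unitary]
  intro x
  rw [S.Jm_eq_sum]
  exact S.sum_emb_unitary _ (fun q => S.blk_unitary hX q) x

theorem Sys.blk_contDiffAt (S : Sys ι A Q) (n : WithTop ℕ∞) {X : S.KA} (hX : ∀ i, IsUnit (X i))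
    (q : Q) : ContDiffAt ℂ n (fun X : S.KA => S.blk X q) X := by
  unfold Sys.blk
  have h0 : ContDiffAt ℂ n (fun X : S.KA => X (S.rel q)) X :=
    contDiffAt_pi.1 contDiffAt_id (S.rel q)
  by_cases hp : S.pos q = true
  · simp only [hp, if_true]; exact h0
  · simp only [if_neg hp]
    obtain ⟨u, hu⟩ := hX (S.rel q)
    have h1 : ContDiffAt ℂ n Ring.inverse (X (S.rel q)) := by
      rw [← hu]; exact contDiffAt_ringInverse ℂ u
    exact ContDiffAt.comp X h1 h0

theorem Sys.Jm_contDiffAt (S : Sys ι A Q) (n : WithTop ℕ∞) {X : S.KA} (hX : ∀ i, IsUnit (X i)) :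
    ContDiffAt ℂ n S.Jm X := by
  rw [contDiffAt_pi]
  intro x
  have : (fun X : S.KA => S.Jm X x) = fun X => ∑ q : Q, S.emb q x (S.blk X q) := by
    funext X; exact S.Jm_eq_sum X x
  rw [this]
  refine ContDiffAt.sum fun q _ => ?_
  have hL : ContDiff ℂ n (LinearMap.toContinuousLinearMap (S.emb q x)) :=
    ContinuousLinearMap.contDiff _
  exact (hL.contDiffAt (x := S.blk X q)).comp X (S.blk_contDiffAt n hX q)

theorem isUnit_of_unitary {B : Type} [Ring B] [StarRing B] {u : B} (hu : u ∈ unitary B) :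
    IsUnit u := by
  have h := Unitary.mem_iff.1 hu
  exact ⟨⟨u, star u, h.2, h.1⟩, rfl⟩

end Crest.Agent.R174.GR
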