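import Crest.Agent.R174.GREmb
import Crest.Agent.R174.GRDelta
import Crest.Agent.R174.GRDetSmall2
import Crest.Agent.R174.GRLocDef

/-! # R174 P3: T4 (localisation) from T1 and the localisation data. -/

set_option autoImplicit false
open MeasureTheory
open scoped Matrix.Norms.L2Operator

noncomputable section

namespace Crest.Agent.R174.GR.T4P

open Crest.Agent.R174.GR Crest.Agent.R174.GRDetSmall

variable {ι A Q : Type} [Fintype ι] [LinearOrder ι] [Fintype A] [DecidableEq A]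
  [Fintype Q] [DecidableEq Q]

/-- `Ring.inverse` in a product -/
theorem pi_ringInverse {κ : Type} {B : κ → Type} [∀ i, Ring (B i)] {X : (i : κ) → B i}
    (hX : IsUnit X) (i : κ) : Ring.inverse X i = Ring.inverse (X i) := by
  obtain ⟨u, rfl⟩ := hX
  rw [Ring.inverse_unit]
  let v : (B i)ˣ := ⟨(u : (i : κ) → B i) i, ((u⁻¹ : ((i : κ) → B i)ˣ) : (i : κ) → B i) i,
    by have := congrFun u.mul_inv i; simpa using this,
    by have := congrFun u.inv_mul i; simpa using this⟩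
  exact (Ring.inverse_unit v).symm

theorem pi_isUnit {κ : Type} {B : κ → Type} [∀ i, Ring (B i)] {X : (i : κ) → B i}
    (hX : ∀ i, IsUnit (X i)) : IsUnit X := by
  choose u hu using hX
  refine ⟨⟨X, fun i => ((u i)⁻¹ : (B i)ˣ), ?_, ?_⟩, rfl⟩
  · funext i; simp [← hu i]
  · funext i; simp [← hu i]

theorem norm_unitary_le_one {B : Type} [NormedRing B] [StarRing B] [CStarRing B] {u : B}
    (hu : u ∈ unitary B) : ‖u‖ ≤ 1 := by
  rcases subsingleton_or_nontrivial B with h | h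
  · simp [Subsingleton.elim u 0]
  · exact (CStarRing.norm_of_mem_unitary hu).le

/-- the quadratic form of a compression -/
theorem quad_compress {N F : Type} [Fintype N] [DecidableEq N] [Fintype F] [DecidableEq F]
    (U Y : Matrix N N ℂ) (r : F → N) (c : F → ℂ) :
    dotProduct (star c) (((star U * Y * U).submatrix r r).mulVec c)
      = dotProduct (star ((U.submatrix id r).mulVec c)) (Y.mulVec ((U.submatrix id r).mulVec c)) := by
  have h1 : (star U * Y * U).submatrix r r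
      = (U.submatrix id r).conjTranspose * Y * (U.submatrix id r) := by
    rw [← Matrix.submatrix_mul_equiv (star U * Y) U r (Equiv.refl N) r,
      ← Matrix.submatrix_mul_equiv (star U) Y r (Equiv.refl N) (Equiv.refl N)]
    rfl
  rw [h1, ← Matrix.mulVec_mulVec, ← Matrix.mulVec_mulVec, Matrix.star_mulVec,
    Matrix.dotProduct_mulVec]

theorem sum_sq_compress {N F : Type} [Fintype N] [DecidableEq N] [Fintype F] [DecidableEq F]
    (U : Matrix N N ℂ) (hU : U ∈ unitary (Matrix N N ℂ)) (r : F → N) (hr : Function.Injective r)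
    (c : F → ℂ) (hc : dotProduct (star c) c = 1) :
    ∑ j, ‖(U.submatrix id r).mulVec c j‖ ^ 2 = 1 := by
  have h := quad_compress U 1 r c
  rw [mul_one, (Unitary.mem_iff.1 hU).1, Matrix.one_mulVec] at h
  have h1 : (1 : Matrix N N ℂ).submatrix r r = 1 := by
    ext a b
    rw [Matrix.submatrix_apply, Matrix.one_apply, Matrix.one_apply]
    simp [hr.eq_iff]
  rw [h1, Matrix.one_mulVec, hc] at h
  have h2 : dotProduct (star ((U.submatrix id r).mulVec c)) ((U.submatrix id r).mulVec c)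
      = ((∑ j, ‖(U.submatrix id r).mulVec c j‖ ^ 2 : ℝ) : ℂ) := by
    unfold dotProduct
    push_cast
    refine Finset.sum_congr rfl fun j _ => ?_
    rw [Pi.star_apply, RCLike.star_def, mul_comm, Complex.mul_conj, Complex.normSq_eq_norm_sq]
    push_cast; rfl
  rw [h2] at h
  exact_mod_cast h.symm

/-- quadratic functional on `KA` -/
def quadL (S : Sys ι A Q) (x : ι) (c : S.Fa x → ℂ) : S.KA →ₗ[ℂ] ℂ where
  toFun Y := dotProduct (star c) ((Y x).mulVec c)
  map_add' Y Z := by rw [Pi.add_apply, Matrix.add_mulVec, dotProduct_add]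
  map_smul' r Y := by rw [Pi.smul_apply, Matrix.smul_mulVec, dotProduct_smul]; rfl

theorem exists_e (S : Sys ι A Q) : ∃ C' : ℝ, ∀ (x : ι) (c : S.Fa x → ℂ),
    dotProduct (star c) c = 1 → ∃ e : S.KA, quadL S x c e = 1 ∧ ‖e‖ ≤ C' := by
  classical
  refine ⟨∑ x : ι, ∑ a : S.Fa x, ∑ b : S.Fa x, ‖(Matrix.single a b (1:ℂ))‖, ?_⟩
  intro x c hc
  have hcn : ∀ a, ‖c a‖ ≤ 1 := by
    intro a
    have h2 : dotProduct (star c) c = ((∑ j, ‖c j‖ ^ 2 : ℝ) : ℂ) := by
      unfold dotProduct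
      push_cast
      refine Finset.sum_congr rfl fun j _ => ?_
      rw [Pi.star_apply, RCLike.star_def, mul_comm, Complex.mul_conj, Complex.normSq_eq_norm_sq]
      push_cast; rfl
    rw [h2] at hc
    have h3 : (∑ j, ‖c j‖ ^ 2 : ℝ) = 1 := by exact_mod_cast hc
    have h4 : ‖c a‖ ^ 2 ≤ 1 := by
      rw [← h3]
      exact Finset.single_le_sum (f := fun j => ‖c j‖ ^ 2) (fun j _ => by positivity)
        (Finset.mem_univ a)
    nlinarith [norm_nonneg (c a)]
  refine ⟨Pi.single x (Matrix.vecMulVec c (star c)), ?_, ?_⟩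
  · change dotProduct (star c) (((Pi.single x (Matrix.vecMulVec c (star c)) : S.KA) x).mulVec c) = 1
    rw [Pi.single_eq_same, Matrix.vecMulVec_mulVec]
    simp [hc]
  · have h1 : ‖Matrix.vecMulVec c (star c)‖
        ≤ ∑ a : S.Fa x, ∑ b : S.Fa x, ‖(Matrix.single a b (1:ℂ))‖ := by
      have : Matrix.vecMulVec c (star c)
          = ∑ a, ∑ b, (c a * star (c b)) • (Matrix.single a b (1:ℂ)) := by
        conv_lhs => rw [Matrix.matrix_eq_sum_single (Matrix.vecMulVec c (star c))]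
        refine Finset.sum_congr rfl fun a _ => Finset.sum_congr rfl fun b _ => ?_
        rw [Matrix.smul_single, smul_eq_mul, mul_one]
        rfl
      rw [this]
      refine (norm_sum_le _ _).trans (Finset.sum_le_sum fun a _ => ?_)
      refine (norm_sum_le _ _).trans (Finset.sum_le_sum fun b _ => ?_)
      rw [norm_smul, norm_mul, norm_star]
      have h5 := mul_le_mul (hcn a) (hcn b) (norm_nonneg _) zero_le_one
      rw [one_mul] at h5
      exact (mul_le_mul_of_nonneg_right h5 (norm_nonneg _)).trans (one_mul _).le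
    have h2 : (0:ℝ) ≤ ∑ x : ι, ∑ a : S.Fa x, ∑ b : S.Fa x, ‖(Matrix.single a b (1:ℂ))‖ :=
      Finset.sum_nonneg fun x _ => Finset.sum_nonneg fun a _ => Finset.sum_nonneg fun b _ =>
        norm_nonneg _
    rw [pi_norm_le_iff_of_nonneg h2]
    intro y
    by_cases hy : y = x
    · subst hy
      rw [Pi.single_eq_same]
      refine h1.trans ?_
      exact Finset.single_le_sum
        (f := fun x : ι => ∑ a : S.Fa x, ∑ b : S.Fa x, ‖(Matrix.single a b (1:ℂ))‖)
        (fun x _ => Finset.sum_nonneg fun a _ => Finset.sum_nonneg fun b _ =>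
        norm_nonneg _) (Finset.mem_univ y)
    · rw [Pi.single_eq_of_ne hy, norm_zero]; exact h2

/-- the map `R X = M* J(X)` -/
def Rm (S : Sys ι A Q) (M : S.VA) (X : S.KA) : S.VA := star M * S.Jm X

theorem Rm_unitary (S : Sys ι A Q) {M : S.VA} (hM : M ∈ unitary S.VA) {X : S.KA}
    (hX : X ∈ unitary S.KA) : Rm S M X ∈ unitary S.VA :=
  mul_mem (Unitary.star_mem hM) (S.Jm_unitary hX)

theorem Rm_contDiffAt (S : Sys ι A Q) (M : S.VA) {X : S.KA} (hX : X ∈ unitary S.KA)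
    (n : WithTop ℕ∞) : ContDiffAt ℂ n (Rm S M) X := by
  have h1 : ContDiffAt ℂ n S.Jm X :=
    S.Jm_contDiffAt n (fun i => isUnit_of_unitary (pi_unitary.1 hX i))
  exact contDiffAt_const.mul h1

theorem finrank_ker_eq {N : Type} [Fintype N] [DecidableEq N] (M J : Matrix N N ℂ)
    (hM : M ∈ unitary (Matrix N N ℂ)) :
    LinearMap.ker (Matrix.mulVecLin (star M * J - 1)) = LinearMap.ker (Matrix.mulVecLin (J - M)) := by
  ext v
  rw [LinearMap.mem_ker, LinearMap.mem_ker, Matrix.mulVecLin_apply, Matrix.mulVecLin_apply]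
  have h1 : star M * J - 1 = star M * (J - M) := by
    rw [mul_sub, (Unitary.mem_iff.1 hM).1]
  have h2 : J - M = M * (star M * J - 1) := by
    rw [mul_sub, ← mul_assoc, (Unitary.mem_iff.1 hM).2, one_mul, mul_one]
  constructor
  · intro h
    rw [h2, ← Matrix.mulVec_mulVec, h, Matrix.mulVec_zero]
  · intro h
    rw [h1, ← Matrix.mulVec_mulVec, h, Matrix.mulVec_zero]

/-- norm bound of a compression operator -/
theorem Cop_bound {𝔸 𝕍 : Type} [NormedRing 𝔸] [StarRing 𝔸] [CStarRing 𝔸] [NormedAlgebra ℂ 𝔸]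
    [StarModule ℂ 𝔸] [FiniteDimensional ℂ 𝔸]
    [NormedRing 𝕍] [StarRing 𝕍] [CStarRing 𝕍] [NormedAlgebra ℂ 𝕍]
    [StarModule ℂ 𝕍] [FiniteDimensional ℂ 𝕍] (ρ : 𝕍 →ₗ[ℂ] 𝔸) :
    ∃ C : ℝ, 0 < C ∧ ∀ U ∈ unitary 𝕍, ∀ Y, ‖Cop ρ U Y‖ ≤ C * ‖Y‖ := by
  refine ⟨‖LinearMap.toContinuousLinearMap ρ‖ + 1, by positivity, ?_⟩
  intro U hU Y
  have h1 : Cop ρ U Y = (LinearMap.toContinuousLinearMap ρ) (star U * Y * U) := rfl
  rw [h1]
  have h2 : ‖star U * Y * U‖ ≤ ‖Y‖ := by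
    have a1 := norm_unitary_le_one hU
    have a2 := norm_unitary_le_one (Unitary.star_mem hU)
    calc ‖star U * Y * U‖ ≤ ‖star U‖ * ‖Y‖ * ‖U‖ :=
          (norm_mul_le _ _).trans (by gcongr; exact norm_mul_le _ _)
      _ ≤ 1 * ‖Y‖ * 1 := by gcongr
      _ = ‖Y‖ := by ring
  calc ‖(LinearMap.toContinuousLinearMap ρ) (star U * Y * U)‖
      ≤ ‖LinearMap.toContinuousLinearMap ρ‖ * ‖star U * Y * U‖ :=
        ContinuousLinearMap.le_opNorm _ _
    _ ≤ (‖LinearMap.toContinuousLinearMap ρ‖ + 1) * ‖Y‖ := by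
        gcongr
        linarith

/-- uniform bound for `Aop` -/
theorem Aop_bound {𝔸 𝕍 : Type} [NormedRing 𝔸] [StarRing 𝔸] [CStarRing 𝔸] [NormedAlgebra ℂ 𝔸]
    [StarModule ℂ 𝔸] [FiniteDimensional ℂ 𝔸]
    [NormedRing 𝕍] [StarRing 𝕍] [CStarRing 𝕍] [NormedAlgebra ℂ 𝕍]
    [StarModule ℂ 𝕍] [FiniteDimensional ℂ 𝕍] (Φ : 𝔸 → 𝕍)
    (hΦ : ∀ σ ∈ unitary 𝔸, ContDiffAt ℂ 1 Φ σ) (hΦu : ∀ σ ∈ unitary 𝔸, Φ σ ∈ unitary 𝕍) :
    ∃ C : ℝ, 0 < C ∧ ∀ σ ∈ unitary 𝔸, ∀ ξ, ‖Aop Φ σ ξ‖ ≤ C * ‖ξ‖ := by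
  have hprop : ProperSpace 𝔸 := FiniteDimensional.proper ℂ _
  have hcomp : IsCompact (unitary 𝔸 : Set 𝔸) := by
    refine Metric.isCompact_of_isClosed_isBounded isClosed_unitary ?_
    refine (Metric.isBounded_closedBall (x := (0 : 𝔸)) (r := 1)).subset ?_
    intro u hu
    rw [mem_closedBall_zero_iff]
    exact norm_unitary_le_one hu
  have hcont : ContinuousOn (fun σ => fderiv ℂ Φ σ) (unitary 𝔸 : Set 𝔸) := by
    intro σ hσ
    have h1 : ContDiffAt ℂ 1 Φ σ := hΦ σ hσ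
    exact (h1.continuousAt_fderiv (by norm_num)).continuousWithinAt
  obtain ⟨C, hC⟩ := hcomp.exists_bound_of_continuousOn hcont
  refine ⟨|C| + 1, by positivity, ?_⟩
  intro σ hσ ξ
  change ‖fderiv ℂ Φ σ (ξ * σ) * Ring.inverse (Φ σ)‖ ≤ _
  have h1 : ‖Ring.inverse (Φ σ)‖ ≤ 1 := by
    rw [ringInverse_unitary (hΦu σ hσ)]
    exact norm_unitary_le_one (Unitary.star_mem (hΦu σ hσ))
  have h2 : ‖ξ * σ‖ ≤ ‖ξ‖ := by
    calc ‖ξ * σ‖ ≤ ‖ξ‖ * ‖σ‖ := norm_mul_le _ _
      _ ≤ ‖ξ‖ * 1 := by gcongr; exact norm_unitary_le_one hσ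
      _ = ‖ξ‖ := mul_one _
  calc ‖fderiv ℂ Φ σ (ξ * σ) * Ring.inverse (Φ σ)‖
      ≤ ‖fderiv ℂ Φ σ (ξ * σ)‖ * ‖Ring.inverse (Φ σ)‖ := norm_mul_le _ _
    _ ≤ (‖fderiv ℂ Φ σ‖ * ‖ξ * σ‖) * 1 := by
        gcongr
        exact ContinuousLinearMap.le_opNorm _ _
    _ ≤ (|C| + 1) * ‖ξ‖ := by
        rw [mul_one]
        have := (hC σ hσ).trans (le_abs_self C)
        gcongr
        linarith

/-- component formula for a function applied componentwise to `R`. -/
theorem Aop_pi {𝔸 : Type} [NormedRing 𝔸] [NormedAlgebra ℂ 𝔸]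
    {κ : Type} [Fintype κ] {B : κ → Type} [∀ i, NormedRing (B i)] [∀ i, NormedAlgebra ℂ (B i)]
    (R : 𝔸 → (i : κ) → B i) (h : (i : κ) → B i → B i) (σ : 𝔸)
    (hR : DifferentiableAt ℂ R σ) (hh : ∀ i, DifferentiableAt ℂ (h i) (R σ i))
    (hRu : IsUnit (R σ)) (hhu : ∀ i, IsUnit (h i (R σ i))) (ξ : 𝔸) (i : κ) :
    Aop (fun X => (fun i => h i (R X i) : (i : κ) → B i)) σ ξ i
      = fderiv ℂ (h i) (R σ i) ((Aop R σ ξ) i * R σ i) * Ring.inverse (h i (R σ i)) := by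
  have hRi : ∀ i, HasFDerivAt (fun X => R X i)
      ((ContinuousLinearMap.proj (R := ℂ) (φ := B) i).comp (fderiv ℂ R σ)) σ := by
    intro i
    exact (hasFDerivAt_pi'.1 hR.hasFDerivAt) i
  have hcomp : ∀ i, HasFDerivAt (fun X => h i (R X i))
      ((fderiv ℂ (h i) (R σ i)).comp
        ((ContinuousLinearMap.proj (R := ℂ) (φ := B) i).comp (fderiv ℂ R σ))) σ := by
    intro i
    exact (hh i).hasFDerivAt.comp σ (hRi i)
  have hpi : HasFDerivAt (fun X => (fun i => h i (R X i) : (i : κ) → B i))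
      (ContinuousLinearMap.pi fun i => (fderiv ℂ (h i) (R σ i)).comp
        ((ContinuousLinearMap.proj (R := ℂ) (φ := B) i).comp (fderiv ℂ R σ))) σ :=
    hasFDerivAt_pi.2 hcomp
  have hΦu : IsUnit (fun i => h i (R σ i) : (i : κ) → B i) := pi_isUnit hhu
  have e1 : Aop (fun X => (fun i => h i (R X i) : (i : κ) → B i)) σ ξ
      = fderiv ℂ (fun X => (fun i => h i (R X i) : (i : κ) → B i)) σ (ξ * σ)
        * Ring.inverse (fun i => h i (R σ i) : (i : κ) → B i) := rfl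
  have e2 : Aop R σ ξ * R σ = fderiv ℂ R σ (ξ * σ) := by
    change fderiv ℂ R σ (ξ * σ) * Ring.inverse (R σ) * R σ = _
    rw [mul_assoc, Ring.inverse_mul_cancel _ hRu, mul_one]
  have e3 : (Aop R σ ξ) i * R σ i = (fderiv ℂ R σ (ξ * σ)) i := congrFun e2 i
  rw [e1, hpi.fderiv, Pi.mul_apply, pi_ringInverse hΦu, e3]
  rfl

end Crest.Agent.R174.GR.T4P
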