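import Crest.Agent.R174.GRT4

/-! # R174 P3: T4 (localisation). -/

set_option autoImplicit false
open MeasureTheory
open scoped Matrix.Norms.L2Operator

noncomputable section

namespace Crest.Agent.R174.GR.T4P

open Crest.Agent.R174.GR Crest.Agent.R174.GRDetSmall Crest.Agent.R174.GR.Delta

variable {ι A Q : Type} [Fintype ι] [LinearOrder ι] [Fintype A] [DecidableEq A]
  [Fintype Q] [DecidableEq Q]

/-- reference port -/
def rref (S : Sys ι A Q) (q0 : ι → Q) (hq : ∀ x, S.rel (q0 x) = x ∧ S.var (q0 x) = x) (x : ι)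
    (a : S.Fa x) : S.Po x := ⟨(a.1, q0 x), by rw [(hq x).1]; exact a.2, (hq x).2⟩

theorem rref_inj (S : Sys ι A Q) (q0 : ι → Q) (hq : ∀ x, S.rel (q0 x) = x ∧ S.var (q0 x) = x)
    (x : ι) : Function.Injective (rref S q0 hq x) := by
  intro a b hab
  have := congrArg (fun p : S.Po x => p.1.1) hab
  exact Subtype.ext this

/-- pointwise bound of the integrand -/
theorem pointwise (S : Sys ι A Q) (q0 : ι → Q) (hq : ∀ x, S.rel (q0 x) = x ∧ S.var (q0 x) = x)
    (M : S.VA) (hM : M ∈ unitary S.VA) (K δ B b : ℝ) (hB : 1 ≤ B) (hb : 0 ≤ b)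
    (H : (x : ι) → ℂ × Matrix (S.Po x) (S.Po x) ℂ → Matrix (S.Po x) (S.Po x) ℂ)
    (hH : ∀ x, LocData (S.Po x) K δ B b (H x))
    (CR : ℝ) (hCR0 : 0 < CR)
    (hCR : ∀ σ ∈ unitary S.KA, ∀ ξ, ‖Aop (Rm S M) σ ξ‖ ≤ CR * ‖ξ‖)
    (Cr : ℝ) (hCr0 : 0 < Cr)
    (hCr : ∀ U ∈ unitary S.VA, ∀ Y, ‖Cop (S.refR q0 hq) U Y‖ ≤ Cr * ‖Y‖)
    (σ : S.KA) (hσ : σ ∈ unitary S.KA) (U : S.VA) (hU : U ∈ unitary S.VA)
    (W : S.VA) (hW : W ∈ unitary S.VA) (d : (x : ι) → S.Po x → ℂ)
    (hdiag : ∀ x, Rm S M σ x = W x * Matrix.diagonal (d x) * star (W x))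
    (x : ι) (hx : (Finset.univ.filter (fun j => ‖d x j - 1‖ < δ)).card < Fintype.card (S.Fa x)) :
    (∀ ξ, ‖(Cop (S.refR q0 hq) U ∘ₗ Aop (fun X => (fun x => H x (1, Rm S M X x) : S.VA)) σ) ξ‖
      ≤ (Cr * (|K| * CR) * B) * ‖ξ‖) ∧
    ∃ c : S.Fa x → ℂ, dotProduct (star c) c = 1 ∧
      ∀ ξ, ‖quadL S x c
        ((Cop (S.refR q0 hq) U ∘ₗ Aop (fun X => (fun x => H x (1, Rm S M X x) : S.VA)) σ) ξ)‖
      ≤ (|K| * CR * b) * ‖ξ‖ := by
  classical
  have hR1 : ContDiffAt ℂ 1 (Rm S M) σ := Rm_contDiffAt S M hσ 1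
  have hRd : DifferentiableAt ℂ (Rm S M) σ := hR1.differentiableAt (by norm_num)
  have hRu : Rm S M σ ∈ unitary S.VA := Rm_unitary S hM hσ
  have hRux : ∀ x, Rm S M σ x ∈ unitary (Matrix (S.Po x) (S.Po x) ℂ) := pi_unitary.1 hRu
  have hone : ((1 : ℝ) : ℂ) = 1 := Complex.ofReal_one
  have hhd : ∀ x, DifferentiableAt ℂ (fun Z => H x (1, Z)) (Rm S M σ x) := by
    intro y
    have h1 := (hH y).smooth 1 ⟨zero_le_one, le_refl 1⟩ (Rm S M σ y) (hRux y)
    rw [hone] at h1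
    have h2 : DifferentiableAt ℂ (H y) (1, Rm S M σ y) := h1.differentiableAt (by simp)
    exact h2.comp (Rm S M σ y) ((differentiableAt_const _).prodMk differentiableAt_id)
  have hhu : ∀ x, IsUnit (H x (1, Rm S M σ x)) := by
    intro y
    have h1 := (hH y).unit 1 ⟨zero_le_one, le_refl 1⟩ (Rm S M σ y) (hRux y)
    rwa [hone] at h1
  have hform : ∀ (ξ : S.KA) (y : ι),
      Aop (fun X => (fun x => H x (1, Rm S M X x) : S.VA)) σ ξ y
      = fderiv ℂ (fun Z => H y (1, Z)) (Rm S M σ y) ((Aop (Rm S M) σ ξ) y * Rm S M σ y)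
        * Ring.inverse (H y (1, Rm S M σ y)) := fun ξ y =>
    Aop_pi (Rm S M) (fun x Z => H x (1, Z)) σ hRd hhd (isUnit_of_unitary hRu) hhu ξ y
  have hAn : ∀ (ξ : S.KA) (y : ι), ‖(Aop (Rm S M) σ ξ) y‖ ≤ CR * ‖ξ‖ := fun ξ y =>
    (norm_le_pi_norm _ y).trans (hCR σ hσ ξ)
  have hAn2 : ∀ ξ : S.KA, ‖Aop (fun X => (fun x => H x (1, Rm S M X x) : S.VA)) σ ξ‖
      ≤ (|K| * CR) * B * ‖ξ‖ := by
    intro ξ
    rw [pi_norm_le_iff_of_nonneg (by positivity)]
    intro y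
    rw [hform ξ y]
    refine ((hH y).bound _ (hRux y) _).trans ?_
    calc K * B * ‖(Aop (Rm S M) σ ξ) y‖ ≤ |K| * B * (CR * ‖ξ‖) := by
          refine mul_le_mul ?_ (hAn ξ y) (norm_nonneg _) (by positivity)
          exact mul_le_mul_of_nonneg_right (le_abs_self K) (by linarith)
      _ = (|K| * CR) * B * ‖ξ‖ := by ring
  refine ⟨?_, ?_⟩
  · intro ξ
    change ‖Cop (S.refR q0 hq) U (Aop (fun X => (fun x => H x (1, Rm S M X x) : S.VA)) σ ξ)‖ ≤ _
    refine (hCr U hU _).trans ?_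
    calc Cr * ‖Aop (fun X => (fun x => H x (1, Rm S M X x) : S.VA)) σ ξ‖
        ≤ Cr * ((|K| * CR) * B * ‖ξ‖) := by gcongr; exact hAn2 ξ
      _ = (Cr * (|K| * CR) * B) * ‖ξ‖ := by ring
  · obtain ⟨c, hc1, hc2⟩ := exists_orth (rref S q0 hq x) (star (W x) * U x)
      (Finset.univ.filter (fun j => ‖d x j - 1‖ < δ)) hx
    refine ⟨c, hc1, ?_⟩
    intro ξ
    set w : S.Po x → ℂ := ((U x).submatrix id (rref S q0 hq x)).mulVec c with hw
    have hUx : U x ∈ unitary (Matrix (S.Po x) (S.Po x) ℂ) := pi_unitary.1 hU x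
    have hWx : W x ∈ unitary (Matrix (S.Po x) (S.Po x) ℂ) := pi_unitary.1 hW x
    have hwn : ∑ j, ‖w j‖ ^ 2 = 1 :=
      sum_sq_compress (U x) hUx (rref S q0 hq x) (rref_inj S q0 hq x) c hc1
    have hworth : ∀ j, ‖d x j - 1‖ < δ → (star (W x)).mulVec w j = 0 := by
      intro j hj
      have h1 := hc2 j (Finset.mem_filter.2 ⟨Finset.mem_univ _, hj⟩)
      rw [hw, Matrix.mulVec_mulVec]
      have h2 : star (W x) * (U x).submatrix id (rref S q0 hq x)
          = (star (W x) * U x).submatrix id (rref S q0 hq x) := by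
        rw [← Matrix.submatrix_mul_equiv (star (W x)) (U x) id (Equiv.refl _) (rref S q0 hq x)]
        rfl
      rw [h2]
      exact h1
    have e1 : quadL S x c
        ((Cop (S.refR q0 hq) U ∘ₗ Aop (fun X => (fun x => H x (1, Rm S M X x) : S.VA)) σ) ξ)
        = dotProduct (star w)
          ((Aop (fun X => (fun x => H x (1, Rm S M X x) : S.VA)) σ ξ x).mulVec w) := by
      exact quad_compress (U x) (Aop (fun X => (fun x => H x (1, Rm S M X x) : S.VA)) σ ξ x)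
        (rref S q0 hq x) c
    rw [e1, hform ξ x]
    refine ((hH x).small _ (hRux x) (W x) hWx (d x) (hdiag x) _ w hworth).trans ?_
    rw [hwn, mul_one]
    calc K * b * ‖(Aop (Rm S M) σ ξ) x‖ ≤ |K| * b * (CR * ‖ξ‖) := by
          refine mul_le_mul ?_ (hAn ξ x) (norm_nonneg _) (by positivity)
          exact mul_le_mul_of_nonneg_right (le_abs_self K) hb
      _ = (|K| * CR * b) * ‖ξ‖ := by ring

theorem t4 (S : Sys ι A Q) (hT1 : T1 S.KA S.VA)
    (hT0 : ∀ ξ : S.KA, LinearMap.trace ℂ S.KA (LinearMap.mulLeft ℂ ξ - LinearMap.mulRight ℂ ξ) = 0)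
    (hLoc : LocFam (fun x : ι => S.Po x)) (hDiag : ∀ x, DiagProp (S.Po x)) : T4 S := by
  classical
  intro M hM hker q0 hq
  change DD (S.refR q0 hq) (Rm S M) = 0
  -- diagonalisation
  have hdiagall : ∀ σ ∈ unitary S.KA, ∃ W ∈ unitary S.VA, ∃ d : (x : ι) → S.Po x → ℂ,
      (∀ x j, ‖d x j‖ = 1) ∧ ∀ x, Rm S M σ x = W x * Matrix.diagonal (d x) * star (W x) := by
    intro σ hσ
    have hR := pi_unitary.1 (Rm_unitary S hM hσ)
    have h1 := fun x => hDiag x (Rm S M σ x) (hR x)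
    choose W hW d hd hWd using h1
    exact ⟨W, pi_unitary.2 hW, d, hd, hWd⟩
  -- the uniform arc
  have hRcont : Continuous (fun σ : UG S.KA => Rm S M σ.val) := by
    rw [continuous_iff_continuousAt]
    intro σ
    have h1 : ContinuousAt (Rm S M) σ.val := (Rm_contDiffAt S M σ.val_mem 1).continuousAt
    exact h1.comp (f := UG.val) (UG.continuous_val.continuousAt)
  have hker' : ∀ σ : UG S.KA, ∃ x : ι,
      Module.finrank ℂ (LinearMap.ker (Matrix.mulVecLin (Rm S M σ.val x - 1)))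
        < Fintype.card (S.Fa x) := by
    intro σ
    obtain ⟨x, hx⟩ := hker σ.val σ.val_mem
    refine ⟨x, ?_⟩
    have h1 : Rm S M σ.val x = star (M x) * S.Jm σ.val x := rfl
    rw [h1, finrank_ker_eq _ _ (pi_unitary.1 hM x)]
    exact hx
  obtain ⟨δ, hδ, harc⟩ := exists_delta S (fun σ => Rm S M σ.val) hRcont hker'
  obtain ⟨K, hK⟩ := hLoc
  obtain ⟨CR, hCR0, hCR⟩ := Aop_bound (Rm S M) (fun σ hσ => Rm_contDiffAt S M hσ 1)
    (fun σ hσ => Rm_unitary S hM hσ)
  obtain ⟨Cr, hCr0, hCr⟩ := Cop_bound (S.refR q0 hq)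
  obtain ⟨C', hC'⟩ := exists_e S
  obtain ⟨Kd, hKd, hdet⟩ := det_small2 (E := S.KA) C'
  set n := Module.finrank ℂ S.KA with hn
  set c1 : ℝ := Cr * (|K| * CR) + 1 with hc1
  set c2 : ℝ := |K| * CR + 1 with hc2
  have hc1pos : 1 ≤ c1 := by rw [hc1]; nlinarith [mul_nonneg hCr0.le (mul_nonneg (abs_nonneg K) hCR0.le)]
  have hc2pos : 1 ≤ c2 := by rw [hc2]; nlinarith [mul_nonneg (abs_nonneg K) hCR0.le]
  -- the bound for every ε
  have main : ∀ ε : ℝ, 0 < ε → ‖DD (S.refR q0 hq) (Rm S M)‖ ≤ Kd * c1 ^ n * c2 * (2 * ε) := by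
    intro ε hε
    obtain ⟨B, b, hB, hb, hBb, hH⟩ := hK δ hδ n ε hε
    choose H hH using hH
    have hBpos : 0 < B := by linarith
    -- homotopy
    have hhom : DD (S.refR q0 hq) (Rm S M)
        = DD (S.refR q0 hq) (fun X => (fun x => H x (1, Rm S M X x) : S.VA)) := by
      have h := hT1 hT0 (S.refR q0 hq) (fun p => (fun x => H x (p.1, Rm S M p.2 x) : S.VA)) ?_ ?_
      · have e0 : (fun X : S.KA => (fun x => H x ((0 : ℂ), Rm S M X x) : S.VA)) = Rm S M := by
          funext X x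
          exact (hH x).zero _
        rw [← h]
        exact congrArg (DD (S.refR q0 hq)) e0.symm
      · intro s hs σ hσ
        rw [contDiffAt_pi]
        intro x
        have hRx : Rm S M σ x ∈ unitary (Matrix (S.Po x) (S.Po x) ℂ) :=
          pi_unitary.1 (Rm_unitary S hM hσ) x
        have h1 := (hH x).smooth s hs (Rm S M σ x) hRx
        have h2 : ContDiffAt ℂ ⊤ (fun p : ℂ × S.KA => (p.1, Rm S M p.2 x)) ((s : ℂ), σ) := by
          refine ContDiffAt.prodMk contDiffAt_fst ?_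
          have h3 : ContDiffAt ℂ ⊤ (Rm S M) σ := Rm_contDiffAt S M hσ ⊤
          have h4 : ContDiffAt ℂ ⊤ (fun X => Rm S M X x) σ := contDiffAt_pi.1 h3 x
          exact ContDiffAt.comp ((s : ℂ), σ) h4 contDiffAt_snd
        exact ContDiffAt.comp ((s : ℂ), σ) h1 h2
      · intro s hs σ hσ
        refine pi_isUnit fun x => ?_
        exact (hH x).unit s hs (Rm S M σ x) (pi_unitary.1 (Rm_unitary S hM hσ) x)
    rw [hhom]
    -- pointwise bound
    have hbd : ∀ (σ : UG S.KA) (U : UG S.VA),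
        ‖LinearMap.det (Cop (S.refR q0 hq) U.val ∘ₗ
          Aop (fun X => (fun x => H x (1, Rm S M X x) : S.VA)) σ.val)‖
          ≤ Kd * c1 ^ n * c2 * (2 * ε) := by
      intro σ U
      obtain ⟨W, hW, d, hd1, hd2⟩ := hdiagall σ.val σ.val_mem
      obtain ⟨x, hx⟩ := harc σ ⟨W, hW⟩ d hd1 hd2
      obtain ⟨h1, c, hc, h2⟩ := pointwise S q0 hq M hM K δ B b hB hb H hH CR hCR0 hCR Cr hCr0 hCr
        σ.val σ.val_mem U.val U.val_mem W hW d hd2 x hx
      obtain ⟨e, he1, he2⟩ := hC' x c hc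
      have hBn : 0 < B ^ n := by positivity
      have hb' : 0 < b + ε / B ^ n := by positivity
      have h3 := hdet (c1 * B) (c2 * (b + ε / B ^ n)) (by positivity) (by positivity)
        (Cop (S.refR q0 hq) U.val ∘ₗ Aop (fun X => (fun x => H x (1, Rm S M X x) : S.VA)) σ.val)
        (quadL S x c) e ?_ he1 he2 ?_
      · have hc1B : 1 ≤ c1 * B := by nlinarith
        have h4 : ‖LinearMap.det (Cop (S.refR q0 hq) U.val ∘ₗ
            Aop (fun X => (fun x => H x (1, Rm S M X x) : S.VA)) σ.val)‖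
            ≤ ‖LinearMap.det (Cop (S.refR q0 hq) U.val ∘ₗ
            Aop (fun X => (fun x => H x (1, Rm S M X x) : S.VA)) σ.val)‖ * (c1 * B) :=
          le_mul_of_one_le_right (norm_nonneg _) hc1B
        refine h4.trans (h3.trans ?_)
        calc Kd * (c1 * B) ^ n * (c2 * (b + ε / B ^ n))
            = Kd * c1 ^ n * c2 * (B ^ n * b + ε) := by
              rw [mul_pow]; field_simp
          _ ≤ Kd * c1 ^ n * c2 * (2 * ε) := by
              gcongr
              linarith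
      · intro ξ
        refine (h1 ξ).trans ?_
        gcongr
        rw [hc1]; linarith
      · intro ξ
        refine (h2 ξ).trans ?_
        gcongr
        · rw [hc2]; linarith
        · have : 0 ≤ ε / B ^ n := by positivity
          linarith
    unfold DD
    have hin : ∀ σ : UG S.KA, ‖∫ U : UG S.VA, LinearMap.det (Cop (S.refR q0 hq) U.val ∘ₗ
        Aop (fun X => (fun x => H x (1, Rm S M X x) : S.VA)) σ.val) ∂(haarU S.VA)‖
        ≤ Kd * c1 ^ n * c2 * (2 * ε) := by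
      intro σ
      have := norm_integral_le_of_norm_le_const (μ := haarU S.VA)
        (f := fun U : UG S.VA => LinearMap.det (Cop (S.refR q0 hq) U.val ∘ₗ
        Aop (fun X => (fun x => H x (1, Rm S M X x) : S.VA)) σ.val))
        (Filter.Eventually.of_forall (hbd σ))
      simpa using this
    have := norm_integral_le_of_norm_le_const (μ := haarU S.KA)
        (f := fun σ : UG S.KA => ∫ U : UG S.VA, LinearMap.det (Cop (S.refR q0 hq) U.val ∘ₗ
        Aop (fun X => (fun x => H x (1, Rm S M X x) : S.VA)) σ.val) ∂(haarU S.VA))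
        (Filter.Eventually.of_forall hin)
    simpa using this
  -- let ε → 0
  by_contra hne
  have hpos : 0 < ‖DD (S.refR q0 hq) (Rm S M)‖ := norm_pos_iff.2 hne
  set Cst : ℝ := Kd * c1 ^ n * c2 with hCst
  have hCpos : 0 < Cst := by positivity
  have h := main (‖DD (S.refR q0 hq) (Rm S M)‖ / (4 * Cst)) (by positivity)
  have h2 : Cst * (2 * (‖DD (S.refR q0 hq) (Rm S M)‖ / (4 * Cst)))
      = ‖DD (S.refR q0 hq) (Rm S M)‖ / 2 := by field_simp; ring
  rw [h2] at h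
  linarith

end Crest.Agent.R174.GR.T4P
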