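import Crest.Agent.R174.W4Cyc477
import Crest.Agent.R174.W4Def83
import Crest.Agent.R174.GREmb

set_option autoImplicit false

/-!
# R174, W4 (part 3): the node matrix of the glue satisfies `IsJJ`; the Prop `Glue.W4`.
-/

open scoped Matrix.Norms.L2Operator
open Crest.Agent.R174.Red Crest.Agent.R174.GR

namespace Crest.Agent.R174.W4

open Crest.Agent.R174.Glue

universe u

section sysgen

variable {ι A Q : Type} [Fintype ι] [LinearOrder ι] [Fintype A] [DecidableEq A]
  [Fintype Q] [DecidableEq Q]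

lemma Jbig_inl (S : Sys ι A Q) (St : ι → Type) [∀ x, DecidableEq (St x)] (σ : S.KA)
    (x' x : ι) (P' : S.Po x') (P : S.Po x) :
    Jbig S St σ ⟨x', Sum.inl P'⟩ ⟨x, Sum.inl P⟩ =
      if h : P'.1.2 = P.1.2 then
        (if S.pos P'.1.2 then σ (S.rel P'.1.2) else Ring.inverse (σ (S.rel P'.1.2)))
          ⟨P'.1.1, P'.2.1⟩ ⟨P.1.1, (P.2.1).trans (congrArg S.rel h.symm)⟩
      else 0 := by
  unfold Jbig
  by_cases hx : x' = x
  · subst hx
    rw [Matrix.blockDiagonal'_apply_eq, Matrix.fromBlocks_apply₁₁]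
    rfl
  · rw [Matrix.blockDiagonal'_apply_ne _ _ _ hx, dif_neg]
    intro h
    exact hx (P'.2.2.symm.trans ((congrArg S.var h).trans P.2.2))

lemma Jbig_inr (S : Sys ι A Q) (St : ι → Type) [∀ x, DecidableEq (St x)] (σ : S.KA)
    (x : ι) (s : St x) (P' : Σ x, (S.Po x ⊕ St x)) [Decidable (P' = ⟨x, Sum.inr s⟩)] :
    Jbig S St σ P' ⟨x, Sum.inr s⟩ = if P' = ⟨x, Sum.inr s⟩ then 1 else 0 := by
  unfold Jbig
  obtain ⟨x', P'⟩ := P'
  by_cases hx : x' = x
  · subst hx
    rw [Matrix.blockDiagonal'_apply_eq]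
    rcases P' with P' | s'
    · rw [Matrix.fromBlocks_apply₁₂, if_neg (by simp)]; rfl
    · rw [Matrix.fromBlocks_apply₂₂, Matrix.one_apply]
      by_cases h : s' = s
      · subst h; simp
      · rw [if_neg h, if_neg (by simpa using h)]
  · rw [Matrix.blockDiagonal'_apply_ne _ _ _ hx, if_neg]
    intro h
    exact hx (congrArg Sigma.fst h)

lemma Jbig_inr' (S : Sys ι A Q) (St : ι → Type) [∀ x, DecidableEq (St x)] (σ : S.KA)
    (x : ι) (s : St x) (P' : Σ x, (S.Po x ⊕ St x)) [Decidable (P' = ⟨x, Sum.inr s⟩)] :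
    Jbig S St σ ⟨x, Sum.inr s⟩ P' = if P' = ⟨x, Sum.inr s⟩ then 1 else 0 := by
  unfold Jbig
  obtain ⟨x', P'⟩ := P'
  by_cases hx : x' = x
  · subst hx
    rw [Matrix.blockDiagonal'_apply_eq]
    rcases P' with P' | s'
    · rw [Matrix.fromBlocks_apply₂₁, if_neg (by simp)]; rfl
    · rw [Matrix.fromBlocks_apply₂₂, Matrix.one_apply]
      by_cases h : s' = s
      · subst h; simp
      · rw [if_neg (Ne.symm h), if_neg (by simpa using h)]
  · rw [Matrix.blockDiagonal'_apply_ne _ _ _ (Ne.symm hx), if_neg]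
    intro h
    exact hx (congrArg Sigma.fst h)

end sysgen

section anti

variable {Pos : Type} {ι : Type} {N : ι → Type}

lemma anti_apply (e : Pos ≃ (Σ x, N x) × Bool) (B : Matrix (Σ x, N x) (Σ x, N x) ℂ) (p' p : Pos) :
    anti e B p' p = if (e p).2 = true then (if (e p').2 = true then 0 else B (e p').1 (e p).1)
      else (if (e p').2 = true then star (B (e p).1 (e p').1) else 0) := by
  unfold anti
  rw [Matrix.submatrix_apply]
  simp only [Equiv.trans_apply]
  rcases hp : e p with ⟨a, s⟩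
  rcases hp' : e p' with ⟨a', s'⟩
  cases s <;> cases s' <;> simp [eBool, Matrix.star_apply]

end anti

section link

variable {G : Type u} {n : ℕ}
variable (W : Fin n → List (G × Fin n × Bool)) (f : Fin n → ℕ)
variable (hW : ∀ i, 0 < (W i).length) (st : Ka f → List (G × Fin n × Bool))
    (hst : ∀ k, 0 < (st k).length) (ord : List (Ka f)) (hnd : ord.Nodup) (hall : ∀ k, k ∈ ord)

/-- the data in the form `Dat` -/
abbrev dat : Dat G n f := ⟨W, ord, hnd, hall, st, hst, hW⟩

/-- `σ i` as a matrix on `Fin (f i)` -/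
def sig (σ : (sys W f).KA) (i : Fin n) : Matrix (Fin (f i)) (Fin (f i)) ℂ :=
  (σ i).submatrix (fun a => ⟨⟨i, a⟩, rfl⟩) (fun a => ⟨⟨i, a⟩, rfl⟩)

/-- the faces of type `i` -/
def eFa (i : Fin n) : Fin (f i) ≃ (sys W f).Fa i where
  toFun a := ⟨⟨i, a⟩, rfl⟩
  invFun a := Fin.cast (congrArg f a.2) a.1.2
  left_inv a := rfl
  right_inv := by
    rintro ⟨⟨i', a⟩, h⟩
    have h' : i' = i := h
    subst h'
    rfl

lemma sig_unitary (σ : (sys W f).KA) (hσ : σ ∈ unitary (sys W f).KA) (i : Fin n) :
    sig W f σ i ∈ Matrix.unitaryGroup (Fin (f i)) ℂ := by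
  have h1 := GR.pi_unitary.1 hσ i
  have h2 : sig W f σ i = (σ i).submatrix (eFa W f i) (eFa W f i) := rfl
  rw [Matrix.mem_unitaryGroup_iff, h2]
  have h3 : star ((σ i).submatrix (eFa W f i) (eFa W f i)) =
    (star (σ i)).submatrix (eFa W f i) (eFa W f i) := rfl
  rw [h3, Matrix.submatrix_mul_equiv, (Unitary.mem_iff.1 h1).2, Matrix.submatrix_one_equiv]

lemma sum_ite_fc (i i' : Fin n) (a' : Fin (f i')) (s s' : Bool) (j' : Fin (W i').length)
    (j : Fin (W i).length) (c : Fin (f i) → ℂ) :
    (∑ a'', if ((dat W f hW st hst ord hnd hall).blk.fc (⟨i', a'⟩, s') j') =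
        (dat W f hW st hst ord hnd hall).blk.fc (⟨i, a''⟩, s) j then c a'' else 0) =
      if h : (⟨i', j'⟩ : Σ i, Fin (W i).length) = ⟨i, j⟩ then
        (if s' = s then c (Fin.cast (congrArg (fun y : Σ i, Fin (W i).length => f y.1) h) a') else 0)
      else 0 := by
  by_cases hi : i' = i
  · subst hi
    by_cases hj : j' = j
    · subst hj
      by_cases hs : s' = s
      · subst hs
        rw [dif_pos rfl, if_pos rfl, Finset.sum_eq_single a']
        · rw [if_pos rfl]; rfl
        · intro b _ hb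
          rw [if_neg]
          intro h
          apply hb
          have h1 := congrArg Sigma.fst h
          have h2 : (⟨i', a'⟩ : Σ i, Fin (f i)) = ⟨i', b⟩ := congrArg Prod.fst h1
          exact (eq_of_heq (Sigma.mk.inj h2).2).symm
        · intro h; exact absurd (Finset.mem_univ _) h
      · rw [dif_pos rfl, if_neg hs]
        apply Finset.sum_eq_zero
        intro b _
        rw [if_neg]
        intro h
        exact hs (congrArg Prod.snd (congrArg Sigma.fst h))
    · rw [dif_neg]
      · apply Finset.sum_eq_zero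
        intro b _
        rw [if_neg]
        intro h
        apply hj
        have h1 := congrArg Sigma.fst h
        have h2 : (⟨i', a'⟩ : Σ i, Fin (f i)) = ⟨i', b⟩ := congrArg Prod.fst h1
        have h3 : a' = b := eq_of_heq (Sigma.mk.inj h2).2
        have h4 : s' = s := congrArg Prod.snd h1
        subst h3 h4
        have h5 := eq_of_heq (Sigma.mk.inj h).2
        simpa using h5
      · intro h
        exact hj (eq_of_heq (Sigma.mk.inj h).2)
  · rw [dif_neg]
    · apply Finset.sum_eq_zero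
      intro b _
      rw [if_neg]
      intro h
      exact hi (congrArg (fun y => y.1.1.1) h)
    · intro h
      exact hi (congrArg Sigma.fst h)

/-- entries between two faces -/
lemma Jbig_face (σ : (sys W f).KA) (hσ : σ ∈ unitary (sys W f).KA) (i i' : Fin n)
    (a : Fin (f i)) (a' : Fin (f i')) (s s' : Bool) (j : Fin (W i).length)
    (j' : Fin (W i').length) :
    Jbig (sys W f) (St f st) σ
      (pr W f hW st hst ord hnd hall ((dat W f hW st hst ord hnd hall).blk.fc (⟨i', a'⟩, s') j'))
      (pr W f hW st hst ord hnd hall ((dat W f hW st hst ord hnd hall).blk.fc (⟨i, a⟩, s) j)) =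
      if h : (⟨i', j'⟩ : Σ i, Fin (W i).length) = ⟨i, j⟩ then
        (if ((W i).get j).2.2 then sig W f σ i else star (sig W f σ i))
          (Fin.cast (congrArg (fun y : Σ i, Fin (W i).length => f y.1) h) a') a
      else 0 := by
  have h1 := Jbig_inl (sys W f) (St f st) σ ((W i').get j').2.1 ((W i).get j).2.1
    ⟨(⟨i', a'⟩, ⟨i', j'⟩), rfl, rfl⟩ ⟨(⟨i, a⟩, ⟨i, j⟩), rfl, rfl⟩
  refine h1.trans ?_
  by_cases hi : i' = i
  · subst hi
    by_cases hj : j' = j
    · subst hj
      rw [dif_pos rfl, dif_pos rfl]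
      have hpos : (sys W f).pos ⟨i', j'⟩ = ((W i').get j').2.2 := rfl
      have hinv : Ring.inverse (σ i') = star (σ i') :=
        GR.ringInverse_unitary (GR.pi_unitary.1 hσ i')
      by_cases hb : ((W i').get j').2.2 = true
      · have hb' : (sys W f).pos ⟨i', j'⟩ = true := hb
        simp only [hb, hb', if_true]
        rfl
      · have hb' : ¬ (sys W f).pos ⟨i', j'⟩ = true := hb
        rw [if_neg hb, if_neg hb']
        have hinv' : Ring.inverse (σ ((sys W f).rel ⟨i', j'⟩)) =
          star (σ ((sys W f).rel ⟨i', j'⟩)) := hinv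
        rw [hinv']
        rfl
    · rw [dif_neg, dif_neg]
      · intro h; exact hj (eq_of_heq (Sigma.mk.inj h).2)
      · intro h; exact hj (eq_of_heq (Sigma.mk.inj h).2)
  · rw [dif_neg, dif_neg]
    · intro h; exact hi (congrArg Sigma.fst h)
    · intro h; exact hi (congrArg Sigma.fst h)

lemma e_fc (i : Fin n) (a : Fin (f i)) (s : Bool) (j : Fin (W i).length) :
    (ePos W f hW st hst ord hnd hall
      ((dat W f hW st hst ord hnd hall).blk.fc (⟨i, a⟩, s) j)).2 =
      (if s then ((W i).get j).2.2 else !((W i).get j).2.2) := rfl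

/-- entries of the node matrix between two faces -/
lemma anti_face (σ : (sys W f).KA) (hσ : σ ∈ unitary (sys W f).KA) (i i' : Fin n)
    (a : Fin (f i)) (a' : Fin (f i')) (s s' : Bool) (j : Fin (W i).length)
    (j' : Fin (W i').length) :
    anti (ePos W f hW st hst ord hnd hall) (Jbig (sys W f) (St f st) σ)
      ((dat W f hW st hst ord hnd hall).blk.fc (⟨i', a'⟩, s') j')
      ((dat W f hW st hst ord hnd hall).blk.fc (⟨i, a⟩, s) j) =
      if h : (⟨i', j'⟩ : Σ i, Fin (W i).length) = ⟨i, j⟩ then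
        (if s' = !s then (if s then sig W f σ i else star (sig W f σ i))
          (Fin.cast (congrArg (fun y : Σ i, Fin (W i).length => f y.1) h) a') a else 0)
      else 0 := by
  rw [anti_apply, e_fc, e_fc]
  have h1 := Jbig_face W f hW st hst ord hnd hall σ hσ i i' a a' s s' j j'
  have h2 := Jbig_face W f hW st hst ord hnd hall σ hσ i' i a' a s' s j' j
  have h1' : Jbig (sys W f) (St f st) σ
    (ePos W f hW st hst ord hnd hall ((dat W f hW st hst ord hnd hall).blk.fc (⟨i', a'⟩, s') j')).1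
    (ePos W f hW st hst ord hnd hall ((dat W f hW st hst ord hnd hall).blk.fc (⟨i, a⟩, s) j)).1 =
      _ := h1
  have h2' : Jbig (sys W f) (St f st) σ
    (ePos W f hW st hst ord hnd hall ((dat W f hW st hst ord hnd hall).blk.fc (⟨i, a⟩, s) j)).1
    (ePos W f hW st hst ord hnd hall ((dat W f hW st hst ord hnd hall).blk.fc (⟨i', a'⟩, s') j')).1
     = _ := h2
  rw [h1', h2']
  by_cases hi : i' = i
  · subst hi
    by_cases hj : j' = j
    · subst hj
      rw [dif_pos rfl, dif_pos rfl, dif_pos rfl]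
      cases s <;> cases s' <;> cases hb : ((W i').get j').2.2 <;>
        simp [Matrix.star_apply]
    · have e1 : ¬ (⟨i', j'⟩ : Σ i, Fin (W i).length) = ⟨i', j⟩ := by
        intro h; exact hj (eq_of_heq (Sigma.mk.inj h).2)
      have e2 : ¬ (⟨i', j⟩ : Σ i, Fin (W i).length) = ⟨i', j'⟩ := fun h => e1 h.symm
      rw [dif_neg e1, dif_neg e2, dif_neg e1]
      simp
  · have e1 : ¬ (⟨i', j'⟩ : Σ i, Fin (W i).length) = ⟨i, j⟩ := by
      intro h; exact hi (congrArg Sigma.fst h)
    have e2 : ¬ (⟨i, j⟩ : Σ i, Fin (W i).length) = ⟨i', j'⟩ := fun h => e1 h.symm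
    rw [dif_neg e1, dif_neg e2, dif_neg e1]
    simp

/-- entries of the node matrix in the column of a stem letter -/
lemma anti_stem1 (σ : (sys W f).KA) (x : Fin n) (t : St f st x)
    (p p' : (dat W f hW st hst ord hnd hall).blk.Pos)
    (hp : (ePos W f hW st hst ord hnd hall p).1 = ⟨x, Sum.inr t⟩)
    (h : ePos W f hW st hst ord hnd hall p' =
      (⟨x, Sum.inr t⟩, !(ePos W f hW st hst ord hnd hall p).2)) :
    anti (ePos W f hW st hst ord hnd hall) (Jbig (sys W f) (St f st) σ) p' p = 1 := by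
  classical
  rw [anti_apply, hp, h]
  have e1 := Jbig_inr (sys W f) (St f st) σ x t ⟨x, Sum.inr t⟩
  rw [if_pos rfl] at e1
  rw [e1]
  cases (ePos W f hW st hst ord hnd hall p).2 <;> simp

lemma anti_stem0 (σ : (sys W f).KA) (x : Fin n) (t : St f st x)
    (p p' : (dat W f hW st hst ord hnd hall).blk.Pos)
    (hp : (ePos W f hW st hst ord hnd hall p).1 = ⟨x, Sum.inr t⟩)
    (h : ¬ ePos W f hW st hst ord hnd hall p' =
      (⟨x, Sum.inr t⟩, !(ePos W f hW st hst ord hnd hall p).2)) :
    anti (ePos W f hW st hst ord hnd hall) (Jbig (sys W f) (St f st) σ) p' p = 0 := by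
  classical
  rw [anti_apply, hp]
  by_cases h1 : (ePos W f hW st hst ord hnd hall p').1 = ⟨x, Sum.inr t⟩
  · have h2 : ¬ (ePos W f hW st hst ord hnd hall p').2 =
        !(ePos W f hW st hst ord hnd hall p).2 := fun h2 => h (Prod.ext h1 h2)
    cases h3 : (ePos W f hW st hst ord hnd hall p).2 <;>
      cases h4 : (ePos W f hW st hst ord hnd hall p').2 <;> simp_all
  · have e1 := Jbig_inr (sys W f) (St f st) σ x t (ePos W f hW st hst ord hnd hall p').1
    have e2 := Jbig_inr' (sys W f) (St f st) σ x t (ePos W f hW st hst ord hnd hall p').1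
    rw [if_neg h1] at e1 e2
    rw [e1, e2]
    simp

/-- entries of the node matrix in the row of a stem letter, column of a face letter -/
lemma anti_stem_face (σ : (sys W f).KA) (x x' : Fin n) (t : St f st x)
    (P : (sys W f).Po x') (p p' : (dat W f hW st hst ord hnd hall).blk.Pos)
    (hp' : (ePos W f hW st hst ord hnd hall p').1 = ⟨x, Sum.inr t⟩)
    (hp : (ePos W f hW st hst ord hnd hall p).1 = ⟨x', Sum.inl P⟩) :
    anti (ePos W f hW st hst ord hnd hall) (Jbig (sys W f) (St f st) σ) p' p = 0 := by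
  classical
  rw [anti_apply, hp, hp']
  have e1 := Jbig_inr (sys W f) (St f st) σ x t ⟨x', Sum.inl P⟩
  have e2 := Jbig_inr' (sys W f) (St f st) σ x t ⟨x', Sum.inl P⟩
  have h1 : ¬ (⟨x', Sum.inl P⟩ : Σ x, ((sys W f).Po x ⊕ St f st x)) = ⟨x, Sum.inr t⟩ := by
    intro h
    have h2 := congrArg Sigma.fst h
    simp only at h2
    subst h2
    simp at h
  rw [if_neg h1] at e1 e2
  rw [e1, e2]
  simp

/-- **link**: the node matrix of the glue is a node matrix -/
theorem isJJ (σ : (sys W f).KA) (hσ : σ ∈ unitary (sys W f).KA) :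
    IsJJ (dat W f hW st hst ord hnd hall) (sig W f σ)
      (anti (ePos W f hW st hst ord hnd hall) (Jbig (sys W f) (St f st) σ)) where
  up := by
    intro k j p'
    by_cases h : p' = (dat W f hW st hst ord hnd hall).blk.dn k j
    · rw [if_pos h, h]
      exact anti_stem1 W f hW st hst ord hnd hall σ ((st k).get j).2.1 ⟨⟨k, j⟩, rfl⟩
        ((dat W f hW st hst ord hnd hall).blk.up k j) _ rfl rfl
    · rw [if_neg h]
      refine anti_stem0 W f hW st hst ord hnd hall σ ((st k).get j).2.1 ⟨⟨k, j⟩, rfl⟩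
        ((dat W f hW st hst ord hnd hall).blk.up k j) p' rfl ?_
      intro h1
      exact h ((ePos W f hW st hst ord hnd hall).injective h1)
  dn := by
    intro k j p'
    have h3 : (!(ePos W f hW st hst ord hnd hall
          ((dat W f hW st hst ord hnd hall).blk.dn k j)).2) =
          (ePos W f hW st hst ord hnd hall ((dat W f hW st hst ord hnd hall).blk.up k j)).2 := by
      show (!!((st k).get j).2.2) = ((st k).get j).2.2
      rw [Bool.not_not]
    by_cases h : p' = (dat W f hW st hst ord hnd hall).blk.up k j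
    · rw [if_pos h, h]
      refine anti_stem1 W f hW st hst ord hnd hall σ ((st k).get j).2.1 ⟨⟨k, j⟩, rfl⟩
        ((dat W f hW st hst ord hnd hall).blk.dn k j) _ rfl ?_
      rw [h3]
      rfl
    · rw [if_neg h]
      refine anti_stem0 W f hW st hst ord hnd hall σ ((st k).get j).2.1 ⟨⟨k, j⟩, rfl⟩
        ((dat W f hW st hst ord hnd hall).blk.dn k j) p' rfl ?_
      intro h1
      rw [h3] at h1
      exact h ((ePos W f hW st hst ord hnd hall).injective h1)
  fp := by
    intro i a j p'
    rcases p' with ⟨⟨⟨i', a'⟩, s'⟩, j' | j' | j'⟩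
    · rw [Finset.sum_eq_zero]
      · exact anti_stem_face W f hW st hst ord hnd hall σ
          ((st (⟨i', a'⟩, s')).get j').2.1 _ ⟨⟨(⟨i', a'⟩, s'), j'⟩, rfl⟩ _ _ _ rfl rfl
      · intro b _
        rw [if_neg]
        intro h
        cases h
    · rw [sum_ite_fc]
      refine (anti_face W f hW st hst ord hnd hall σ hσ i i' a a' true s' j j').trans ?_
      rfl
    · rw [Finset.sum_eq_zero]
      · exact anti_stem_face W f hW st hst ord hnd hall σ
          ((st (⟨i', a'⟩, s')).get j').2.1 _ ⟨⟨(⟨i', a'⟩, s'), j'⟩, rfl⟩ _ _ _ rfl rfl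
      · intro b _
        rw [if_neg]
        intro h
        cases h
  fm := by
    intro i a j p'
    rcases p' with ⟨⟨⟨i', a'⟩, s'⟩, j' | j' | j'⟩
    · rw [Finset.sum_eq_zero]
      · exact anti_stem_face W f hW st hst ord hnd hall σ
          ((st (⟨i', a'⟩, s')).get j').2.1 _ ⟨⟨(⟨i', a'⟩, s'), j'⟩, rfl⟩ _ _ _ rfl rfl
      · intro b _
        rw [if_neg]
        intro h
        cases h
    · rw [sum_ite_fc]
      refine (anti_face W f hW st hst ord hnd hall σ hσ i i' a a' false s' j j').trans ?_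
      rfl
    · rw [Finset.sum_eq_zero]
      · exact anti_stem_face W f hW st hst ord hnd hall σ
          ((st (⟨i', a'⟩, s')).get j').2.1 _ ⟨⟨(⟨i', a'⟩, s'), j'⟩, rfl⟩ _ _ _ rfl rfl
      · intro b _
        rw [if_neg]
        intro h
        cases h

/-- **W4** in the form of the glue -/
theorem glueW4 [Group G] (hord : ord ≠ []) : Glue.W4 W f hW st hst ord hnd hall := by
  intro σ hσ
  have hF : 0 < Fintype.card ((i : Fin n) × Fin (f i)) := by
    have h1 := length_ord (dat W f hW st hst ord hnd hall)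
    have h2 : 0 < ord.length := List.length_pos_iff.2 hord
    have h3 : (dat W f hW st hst ord hnd hall).ord.length = ord.length := rfl
    omega
  have hcard : Fintype.card ((i : Fin n) × Fin (f i)) = ∑ i, f i := by
    rw [Fintype.card_sigma]
    simp
  obtain ⟨c, h1, h2, h3, h4⟩ := w4 (dat W f hW st hst ord hnd hall) hF
  refine ⟨c, h1, h2, ?_, ?_⟩
  · rw [← hcard]; exact h3
  · intro q
    exact h4 (sig W f σ) (sig_unitary W f σ hσ) _ (isJJ W f hW st hst ord hnd hall σ hσ) q

end link

end Crest.Agent.R174.W4
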