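import Mathlib
import Crest.Agent.R174.Final83
import Crest.Agent.R174.W4Link477

set_option autoImplicit false

/-!
# R174: the key statement (last file before `S0262`)
-/

namespace Crest.Agent.R174.Glue

universe u

/-- the key statement -/
theorem key (G : Type u) [Group G] : Red.Key G :=
  key_of_W4 fun _ W f hW st hst ord hnd hall hne _ =>
    W4.glueW4 W f hW st hst ord hnd hall hne

end Crest.Agent.R174.Glue
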