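import Crest.Agent.R174.Mono785
import Crest.Agent.R174.TrIneq3
import Crest.Agent.R174.Lim259

set_option autoImplicit false

/-!
# R174, route B, matrix half (B1, B2, B3, B5)
-/

open Finset

noncomputable section

namespace Crest.Agent.R174.MonoB

open Crest.Agent.R174.TrIneq

universe u v

variable {G : Type u} [Group G] {N : Type v} [Fintype N] [DecidableEq N]

/-- the monomial matrix -/
def mat (A : Mono N (G × Circle)) : Matrix N N (MonoidAlgebra ℂ G) :=
  Matrix.of fun j i => if j = A.perm i then
    MonoidAlgebra.single (A.lab i).1 (((A.lab i).2 : Circle) : ℂ) else 0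

omit [Fintype N] in
lemma mat_apply (A : Mono N (G × Circle)) (j i : N) :
    mat A j i = if j = A.perm i then
      MonoidAlgebra.single (A.lab i).1 (((A.lab i).2 : Circle) : ℂ) else 0 := rfl

lemma mat_mul (A B : Mono N (G × Circle)) : mat (A * B) = mat A * mat B := by
  ext1 j i
  rw [Matrix.mul_apply, Finset.sum_eq_single (B.perm i)]
  · rw [mat_apply B, if_pos rfl]
    by_cases h : j = A.perm (B.perm i)
    · rw [mat_apply, mat_apply, if_pos (show j = (A * B).perm i from h), if_pos h,
        MonoidAlgebra.single_mul_single, Mono.mul_lab, Prod.fst_mul, Prod.snd_mul, Circle.coe_mul]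
    · rw [mat_apply, mat_apply, if_neg (show ¬ j = (A * B).perm i from h), if_neg h, zero_mul]
  · intro k _ hk
    rw [mat_apply B, if_neg hk, mul_zero]
  · intro h; exact absurd (Finset.mem_univ _) h

omit [Fintype N] in
lemma mat_one : mat (1 : Mono N (G × Circle)) = 1 := by
  ext1 j i
  rw [mat_apply, Matrix.one_apply]
  simp only [Mono.one_perm, Mono.one_lab, Equiv.Perm.coe_one, id, Prod.fst_one, Prod.snd_one,
    Circle.coe_one]
  rfl

omit [Fintype N] in
lemma mat_star (A : Mono N (G × Circle)) : star (mat A) = mat A⁻¹ := by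
  ext1 j i
  rw [Matrix.star_apply, mat_apply, mat_apply]
  simp only [Mono.inv_perm, Mono.inv_lab]
  by_cases h : i = A.perm j
  · have h' : j = A.perm⁻¹ i := by rw [h]; simp
    rw [if_pos h, if_pos h', star_single, ← h']
    congr 1
    rw [Prod.snd_inv, Circle.coe_inv_eq_conj]
  · have h' : ¬ j = A.perm⁻¹ i := by
      intro h2; apply h; rw [h2]; simp
    rw [if_neg h, if_neg h', star_zero]

/-- `mat` as a monoid homomorphism -/
def matHom (G : Type u) [Group G] (N : Type v) [Fintype N] [DecidableEq N] :
    Mono N (G × Circle) →* Matrix N N (MonoidAlgebra ℂ G) where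
  toFun := mat
  map_one' := mat_one
  map_mul' := mat_mul

lemma mat_pow (A : Mono N (G × Circle)) (q : ℕ) : mat (A ^ q) = mat A ^ q :=
  map_pow (matHom G N) A q

lemma mat_mul_star (A : Mono N (G × Circle)) : mat A * star (mat A) = 1 := by
  rw [mat_star, ← mat_mul, mul_inv_cancel, mat_one]

lemma star_mat_mul (A : Mono N (G × Circle)) : star (mat A) * mat A = 1 := by
  rw [mat_star, ← mat_mul, inv_mul_cancel, mat_one]

section refl

variable {T : Type v} [Fintype T] [DecidableEq T]

omit [Fintype T] in
lemma tau_mul_tau {H Z : Type*} [Group H] [CommGroup Z] (t : T) :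
    (tau t : Mono (Option T) (H × Z)) * tau t = 1 := by
  ext x : 2
  · simp [tau]
  · simp [tau]

omit [Fintype T] in
lemma IsRefl.mul_self {H Z : Type*} [Group H] [CommGroup Z] {A : Mono (Option T) (H × Z)}
    (hA : IsRefl A) : A * A = 1 := by
  obtain ⟨B, t, rfl⟩ := hA
  calc B * tau t * B⁻¹ * (B * tau t * B⁻¹) = B * (tau t * tau t) * B⁻¹ := by group
    _ = 1 := by rw [tau_mul_tau]; group

omit [Fintype T] in
lemma IsRefl.conj {H Z : Type*} [Group H] [CommGroup Z] {A : Mono (Option T) (H × Z)}
    (hA : IsRefl A) (X : Mono (Option T) (H × Z)) : IsRefl (X * A * X⁻¹) := by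
  obtain ⟨B, t, rfl⟩ := hA
  exact ⟨X * B, t, by group⟩

lemma trG_tau (t : T) : trG G (Option T) (mat (tau t : Mono (Option T) (G × Circle))) =
    (Fintype.card T : ℂ) - 1 := by
  rw [trG_apply]
  have h1 : ∀ i : Option T, (mat (tau t : Mono (Option T) (G × Circle)) i i).coeff 1 =
      if i = none ∨ i = some t then (0 : ℂ) else 1 := by
    intro i
    rw [mat_apply]
    by_cases h : i = none ∨ i = some t
    · rw [if_pos h, if_neg]
      · simp
      · rcases h with rfl | rfl
        · simp [tau]
        · simp [tau]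
    · rw [if_neg h, if_pos]
      · simp [tau, MonoidAlgebra.coeff_single]
      · push Not at h
        simp only [tau]
        rw [Equiv.swap_apply_of_ne_of_ne h.1 h.2]
  rw [Finset.sum_congr rfl fun i _ => h1 i, Fintype.sum_option]
  simp only [true_or, if_true, zero_add, reduceCtorEq, false_or, Option.some.injEq]
  rw [← Finset.add_sum_erase univ _ (mem_univ t), if_pos rfl, zero_add]
  have h2 : ∀ x ∈ univ.erase t, (if x = t then (0 : ℂ) else 1) = 1 := by
    intro x hx
    rw [if_neg (Finset.ne_of_mem_erase hx)]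
  rw [Finset.sum_congr rfl h2, Finset.sum_const, Finset.card_erase_of_mem (mem_univ t),
    Finset.card_univ, nsmul_eq_mul, mul_one, Nat.cast_sub, Nat.cast_one]
  exact Fintype.card_pos_iff.2 ⟨t⟩

lemma IsRefl.trG {A : Mono (Option T) (G × Circle)} (hA : IsRefl A) :
    TrIneq.trG G (Option T) (mat A) = (Fintype.card T : ℂ) - 1 := by
  obtain ⟨B, t, rfl⟩ := hA
  rw [mat_mul, (trG_posTrace (G := G) (N := Option T)).comm, ← mat_mul, ← mul_assoc,
    inv_mul_cancel, one_mul, trG_tau]

/-- B2: a reflection costs `1/2` -/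
theorem refl_cost {A : Mono (Option T) (G × Circle)} (hA : IsRefl A)
    {V : Matrix (Option T) (Option T) (MonoidAlgebra ℂ G)} (hV : V * star V = 1) (K : ℕ) :
    SK (trG G (Option T)) K V ≤ SK (trG G (Option T)) K (mat A * V) + 1 / 2 := by
  set r := mat A with hr
  have hr2 : r * r = 1 := by rw [hr, ← mat_mul, hA.mul_self, mat_one]
  have hrs : star r = r := by
    rw [hr, mat_star]
    congr 1
    exact (eq_inv_of_mul_eq_one_left hA.mul_self).symm
  set p : Matrix (Option T) (Option T) (MonoidAlgebra ℂ G) := (1 / 2 : ℂ) • (1 - r) with hp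
  have hpp : p * p = p := by
    rw [hp, smul_mul_smul_comm, mul_sub, sub_mul, sub_mul, hr2, one_mul, mul_one, one_mul]
    have : (1 - r - (r - 1)) = (2 : ℂ) • (1 - r) := by
      rw [two_smul]; abel
    rw [this, smul_smul]
    norm_num
  have hps : star p = p := by
    rw [hp, star_smul, star_sub, star_one, hrs]
    congr 1
    simp
  set P : Bool → Matrix (Option T) (Option T) (MonoidAlgebra ℂ G) := fun b => bif b then p else 1 - p
    with hP
  have hpvm : Pvm P := by
    refine ⟨fun j => ?_, fun i j => ?_, ?_⟩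
    · cases j
      · simp [P, hps]
      · simpa [P] using hps
    · cases i <;> cases j
      · simp [P, mul_sub, sub_mul, hpp]
      · simp [P, sub_mul, hpp]
      · simp [P, mul_sub, hpp]
      · simpa [P] using hpp
    · simp [P]
  have h := abstract_ineq (trG_posTrace (G := G) (N := Option T)) hpvm
    (x := fun b => bif b then 1 / 2 else 0) (fun j => by cases j <;> norm_num) hV K
  have h1 : Qt P (fun b => bif b then 1 / 2 else 0) 1 = r := by
    unfold Qt
    rw [Fintype.sum_bool]
    simp only [P, cond_true, cond_false]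
    have e1 : Complex.exp (2 * Real.pi * Complex.I * (1 : ℝ) * ((1 / 2 : ℝ) : ℂ)) = -1 := by
      rw [← Complex.exp_pi_mul_I]
      congr 1
      push_cast
      ring
    have e2 : Complex.exp (2 * Real.pi * Complex.I * (1 : ℝ) * ((0 : ℝ) : ℂ)) = 1 := by simp
    rw [e1, e2, hp, one_smul, smul_smul]
    have e3 : (-1 : ℂ) * (1 / 2) = -(1 / 2) := by ring
    rw [e3, neg_smul]
    have e4 : (1 : Matrix (Option T) (Option T) (MonoidAlgebra ℂ G)) - (1 / 2 : ℂ) • (1 - r) =
        r + (1 / 2 : ℂ) • (1 - r) := by
      have : (1 : Matrix (Option T) (Option T) (MonoidAlgebra ℂ G)) - r =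
          (1 / 2 : ℂ) • (1 - r) + (1 / 2 : ℂ) • (1 - r) := by
        rw [← add_smul]; norm_num
      rw [sub_eq_iff_eq_add, add_assoc, ← this]
      abel
    rw [e4]
    abel
  have h2 : ((trG G (Option T)) (al P (fun b => bif b then 1 / 2 else 0))).re = 1 / 2 := by
    unfold al
    rw [Fintype.sum_bool]
    simp only [P, cond_true, cond_false]
    rw [map_add, map_smul, map_smul, hp, map_smul, map_sub, hA.trG, ← mat_one]
    have e5 : trG G (Option T) (mat (1 : Mono (Option T) (G × Circle))) = Fintype.card T + 1 := by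
      rw [trG_apply]
      have : ∀ i : Option T, (mat (1 : Mono (Option T) (G × Circle)) i i).coeff 1 = (1 : ℂ) := by
        intro i
        rw [mat_apply]
        simp [MonoidAlgebra.coeff_single]
      rw [Finset.sum_congr rfl fun i _ => this i]
      simp
    rw [e5]
    simp
    norm_num
  rw [h1, h2] at h
  exact h

lemma refl_cost_list (R : List (Mono (Option T) (G × Circle))) (hR : ∀ r ∈ R, IsRefl r)
    {V : Matrix (Option T) (Option T) (MonoidAlgebra ℂ G)} (hV : V * star V = 1) (K : ℕ) :
    SK (trG G (Option T)) K V ≤ SK (trG G (Option T)) K (mat R.prod * V) + R.length / 2 := by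
  induction R with
  | nil => simp [mat_one]
  | cons r R ih =>
    have h1 := ih fun r' hr' => hR r' (List.mem_cons_of_mem _ hr')
    have h2 := refl_cost (hR r List.mem_cons_self) (V := mat R.prod * V) (by
      rw [star_mul, mul_assoc, ← mul_assoc V, hV, one_mul, mat_mul_star]) K
    rw [List.prod_cons, mat_mul, mul_assoc, List.length_cons]
    push_cast
    linarith

-- conjugating reflections past a monomial matrix
omit [Fintype T] in
lemma exists_conj_list (R : List (Mono (Option T) (G × Circle))) (hR : ∀ r ∈ R, IsRefl r)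
    (A : Mono (Option T) (G × Circle)) :
    ∃ R' : List (Mono (Option T) (G × Circle)), (∀ r ∈ R', IsRefl r) ∧ R'.length = R.length ∧
      A * R.prod = R'.prod * A := by
  refine ⟨R.map (MulAut.conj A), ?_, by simp, ?_⟩
  · intro r hr
    obtain ⟨r', hr', rfl⟩ := List.mem_map.1 hr
    exact (hR r' hr').conj A
  · rw [← map_list_prod, MulAut.conj_apply]
    group

end refl

end Crest.Agent.R174.MonoB
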