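import Crest.Agent.R174.MatB259

set_option autoImplicit false

/-!
# R174, route B, matrix half (B3, B5): traces and the limit
-/

open Finset

noncomputable section

namespace Crest.Agent.R174.MonoB

open Crest.Agent.R174.TrIneq

universe u v

variable {G : Type u} [Group G] {N : Type v} [Fintype N] [DecidableEq N]

omit [Fintype N] [DecidableEq N] in
lemma diag_pow (A : Mono N (G × Circle)) (hA : A.perm = 1) (q : ℕ) :
    (A ^ q).perm = 1 ∧ ∀ x, (A ^ q).lab x = (A.lab x) ^ q := by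
  induction q with
  | zero => exact ⟨rfl, fun x => by rw [pow_zero, pow_zero]; rfl⟩
  | succ q ih =>
    rw [pow_succ]
    refine ⟨by rw [Mono.mul_perm, ih.1, hA, mul_one], fun x => ?_⟩
    rw [Mono.mul_lab, hA, Equiv.Perm.one_apply, ih.2, pow_succ]

open Classical in
lemma trG_diag (A : Mono N (G × Circle)) (hA : A.perm = 1) :
    trG G N (mat A) = ∑ x, if (A.lab x).1 = 1 then (((A.lab x).2 : Circle) : ℂ) else 0 := by
  rw [trG_apply]
  refine Finset.sum_congr rfl fun x _ => ?_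
  rw [mat_apply, if_pos (by rw [hA]; rfl), MonoidAlgebra.coeff_single, Finsupp.single_apply]

/-- B3: the Fejér sums of a scaled diagonal monomial matrix -/
lemma SK_diag (A : Mono N (G × Circle)) (hA : A.perm = 1) (v : ℂ) (η : ℝ) (b : N → ℝ)
    (hv : v = Complex.exp (2 * Real.pi * Complex.I * η))
    (hb : ∀ x, (((A.lab x).2 : Circle) : ℂ) = Complex.exp (2 * Real.pi * Complex.I * b x)) (K : ℕ) :
    SK (trG G N) K (v • mat A) =
      Lim.SK (Lim.imT (fun _ => 1) (fun x => orderOf (A.lab x).1) (fun x => η + b x)) K := by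
  unfold SK Lim.SK
  refine Finset.sum_congr rfl fun q _ => ?_
  rw [mul_div_assoc]
  congr 2
  rw [smul_pow, ← mat_pow, map_smul, trG_diag _ (diag_pow A hA q).1, smul_eq_mul, Finset.mul_sum,
    Complex.im_sum]
  unfold Lim.imT
  refine Finset.sum_congr rfl fun x _ => ?_
  rw [(diag_pow A hA q).2 x, Prod.pow_fst, Prod.pow_snd, Circle.coe_pow, hb]
  by_cases h : (A.lab x).1 ^ q = 1
  · rw [if_pos h, if_pos (by rw [one_mul]; exact orderOf_dvd_iff_pow_eq_one.2 h), hv,
      ← Complex.exp_nat_mul, ← Complex.exp_nat_mul, ← Complex.exp_add, Nat.div_one]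
    have : (q : ℂ) * (2 * Real.pi * Complex.I * η) + q * (2 * Real.pi * Complex.I * b x) =
        ((2 * Real.pi * q * (η + b x) : ℝ) : ℂ) * Complex.I := by
      push_cast; ring
    rw [this, Complex.exp_ofReal_mul_I_im]
    simp
  · rw [if_neg h, if_neg (by rw [one_mul]; exact fun h' => h (orderOf_dvd_iff_pow_eq_one.1 h')),
      mul_zero, Complex.zero_im]

/-- the Fejér sums of a scaled involution -/
lemma SK_invol (Y : Matrix N N (MonoidAlgebra ℂ G)) (hY : Y * Y = 1) (a p : ℕ)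
    (hcard : Fintype.card N = a + p) (hτ : trG G N Y = (a : ℂ) - p) (v : ℂ) (η : ℝ)
    (hv : v = Complex.exp (2 * Real.pi * Complex.I * η)) (K : ℕ) :
    SK (trG G N) K (v • Y) =
      Lim.SK (Lim.imT (ι := Fin a ⊕ Fin p) (fun _ => 1) (fun _ => 1)
        (Sum.elim (fun _ => η) (fun _ => η + 1 / 2))) K := by
  unfold SK Lim.SK
  refine Finset.sum_congr rfl fun q _ => ?_
  rw [mul_div_assoc]
  congr 2
  have h1 : trG G N 1 = (a : ℂ) + p := by
    rw [trG_apply]
    have : ∀ i : N, ((1 : Matrix N N (MonoidAlgebra ℂ G)) i i).coeff 1 = (1 : ℂ) := by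
      intro i
      rw [Matrix.one_apply_eq]
      change (MonoidAlgebra.single (1 : G) (1 : ℂ)).coeff 1 = 1
      simp [MonoidAlgebra.coeff_single]
    rw [Finset.sum_congr rfl fun i _ => this i]
    simp [hcard]
  have h2 : (v ^ q).im = Real.sin (2 * Real.pi * q * η) := by
    rw [hv, ← Complex.exp_nat_mul]
    have : (q : ℂ) * (2 * Real.pi * Complex.I * η) =
        ((2 * Real.pi * q * η : ℝ) : ℂ) * Complex.I := by
      push_cast; ring
    rw [this, Complex.exp_ofReal_mul_I_im]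
  unfold Lim.imT
  simp only [one_mul, Nat.div_one, isUnit_one, IsUnit.dvd, if_true, Nat.cast_one,
    Fintype.sum_sum_type, Sum.elim_inl, Sum.elim_inr, Finset.sum_const, Finset.card_univ,
    Fintype.card_fin, nsmul_eq_mul]
  rw [smul_pow, map_smul, smul_eq_mul]
  rcases Nat.even_or_odd' q with ⟨m, rfl | rfl⟩
  · rw [pow_mul Y, pow_two, hY, one_pow, h1]
    have h3 : 2 * Real.pi * ((2 * m : ℕ) : ℝ) * (η + 1 / 2) =
        2 * Real.pi * ((2 * m : ℕ) : ℝ) * η + (m : ℝ) * (2 * Real.pi) := by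
      push_cast; ring
    rw [h3, Real.sin_add_nat_mul_two_pi]
    have h4 : v ^ (2 * m) * ((a : ℂ) + p) = ((a + p : ℝ) : ℂ) * v ^ (2 * m) := by
      push_cast; ring
    rw [h4, Complex.im_ofReal_mul, h2]
    ring
  · rw [pow_succ Y, pow_mul Y, pow_two, hY, one_pow, one_mul, hτ]
    have h3 : 2 * Real.pi * ((2 * m + 1 : ℕ) : ℝ) * (η + 1 / 2) =
        2 * Real.pi * ((2 * m + 1 : ℕ) : ℝ) * η + Real.pi + (m : ℝ) * (2 * Real.pi) := by
      push_cast; ring
    rw [h3, Real.sin_add_nat_mul_two_pi, Real.sin_add_pi]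
    have h4 : v ^ (2 * m + 1) * ((a : ℂ) - p) = ((a - p : ℝ) : ℂ) * v ^ (2 * m + 1) := by
      push_cast; ring
    rw [h4, Complex.im_ofReal_mul, h2]
    ring

end Crest.Agent.R174.MonoB
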