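import Crest.Agent.R174.MatB2_259
import Crest.Agent.R174.GRLoc2

set_option autoImplicit false

/-!
# R174, route B: the main inequality
-/

open Finset

noncomputable section

namespace Crest.Agent.R174.MonoB

open Crest.Agent.R174.TrIneq

universe u v

variable {G : Type u} [Group G] {T : Type v} [Fintype T] [DecidableEq T]

/-- the matching operator as a scalar matrix -/
def EE (π : Equiv.Perm T) (z : T → Circle) : Matrix (Option T) (Option T) ℂ :=
  Matrix.of fun j i => if j = Equiv.optionCongr π i then ((i.elim 1 z : Circle) : ℂ) else 0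

omit [Fintype T] in
lemma EE_apply (π : Equiv.Perm T) (z : T → Circle) (j i : Option T) :
    EE π z j i = if j = Equiv.optionCongr π i then ((i.elim 1 z : Circle) : ℂ) else 0 := rfl

lemma sc_EE (π : Equiv.Perm T) (z : T → Circle) : sc G (EE π z) = mat (mt π z) := by
  ext1 j i
  rw [sc_apply, EE_apply]
  by_cases h : j = Equiv.optionCongr π i
  · rw [if_pos h, mat_apply, if_pos (show j = (mt π z : Mono (Option T) (G × Circle)).perm i from h)]
    rfl
  · rw [if_neg h, mat_apply,
      if_neg (show ¬ j = (mt π z : Mono (Option T) (G × Circle)).perm i from h)]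
    exact MonoidAlgebra.single_zero 1

lemma EE_mul_EE (π : Equiv.Perm T) (z : T → Circle) (hπ : ∀ t, π (π t) = t)
    (hz : ∀ t, z (π t) * z t = 1) : EE π z * EE π z = 1 := by
  ext j i
  rw [Matrix.mul_apply, Finset.sum_eq_single (Equiv.optionCongr π i)]
  · rw [EE_apply, EE_apply, if_pos rfl, Matrix.one_apply]
    cases i with
    | none => simp
    | some t =>
      have h1 : Equiv.optionCongr π (Equiv.optionCongr π (some t)) = some t := by simp [hπ]
      rw [h1]
      split_ifs with h
      · have := hz t
        have h2 : ((z (π t) * z t : Circle) : ℂ) = 1 := by rw [this, Circle.coe_one]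
        rw [Circle.coe_mul] at h2
        simpa using h2
      · rw [zero_mul]
  · intro k _ hk
    rw [EE_apply π z k i, if_neg hk, mul_zero]
  · intro h; exact absurd (Finset.mem_univ _) h

omit [Fintype T] in
lemma EE_star (π : Equiv.Perm T) (z : T → Circle) (hπ : ∀ t, π (π t) = t)
    (hz : ∀ t, z (π t) * z t = 1) : star (EE π z) = EE π z := by
  have hiff : ∀ i j : Option T, i = Equiv.optionCongr π j ↔ j = Equiv.optionCongr π i := by
    have h1 : ∀ i : Option T, Equiv.optionCongr π (Equiv.optionCongr π i) = i := by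
      intro i
      cases i with
      | none => simp
      | some t => simp [hπ]
    intro i j
    constructor
    · rintro rfl; exact (h1 j).symm
    · rintro rfl; exact (h1 i).symm
  ext j i
  rw [Matrix.star_apply, EE_apply, EE_apply]
  by_cases h : j = Equiv.optionCongr π i
  · rw [if_pos ((hiff i j).2 h), if_pos h]
    subst h
    cases i with
    | none => simp
    | some t =>
      have h2 : z (π t) = (z t)⁻¹ := eq_inv_of_mul_eq_one_left (hz t)
      simp only [Equiv.optionCongr_apply, Option.map_some, Option.elim_some]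
      rw [h2, Circle.coe_inv_eq_conj]
      simp
  · rw [if_neg (fun h' => h ((hiff i j).1 h')), if_neg h, star_zero]

/-- **B5: the main inequality of route B.** -/
theorem main_ineq (g : G) (hg : g ≠ 1) (C : Mono (Option T) (G × Circle)) (π : Equiv.Perm T)
    (z : T → Circle) (hπ : ∀ t, π (π t) = t) (hz : ∀ t, z (π t) * z t = 1)
    (l : List T) (hl : ∀ t, t ∈ l) (Dg : Option T → Circle) (η : ℝ)
    (hη0 : 0 < η) (hη : η ≤ 1 / (16 * (Fintype.card T + 1)))
    (u ζ : Circle) (hu : (u : ℂ) = Complex.exp (2 * Real.pi * Complex.I * ((-(2 * η) : ℝ) : ℂ)))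
    (R S : List (Mono (Option T) (G × Circle))) (hR : ∀ r ∈ R, IsRefl r) (hS : ∀ r ∈ S, IsRefl r)
    (hbase : mt π z * R.prod * C * S.prod = base l Dg u g ζ)
    (NN : Matrix (Option T) (Option T) ℂ) (hN : NN * NN = 1) (hN' : star NN = NN)
    (hY : (sc G NN * mat C) * (sc G NN * mat C) = 1) (p h : ℕ)
    (hT : Fintype.card T = 2 * p + 2 * h)
    (hτ : trG G (Option T) (sc G NN * mat C) = 2 * h + 1) :
    (p : ℝ) + h + (p + 2 * h + 1) / 2 - 3 / 8 ≤
      ((R.length : ℝ) + S.length) / 2 + ((EE π z - NN).rank : ℝ) / 2 := by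
  classical
  set D : ℝ := ((R.length : ℝ) + S.length) / 2 + ((EE π z - NN).rank : ℝ) / 2 with hD
  set v : ℂ := Complex.exp (2 * Real.pi * Complex.I * η) with hv
  have hvn : v * star v = 1 := by
    rw [hv]
    have h0 : star (Complex.exp (2 * Real.pi * Complex.I * η))
        = Complex.exp (-(2 * Real.pi * Complex.I * η)) := by
      change (starRingEnd ℂ) _ = _
      rw [← Complex.exp_conj]
      congr 1
      simp only [map_mul, Complex.conj_ofReal, Complex.conj_I, map_ofNat]
      ring
    rw [h0, ← Complex.exp_add]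
    simp
  have hu1 : ∀ A : Mono (Option T) (G × Circle), (v • mat A) * star (v • mat A) = 1 := by
    intro A
    rw [star_smul, smul_mul_smul_comm, hvn, one_smul, mat_mul_star]
  -- step 1: Q
  have step1 : ∀ K, SK (trG G (Option T)) K (v • (sc G NN * mat C)) ≤
      SK (trG G (Option T)) K (v • (mat (mt π z * C))) + ((EE π z - NN).rank : ℝ) / 2 := by
    intro K
    have h1 := w5 (G := G) (N := Option T) (fun Z hZ => by
        obtain ⟨V, d, hV, hd, h⟩ := GRLoc.unitary_diag (P := Option T) hZ
        exact ⟨V, hV, d, hd, h⟩) (EE_mul_EE π z hπ hz) (EE_star π z hπ hz) hN hN'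
      (Z := v • mat C) (hu1 C) K
    rw [mul_smul_comm, mul_smul_comm, sc_EE, ← mat_mul] at h1
    exact h1
  -- step 2: reflections
  have step2 : ∀ K, SK (trG G (Option T)) K (v • (mat (mt π z * C))) ≤
      SK (trG G (Option T)) K (v • mat (base l Dg u g ζ)) + ((R.length : ℝ) + S.length) / 2 := by
    intro K
    obtain ⟨R', hR', hRl, hRe⟩ := exists_conj_list R hR (mt π z)
    obtain ⟨S', hS', hSl, hSe⟩ := exists_conj_list S hS (mt π z * C)
    have h1 : base l Dg u g ζ = R'.prod * (S'.prod * (mt π z * C)) := by
      rw [← hbase, hRe, ← hSe]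
      simp only [mul_assoc]
    have h2 := refl_cost_list S' hS' (V := v • mat (mt π z * C)) (hu1 _) K
    rw [mul_smul_comm, ← mat_mul] at h2
    have h3 := refl_cost_list R' hR' (V := v • mat (S'.prod * (mt π z * C))) (hu1 _) K
    rw [mul_smul_comm, ← mat_mul, ← h1] at h3
    rw [hRl] at h3
    rw [hSl] at h2
    linarith
  -- angles
  have hζ : ∃ b : ℝ, (ζ : ℂ) = Complex.exp (2 * Real.pi * Complex.I * b) := by
    refine ⟨ang ζ, (exp_ang ?_).symm⟩
    exact Circle.norm_coe ζ
  obtain ⟨b, hb⟩ := hζ
  have hineq : ∀ K : ℕ, 0 < K →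
      Lim.SK (Lim.imT (ι := Fin (p + 2 * h + 1) ⊕ Fin p) (fun _ => 1) (fun _ => 1)
        (Sum.elim (fun _ => η) (fun _ => η + 1 / 2))) K ≤
      Lim.SK (Lim.imT (fun _ => 1) (fun x => orderOf ((base l Dg u g ζ).lab x).1)
        (fun x : Option T => η + x.elim b (fun _ => -(2 * η)))) K + D := by
    intro K _
    rw [← SK_invol (sc G NN * mat C) hY (p + 2 * h + 1) p (by
        rw [Fintype.card_option, hT]; omega) (by rw [hτ]; push_cast; ring) v η hv K,
      ← SK_diag (base l Dg u g ζ) rfl v η (fun x : Option T => x.elim b (fun _ => -(2 * η))) hv (by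
        intro x
        cases x with
        | none => exact hb
        | some t =>
          simp only [base, Option.elim_some, if_pos (hl t)]
          exact hu) K]
    have h1 := step1 K
    have h2 := step2 K
    rw [hD]
    linarith
  have hL : (0 : ℝ) < 16 * ((Fintype.card T : ℝ) + 1) := by positivity
  have hη2 : η * (16 * ((Fintype.card T : ℝ) + 1)) ≤ 1 := by
    rw [le_div_iff₀ hL] at hη
    exact hη
  have hTc : (Fintype.card T : ℝ) = 2 * p + 2 * h := by rw [hT]; push_cast; ring
  have hT0 : (0 : ℝ) ≤ Fintype.card T := Nat.cast_nonneg _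
  have hη3 : η ≤ 1 / 16 := by nlinarith
  have key := Lim.limit_ineq (ιX := Option T) (ιY := Fin (p + 2 * h + 1) ⊕ Fin p) none
    (fun _ => 1) (fun x => orderOf ((base l Dg u g ζ).lab x).1)
    (fun x : Option T => η + x.elim b (fun _ => -(2 * η))) (fun _ => one_pos)
    (fun x hx => by
      cases x with
      | none => exact absurd rfl hx
      | some t => exact orderOf_one)
    (by
      change orderOf g ≠ 1
      rwa [Ne, orderOf_eq_one_iff]) η hη0 (by linarith)
    (fun x hx => by
      cases x with
      | none => exact absurd rfl hx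
      | some t => exact ⟨0, by simp; ring⟩)
    (fun _ => 1) (Sum.elim (fun _ => η) (fun _ => η + 1 / 2)) (fun _ => one_pos)
    (fun x => by
      cases x with
      | inl x => exact hη0
      | inr x => simp only [Sum.elim_inr]; linarith)
    (fun x => by
      cases x with
      | inl x => simp only [Sum.elim_inl]; linarith
      | inr x => simp only [Sum.elim_inr]; linarith) D hineq
  rw [Fintype.sum_sum_type] at key
  simp only [Sum.elim_inl, Sum.elim_inr, Finset.sum_const, Finset.card_univ, Fintype.card_fin,
    nsmul_eq_mul, Fintype.card_option] at key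
  push_cast at key
  rw [hTc] at key hη2
  nlinarith

end Crest.Agent.R174.MonoB
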