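import Mathlib

/-!
R174, block P0 (helper850): algebraic reduction of S0262 to square systems with upper triangular
exponent matrix with non-zero diagonal.
-/

set_option autoImplicit false

namespace Crest.Agent.R174.P0

open Monoid

section RowOps

variable {H : Type*} [Group H] {n : ℕ} (φ : H →* Multiplicative (Fin n → ℤ))

/-- exponent matrix of a family of words -/
def expo (w : Fin n → H) : Matrix (Fin n) (Fin n) ℤ :=
  Matrix.of fun i j => (Multiplicative.toAdd (φ (w i))) j

/-- `w'` is obtained from `w` without changing the normal closure and the determinant -/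
structure REquiv (w w' : Fin n → H) : Prop where
  nc : Subgroup.normalClosure (Set.range w') = Subgroup.normalClosure (Set.range w)
  det : (expo φ w').det = (expo φ w).det

theorem REquiv.refl (w : Fin n → H) : REquiv φ w w := ⟨rfl, rfl⟩

theorem REquiv.trans {w w' w'' : Fin n → H} (h : REquiv φ w w') (h' : REquiv φ w' w'') :
    REquiv φ w w'' := ⟨h'.nc.trans h.nc, h'.det.trans h.det⟩

/-- row operation -/
def rowOp (w : Fin n → H) (i j : Fin n) (s : ℤ) : Fin n → H :=
  Function.update w i (w i * (w j) ^ s)

theorem expo_rowOp (w : Fin n → H) (i j : Fin n) (s : ℤ) :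
    expo φ (rowOp w i j s) = (expo φ w).updateRow i ((expo φ w) i + s • (expo φ w) j) := by
  ext a b
  by_cases ha : a = i
  · subst ha
    simp [expo, rowOp, Matrix.updateRow_self]
  · simp [expo, rowOp, Matrix.updateRow_ne ha, Function.update_of_ne ha]

theorem rowOp_equiv (w : Fin n → H) {i j : Fin n} (hij : i ≠ j) (s : ℤ) :
    REquiv φ w (rowOp w i j s) := by
  refine ⟨?_, ?_⟩
  · apply le_antisymm
    · apply Subgroup.normalClosure_le_normal
      rintro _ ⟨a, rfl⟩
      by_cases ha : a = i
      · subst ha
        simp only [rowOp, Function.update_self]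
        exact Subgroup.mul_mem _ (Subgroup.subset_normalClosure (Set.mem_range_self _))
          (Subgroup.zpow_mem _ (Subgroup.subset_normalClosure (Set.mem_range_self _)) _)
      · simp only [rowOp, Function.update_of_ne ha]
        exact Subgroup.subset_normalClosure ⟨_, rfl⟩
    · apply Subgroup.normalClosure_le_normal
      have hj : w j ∈ Subgroup.normalClosure (Set.range (rowOp w i j s)) := by
        have : rowOp w i j s j = w j := by
          simp [rowOp, Function.update_of_ne (Ne.symm hij)]
        rw [← this]
        exact Subgroup.subset_normalClosure ⟨_, rfl⟩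
      rintro _ ⟨a, rfl⟩
      by_cases ha : a = i
      · subst ha
        have h1 : rowOp w a j s a ∈ Subgroup.normalClosure (Set.range (rowOp w a j s)) :=
          Subgroup.subset_normalClosure ⟨_, rfl⟩
        have h2 : w a = rowOp w a j s a * (w j ^ s)⁻¹ := by
          simp [rowOp]
        rw [h2]
        exact Subgroup.mul_mem _ h1 (Subgroup.inv_mem _ (Subgroup.zpow_mem _ hj _))
      · have : rowOp w i j s a = w a := by
          simp [rowOp, Function.update_of_ne ha]
        rw [SetLike.mem_coe, ← this]
        exact Subgroup.subset_normalClosure ⟨_, rfl⟩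
  · rw [expo_rowOp]
    exact Matrix.det_updateRow_add_smul_self _ hij s

/-- columns `< k` are already upper triangular -/
def Tri (A : Matrix (Fin n) (Fin n) ℤ) (k : ℕ) : Prop :=
  ∀ i j : Fin n, j < i → (j : ℕ) < k → A i j = 0

theorem tri_rowOp (w : Fin n → H) {i j : Fin n} (s : ℤ) {k : ℕ}
    (hi : k ≤ (i : ℕ)) (hj : k ≤ (j : ℕ)) (h : Tri (expo φ w) k) :
    Tri (expo φ (rowOp w i j s)) k := by
  intro a b hab hb
  rw [expo_rowOp]
  by_cases ha : a = i
  · subst ha
    have hbj : b < j := Fin.lt_def.mpr (lt_of_lt_of_le hb hj)
    simp [Matrix.updateRow_self, h a b hab hb, h j b hbj hb]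
  · rw [Matrix.updateRow_ne ha]
    exact h a b hab hb

theorem natAbs_reduce (a b : ℤ) (hb : b ≠ 0) (hab : b.natAbs ≤ a.natAbs) :
    ∃ s : ℤ, (a + s * b).natAbs < a.natAbs := by
  rcases lt_or_gt_of_ne hb with hb' | hb' <;> rcases le_or_gt 0 a with ha | ha
  · exact ⟨1, by omega⟩
  · exact ⟨-1, by omega⟩
  · exact ⟨-1, by omega⟩
  · exact ⟨1, by omega⟩

/-- clearing one column by the Euclidean algorithm -/
theorem clear_column (k : Fin n) : ∀ (N : ℕ) (w : Fin n → H),
    (∑ i : Fin n, if k ≤ i then (expo φ w i k).natAbs else 0) = N →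
    Tri (expo φ w) k →
    ∃ w', REquiv φ w w' ∧ Tri (expo φ w') (k + 1) := by
  intro N
  induction N using Nat.strong_induction_on with
  | _ N ih =>
    intro w hN hT
    by_cases h2 : ∃ i j : Fin n, i ≠ j ∧ k ≤ i ∧ k ≤ j ∧ expo φ w i k ≠ 0 ∧ expo φ w j k ≠ 0
    · obtain ⟨i, j, hij, hki, hkj, hi0, hj0⟩ := h2
      -- wlog |a_j| ≤ |a_i|
      obtain ⟨i, j, hij, hki, hkj, hj0, hle⟩ : ∃ i j : Fin n, i ≠ j ∧ k ≤ i ∧ k ≤ j ∧
          expo φ w j k ≠ 0 ∧ (expo φ w j k).natAbs ≤ (expo φ w i k).natAbs := by
        rcases le_total (expo φ w j k).natAbs (expo φ w i k).natAbs with h | h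
        · exact ⟨i, j, hij, hki, hkj, hj0, h⟩
        · exact ⟨j, i, hij.symm, hkj, hki, hi0, h⟩
      obtain ⟨s, hs⟩ := natAbs_reduce _ _ hj0 hle
      have hT' := tri_rowOp φ w (i := i) (j := j) s hki hkj hT
      have hlt : (∑ a : Fin n, if k ≤ a then (expo φ (rowOp w i j s) a k).natAbs else 0) < N := by
        rw [← hN]
        apply Finset.sum_lt_sum
        · intro a _
          by_cases ha : a = i
          · subst ha
            simp only [hki, if_true]
            rw [expo_rowOp]
            simp only [Matrix.updateRow_self, Pi.add_apply, Pi.smul_apply, smul_eq_mul]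
            exact hs.le
          · rw [expo_rowOp, Matrix.updateRow_ne ha]
        · refine ⟨i, Finset.mem_univ _, ?_⟩
          simp only [hki, if_true]
          rw [expo_rowOp]
          simp only [Matrix.updateRow_self, Pi.add_apply, Pi.smul_apply, smul_eq_mul]
          exact hs
      obtain ⟨w', hw', hTw'⟩ := ih _ hlt _ rfl hT'
      exact ⟨w', (rowOp_equiv φ w hij s).trans φ hw', hTw'⟩
    · push Not at h2
      -- at most one non-zero entry in rows ≥ k
      by_cases h1 : ∃ i : Fin n, k < i ∧ expo φ w i k ≠ 0
      · obtain ⟨i, hki, hi0⟩ := h1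
        have hother : ∀ j : Fin n, j ≠ i → k ≤ j → expo φ w j k = 0 := by
          intro j hj hkj
          exact h2 i j hj.symm hki.le hkj hi0
        -- row k += row i, then row i -= row k
        let w1 := rowOp w k i 1
        let w2 := rowOp w1 i k (-1)
        have hT1 : Tri (expo φ w1) k := tri_rowOp φ w 1 le_rfl hki.le hT
        have hT2 : Tri (expo φ w2) k := tri_rowOp φ w1 (-1) hki.le le_rfl hT1
        have hki' : k ≠ i := ne_of_lt hki
        refine ⟨w2, (rowOp_equiv φ w hki' 1).trans φ (rowOp_equiv φ w1 hki'.symm (-1)), ?_⟩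
        intro a b hab hb
        rcases Nat.lt_succ_iff_lt_or_eq.mp hb with hb | hb
        · exact hT2 a b hab hb
        · have hbk : b = k := Fin.ext hb
          subst hbk
          have e1 : ∀ c, expo φ w1 c b = if c = b then expo φ w b b + expo φ w i b
              else expo φ w c b := by
            intro c
            simp only [w1, expo_rowOp]
            by_cases hc : c = b
            · subst hc
              simp [Matrix.updateRow_self]
            · simp [hc]
          have hkk : expo φ w b b = 0 := hother b hki' le_rfl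
          by_cases ha : a = i
          · subst ha
            simp only [w2, expo_rowOp φ w1, Matrix.updateRow_self, Pi.add_apply, Pi.smul_apply,
              smul_eq_mul]
            rw [e1, e1]
            simp [hki'.symm, hkk]
          · simp only [w2, expo_rowOp φ w1, Matrix.updateRow_ne ha]
            rw [e1]
            simp [(ne_of_gt hab), hother a ha hab.le]
      · push Not at h1
        refine ⟨w, REquiv.refl φ w, ?_⟩
        intro a b hab hb
        rcases Nat.lt_succ_iff_lt_or_eq.mp hb with hb | hb
        · exact hT a b hab hb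
        · have hbk : b = k := Fin.ext hb
          subst hbk
          exact h1 a hab

theorem exists_tri (w : Fin n → H) : ∀ k : ℕ, k ≤ n →
    ∃ w', REquiv φ w w' ∧ Tri (expo φ w') k := by
  intro k
  induction k with
  | zero =>
    intro _
    exact ⟨w, REquiv.refl φ w, fun i j _ h => absurd h (Nat.not_lt_zero _)⟩
  | succ k ih =>
    intro hk
    obtain ⟨w1, h1, hT1⟩ := ih (Nat.le_of_succ_le hk)
    obtain ⟨w2, h2, hT2⟩ := clear_column φ (⟨k, hk⟩ : Fin n) _ w1 rfl hT1
    exact ⟨w2, h1.trans φ h2, hT2⟩

/-- A square system with non-zero determinant can be brought to upper triangular form with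
non-zero diagonal without changing the normal closure. -/
theorem exists_upper (w : Fin n → H) (hdet : (expo φ w).det ≠ 0) :
    ∃ w' : Fin n → H, Subgroup.normalClosure (Set.range w') = Subgroup.normalClosure (Set.range w) ∧
      (∀ i j, j < i → expo φ w' i j = 0) ∧ (∀ i, expo φ w' i i ≠ 0) := by
  obtain ⟨w', h, hT⟩ := exists_tri φ w n le_rfl
  refine ⟨w', h.nc, fun i j hij => hT i j hij j.2, ?_⟩
  have hup : (expo φ w').BlockTriangular id := by
    intro i j hij
    exact hT i j hij j.2
  have hd : (expo φ w').det = ∏ i, expo φ w' i i := Matrix.det_of_isUpperTriangular hup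
  intro i hi
  apply hdet
  rw [← h.det, hd]
  exact Finset.prod_eq_zero (Finset.mem_univ i) hi

end RowOps

section Reduction

variable {G : Type*} [Group G]

/-- the exponent homomorphism on `G * F_n` -/
def expHom (G : Type*) [Group G] (n : ℕ) :
    Coprod G (FreeGroup (Fin n)) →* Multiplicative (Fin n → ℤ) :=
  Coprod.lift (1 : G →* Multiplicative (Fin n → ℤ))
    (FreeGroup.lift fun k => Multiplicative.ofAdd (Pi.single k 1))

/-- The injectivity statement for a family of words. -/
def Inj {m n : ℕ} (w : Fin m → Coprod G (FreeGroup (Fin n))) : Prop :=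
  Function.Injective ((QuotientGroup.mk' (Subgroup.normalClosure (Set.range w))).comp
      (Coprod.inl : G →* Coprod G (FreeGroup (Fin n))))

theorem inj_iff {m n : ℕ} (w : Fin m → Coprod G (FreeGroup (Fin n))) :
    Inj w ↔ ∀ g : G, (Coprod.inl g : Coprod G (FreeGroup (Fin n))) ∈
      Subgroup.normalClosure (Set.range w) → g = 1 := by
  unfold Inj
  rw [injective_iff_map_eq_one]
  constructor
  · intro h g hg
    apply h
    simpa using hg
  · intro h g hg
    apply h
    simpa using hg

/-- Square systems with non-zero determinant reduce to triangular ones. -/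
theorem inj_of_det
    (H : ∀ (n : ℕ) (w : Fin n → Coprod G (FreeGroup (Fin n))),
      (∀ i j, j < i → expo (expHom G n) w i j = 0) → (∀ i, expo (expHom G n) w i i ≠ 0) → Inj w)
    {n : ℕ} (w : Fin n → Coprod G (FreeGroup (Fin n)))
    (hdet : (expo (expHom G n) w).det ≠ 0) : Inj w := by
  obtain ⟨w', hnc, h0, hd⟩ := exists_upper (expHom G n) w hdet
  have := H n w' h0 hd
  rw [inj_iff] at this ⊢
  rwa [hnc] at this

/-- kill the letters outside of the image of `c` and rename the others -/
noncomputable def kill {m n : ℕ} (c : Fin m → Fin n) :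
    Coprod G (FreeGroup (Fin n)) →* Coprod G (FreeGroup (Fin m)) :=
  open Classical in
  Coprod.map (MonoidHom.id G)
    (FreeGroup.lift fun k => if h : ∃ j, c j = k then FreeGroup.of h.choose else 1)

theorem expHom_kill {m n : ℕ} {c : Fin m → Fin n} (hc : Function.Injective c)
    (x : Coprod G (FreeGroup (Fin n))) (j : Fin m) :
    Multiplicative.toAdd (expHom G m (kill c x)) j = Multiplicative.toAdd (expHom G n x) (c j) := by
  classical
  let p1 : Coprod G (FreeGroup (Fin n)) →* Multiplicative ℤ :=
    (AddMonoidHom.toMultiplicative (Pi.evalAddMonoidHom (fun _ : Fin m => ℤ) j)).comp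
      ((expHom G m).comp (kill c))
  let p2 : Coprod G (FreeGroup (Fin n)) →* Multiplicative ℤ :=
    (AddMonoidHom.toMultiplicative (Pi.evalAddMonoidHom (fun _ : Fin n => ℤ) (c j))).comp
      (expHom G n)
  have : p1 = p2 := by
    apply Coprod.hom_ext
    · ext g
      simp [p1, p2, expHom, kill]
    · apply FreeGroup.ext_hom
      intro k
      by_cases h : ∃ j, c j = k
      · have hk := h.choose_spec
        have : (kill c (Coprod.inr (FreeGroup.of k)) : Coprod G (FreeGroup (Fin m))) =
            Coprod.inr (FreeGroup.of h.choose) := by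
          simp [kill, h]
        simp only [p1, p2, MonoidHom.comp_apply, this, expHom, Coprod.lift_apply_inr,
          FreeGroup.lift_apply_of]
        apply Multiplicative.toAdd.injective
        simp only [AddMonoidHom.toMultiplicative_apply_apply, toAdd_ofAdd,
          Pi.evalAddMonoidHom_apply]
        by_cases hj : h.choose = j
        · rw [hj] at hk ⊢
          simp [← hk]
        · have : c j ≠ k := by
            intro h'
            exact hj (hc (hk.trans h'.symm))
          rw [Pi.single_eq_of_ne (Ne.symm hj), Pi.single_eq_of_ne this]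
      · have : (kill c (Coprod.inr (FreeGroup.of k)) : Coprod G (FreeGroup (Fin m))) = 1 := by
          simp [kill, h]
        simp only [p1, p2, MonoidHom.comp_apply, this, map_one, expHom, Coprod.lift_apply_inr,
          FreeGroup.lift_apply_of]
        apply Multiplicative.toAdd.injective
        simp only [AddMonoidHom.toMultiplicative_apply_apply, toAdd_ofAdd,
          Pi.evalAddMonoidHom_apply]
        have : c j ≠ k := fun h' => h ⟨j, h'⟩
        rw [Pi.single_eq_of_ne this]
        simp
  have h := DFunLike.congr_fun this x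
  exact congrArg Multiplicative.toAdd h

theorem exists_columns {m n : ℕ} (A : Matrix (Fin m) (Fin n) ℚ) (h : A.rank = m) :
    ∃ c : Fin m → Fin n, Function.Injective c ∧ (A.submatrix id c).det ≠ 0 := by
  classical
  have hr : Module.finrank ℚ (Submodule.span ℚ (Set.range A.col)) = m := by
    rw [← Matrix.rank_eq_finrank_span_cols, h]
  obtain ⟨f, hf, -, hli⟩ := Submodule.exists_fun_fin_finrank_span_eq ℚ (Set.range A.col)
  have hli' : LinearIndependent ℚ (fun i : Fin m => f (Fin.cast hr.symm i)) :=
    hli.comp _ (Fin.cast_injective _)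
  choose c hc using fun i : Fin m => hf (Fin.cast hr.symm i)
  have hcol : (A.submatrix id c).col = fun i : Fin m => f (Fin.cast hr.symm i) := by
    funext i
    rw [← hc i]
    rfl
  refine ⟨c, ?_, ?_⟩
  · intro a b hab
    have : f (Fin.cast hr.symm a) = f (Fin.cast hr.symm b) := by rw [← hc a, ← hc b, hab]
    exact hli'.injective this
  · have : IsUnit (A.submatrix id c) := by
      rw [← Matrix.linearIndependent_cols_iff_isUnit, hcol]
      exact hli'
    exact ((Matrix.isUnit_iff_isUnit_det _).mp this).ne_zero

/-- **Block P0**: the full statement follows from the square upper triangular case. -/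
theorem reduction
    (H : ∀ (n : ℕ) (w : Fin n → Coprod G (FreeGroup (Fin n))),
      (∀ i j, j < i → expo (expHom G n) w i j = 0) → (∀ i, expo (expHom G n) w i i ≠ 0) → Inj w)
    (n m : ℕ) (w : Fin m → Coprod G (FreeGroup (Fin n)))
    (hrank : (Matrix.of fun (i : Fin m) (j : Fin n) =>
      ((Multiplicative.toAdd
          (Coprod.lift (1 : G →* Multiplicative (Fin n → ℤ))
            (FreeGroup.lift fun k => Multiplicative.ofAdd (Pi.single k 1)) (w i)) j : ℤ) : ℚ)).rank
        = m) :
    Function.Injective ((QuotientGroup.mk' (Subgroup.normalClosure (Set.range w))).comp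
      (Coprod.inl : G →* Coprod G (FreeGroup (Fin n)))) := by
  obtain ⟨c, hc, hdet⟩ := exists_columns _ hrank
  let w' : Fin m → Coprod G (FreeGroup (Fin m)) := fun i => kill c (w i)
  have hE : ((expo (expHom G m) w').map (Int.cast : ℤ → ℚ)) =
      (Matrix.of fun (i : Fin m) (j : Fin n) =>
      ((Multiplicative.toAdd
          (Coprod.lift (1 : G →* Multiplicative (Fin n → ℤ))
            (FreeGroup.lift fun k => Multiplicative.ofAdd (Pi.single k 1)) (w i)) j : ℤ) :
              ℚ)).submatrix id c := by
    ext i j
    simp only [expo, Matrix.map_apply, Matrix.of_apply, Matrix.submatrix_apply, id, w']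
    rw [expHom_kill hc]
    rfl
  have hdet' : (expo (expHom G m) w').det ≠ 0 := by
    intro h0
    apply hdet
    rw [← hE]
    have := (Int.castRingHom ℚ).map_det (expo (expHom G m) w')
    rw [h0] at this
    simpa using this.symm
  have hI : Inj w' := inj_of_det H w' hdet'
  rw [inj_iff] at hI
  have hgoal : Inj w := by
    rw [inj_iff]
    intro g hg
    apply hI
    have h1 : kill c (Coprod.inl g : Coprod G (FreeGroup (Fin n))) =
        (Coprod.inl g : Coprod G (FreeGroup (Fin m))) := by
      simp [kill]
    rw [← h1]
    have h2 : Subgroup.normalClosure (Set.range w) ≤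
        (Subgroup.normalClosure (Set.range w')).comap (kill c) := by
      apply Subgroup.normalClosure_le_normal
      rintro _ ⟨i, rfl⟩
      exact Subgroup.subset_normalClosure ⟨i, rfl⟩
    exact h2 hg
  exact hgoal

end Reduction

end Crest.Agent.R174.P0
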