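import Crest.Agent.R174.W4Sim477

set_option autoImplicit false

/-!
# R174, W4 (part 2): the cycles of `Y` and the traces of its powers.
-/

open Matrix

namespace Crest.Agent.R174.W4

open Crest.Agent.R174.WD Crest.Agent.R174.TrIneq

universe u

section general

variable {G : Type u} [Group G] {P : Type} [Fintype P] [DecidableEq P]

/-- all holonomies trivial: `trG (Y^q)` counts the points whose period divides `q`. -/
theorem trG_mono_pow_of_period (nxt : P → P) (g : P → G) (c : P → ℕ)
    (hc : ∀ p q, nxt^[q] p = p ↔ c p ∣ q) (hg : ∀ p, gacc nxt g (c p) p = 1) (q : ℕ) :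
    WD.trG (WD.mono nxt g (fun _ => 1) ^ q) = ∑ p, if c p ∣ q then (1 : ℂ) else 0 := by
  rw [WD.mono_pow, WD.trG_mono]
  refine Finset.sum_congr rfl fun p _ => ?_
  have hz : ∀ q, zacc nxt (fun _ => (1 : ℂ)) q p = 1 := by
    intro q
    induction q with
    | zero => rfl
    | succ q ih => rw [zacc, ih, mul_one]
  by_cases h : c p ∣ q
  · rw [if_pos ((hc p q).2 h), if_pos h]
    obtain ⟨r, rfl⟩ := h
    rw [gacc_mul nxt g (c p) p ((hc p _).2 dvd_rfl) r, hg, one_pow, if_pos rfl, hz]
  · rw [if_neg (fun h' => h ((hc p q).1 h')), if_neg h]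

omit [Fintype P] [DecidableEq P] in
lemma period_two (nxt : P → P) (p : P) (h2 : nxt (nxt p) = p) (h1 : nxt p ≠ p) (q : ℕ) :
    nxt^[q] p = p ↔ 2 ∣ q := by
  have hp : Function.IsPeriodicPt nxt 2 p := h2
  have hm : Function.minimalPeriod nxt p = 2 := by
    have h3 := hp.minimalPeriod_dvd
    rcases (Nat.dvd_prime Nat.prime_two).1 h3 with h | h
    · exfalso
      rw [Function.minimalPeriod_eq_one_iff_isFixedPt] at h
      exact h1 h
    · exact h
  have := Function.isPeriodicPt_iff_minimalPeriod_dvd (f := nxt) (x := p) (n := q)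
  rw [hm] at this
  exact this

omit [Fintype P] [DecidableEq P] in
lemma period_four (nxt : P → P) (p : P) (h4 : nxt (nxt (nxt (nxt p))) = p)
    (h2 : nxt (nxt p) ≠ p) (q : ℕ) :
    nxt^[q] p = p ↔ 4 ∣ q := by
  have hp : Function.IsPeriodicPt nxt 4 p := h4
  have hm : Function.minimalPeriod nxt p = 4 := by
    have h3 := hp.minimalPeriod_dvd
    have h5 : Function.minimalPeriod nxt p ∈ Nat.divisors 4 := Nat.mem_divisors.2 ⟨h3, by norm_num⟩
    have h6 : Nat.divisors 4 = {1, 2, 4} := by decide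
    rw [h6] at h5
    simp only [Finset.mem_insert, Finset.mem_singleton] at h5
    rcases h5 with h | h | h
    · exfalso
      rw [Function.minimalPeriod_eq_one_iff_isFixedPt] at h
      exact h2 ((congrArg nxt h).trans h)
    · exfalso
      have := Function.isPeriodicPt_minimalPeriod nxt p
      rw [h] at this
      exact h2 this
    · exact h
  have := Function.isPeriodicPt_iff_minimalPeriod_dvd (f := nxt) (x := p) (n := q)
  rw [hm] at this
  exact this

end general

/-- the cyclic predecessor in a nodup list has period the length -/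
lemma formPerm_symm_iterate {α : Type} [DecidableEq α] (L : List α) (hL : L.Nodup) (k : α)
    (hk : k ∈ L) (q : ℕ) : (fun x => L.formPerm.symm x)^[q] k = k ↔ L.length ∣ q := by
  obtain ⟨i, hi, rfl⟩ := List.getElem_of_mem hk
  have h1 : (fun x => L.formPerm.symm x)^[q] L[i] = (L.formPerm ^ q).symm L[i] := by
    have : (fun x => L.formPerm.symm x) = ⇑(L.formPerm⁻¹) := rfl
    rw [this, Equiv.Perm.iterate_eq_pow, inv_pow]
    rfl
  rw [h1, Equiv.symm_apply_eq, List.formPerm_pow_apply_getElem L hL]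
  rw [hL.getElem_inj_iff]
  constructor
  · intro h
    have h2 : (i + q) % L.length = i % L.length := by
      rw [Nat.mod_eq_of_lt hi]; exact h.symm
    have h3 : (i + q) ≡ (i + 0) [MOD L.length] := h2
    exact (Nat.modEq_zero_iff_dvd).1 (Nat.ModEq.add_left_cancel' i h3)
  · intro h
    obtain ⟨r, rfl⟩ := h
    rw [Nat.add_mul_mod_self_left, Nat.mod_eq_of_lt hi]

section cyc

variable {G : Type u} {n : ℕ} {f : Fin n → ℕ} (D : Dat G n f)

/-- successor in the rotation of `Y` -/
def nx (p : D.blk.Pos) : D.blk.Pos := mu1 D (D.blk.pred p)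

lemma nx_up0 (k : KK f) (j : Fin (D.blk.r k)) (h : j.1 = 0) :
    nx D (D.blk.up k j) = D.blk.up (D.blk.pk k) (D.blk.r0 _) := by
  simp only [nx, Blk.pred, dif_pos h]; rfl

lemma nx_up (k : KK f) (j : Fin (D.blk.r k)) (h : ¬ j.1 = 0) :
    nx D (D.blk.up k j) = D.blk.dn k ⟨j.1 - 1, lt_of_le_of_lt (Nat.sub_le _ _) j.2⟩ := by
  simp only [nx, Blk.pred, dif_neg h]; rfl

lemma nx_fp0 (x : (i : Fin n) × Fin (f i)) (j : Fin (D.blk.l (x, true))) (h : j.1 = 0) :
    nx D (D.blk.fc (x, true) j) = D.blk.dn (x, true) (D.blk.r1 _) := by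
  simp only [nx, Blk.pred]
  rw [if_pos trivial, dif_pos h]; rfl

lemma nx_fp (x : (i : Fin n) × Fin (f i)) (j : Fin (D.blk.l (x, true))) (h : ¬ j.1 = 0) :
    nx D (D.blk.fc (x, true) j) =
      D.blk.fc (x, false) ⟨j.1 - 1, lt_of_le_of_lt (Nat.sub_le _ _) j.2⟩ := by
  simp only [nx, Blk.pred]
  rw [if_pos trivial, dif_neg h]; rfl

lemma nx_fm (x : (i : Fin n) × Fin (f i)) (j : Fin (D.blk.l (x, false)))
    (h : j.1 + 1 < D.blk.l (x, false)) :
    nx D (D.blk.fc (x, false) j) = D.blk.fc (x, true) ⟨j.1 + 1, h⟩ := by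
  simp only [nx, Blk.pred]
  rw [if_neg (by simp), dif_pos h]; rfl

lemma nx_fm1 (x : (i : Fin n) × Fin (f i)) (j : Fin (D.blk.l (x, false)))
    (h : ¬ j.1 + 1 < D.blk.l (x, false)) :
    nx D (D.blk.fc (x, false) j) = D.blk.dn (x, false) (D.blk.r1 _) := by
  simp only [nx, Blk.pred]
  rw [if_neg (by simp), dif_neg h]; rfl

lemma nx_dn (k : KK f) (j : Fin (D.blk.r k)) (h : j.1 + 1 < D.blk.r k) :
    nx D (D.blk.dn k j) = D.blk.up k ⟨j.1 + 1, h⟩ := by
  simp only [nx, Blk.pred]
  rw [dif_pos h]; rfl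

lemma nx_dp1 (x : (i : Fin n) × Fin (f i)) (j : Fin (D.blk.r (x, true)))
    (h : ¬ j.1 + 1 < D.blk.r (x, true)) :
    nx D (D.blk.dn (x, true) j) = D.blk.fc (x, false) (D.blk.l1 (x, false)) := by
  simp only [nx, Blk.pred]
  rw [dif_neg h, if_pos trivial]; rfl

lemma nx_dm1 (x : (i : Fin n) × Fin (f i)) (j : Fin (D.blk.r (x, false)))
    (h : ¬ j.1 + 1 < D.blk.r (x, false)) :
    nx D (D.blk.dn (x, false) j) = D.blk.fc (x, true) (D.blk.l0 (x, true)) := by
  simp only [nx, Blk.pred]
  rw [dif_neg h, if_neg (by simp)]; rfl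

lemma r1_last (k : KK f) : ¬ (D.blk.r1 k).1 + 1 < D.blk.r k := by
  have := D.blk.hst k
  simp only [Blk.r1, Blk.r] at *
  omega

lemma l1_last (k : KK f) : ¬ (D.blk.l1 k).1 + 1 < D.blk.l k := by
  have := D.blk.hW k.1.1
  simp only [Blk.l1, Blk.l] at *
  omega

/-- the period of a position -/
def per : D.blk.Pos → ℕ
  | ⟨_, Sum.inl j⟩ => if j.1 = 0 then D.ord.length else 2
  | ⟨(x, true), Sum.inr (Sum.inl j)⟩ => if j.1 = 0 then 4 else 2
  | ⟨(x, false), Sum.inr (Sum.inl j)⟩ => if j.1 + 1 < D.blk.l (x, false) then 2 else 4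
  | ⟨k, Sum.inr (Sum.inr j)⟩ => if j.1 + 1 < D.blk.r k then 2 else 4

variable [Group G]

lemma gacc_two {P : Type} (nxt : P → P) (g : P → G) (p : P) :
    gacc nxt g 2 p = g (nxt p) * g p := by
  simp [gacc]

lemma gacc_four {P : Type} (nxt : P → P) (g : P → G) (p : P) :
    gacc nxt g 4 p = g (nxt (nxt (nxt p))) * (g (nxt (nxt p)) * (g (nxt p) * g p)) := by
  simp [gacc]

lemma nx_up0_iter (k : KK f) (q : ℕ) :
    (nx D)^[q] (D.blk.up k (D.blk.r0 k)) =
      D.blk.up ((fun x => D.blk.pk x)^[q] k) (D.blk.r0 _) ∧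
    gacc (nx D) D.blk.lab q (D.blk.up k (D.blk.r0 k)) =
      (D.blk.a0 ((fun x => D.blk.pk x)^[q] k))⁻¹ * D.blk.a0 k := by
  induction q with
  | zero => simp [gacc]
  | succ q ih =>
    constructor
    · rw [Function.iterate_succ_apply', ih.1, nx_up0 D _ _ rfl, Function.iterate_succ_apply']
    · rw [gacc, ih.1, ih.2]
      have h1 : ∀ k', D.blk.lab (D.blk.up k' (D.blk.r0 k')) =
          (D.blk.a0 (D.blk.pk k'))⁻¹ * D.blk.a0 k' := by
        intro k'
        simp only [Blk.lab]
        rw [if_pos (by rfl)]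
      rw [h1, Function.iterate_succ_apply']
      group

lemma up_inj {k k' : KK f} (h : D.blk.up k (D.blk.r0 k) = D.blk.up k' (D.blk.r0 k')) : k = k' :=
  congrArg Sigma.fst h

/-- the 2-cycles along the stems -/
lemma cyc_stem (k : KK f) (j : Fin (D.blk.r k)) (h : j.1 + 1 < D.blk.r k) :
    nx D (D.blk.up k ⟨j.1 + 1, h⟩) = D.blk.dn k j := by
  rw [nx_up D k _ (by simp)]
  rfl

lemma lab_stem (k : KK f) (j : Fin (D.blk.r k)) (h : j.1 + 1 < D.blk.r k) :
    D.blk.lab (D.blk.dn k j) = (D.blk.lab (D.blk.up k ⟨j.1 + 1, h⟩))⁻¹ := by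
  simp only [Blk.lab]
  rw [dif_pos h, if_neg (by simp)]

/-- the 2-cycles at the inner corners of the faces -/
lemma cyc_face (x : (i : Fin n) × Fin (f i)) (j : Fin (D.blk.l (x, false)))
    (h : j.1 + 1 < D.blk.l (x, false)) :
    nx D (D.blk.fc (x, true) ⟨j.1 + 1, h⟩) = D.blk.fc (x, false) j := by
  rw [nx_fp D x _ (by simp)]
  rfl

lemma lab_face (x : (i : Fin n) × Fin (f i)) (j : Fin (D.blk.l (x, false)))
    (h : j.1 + 1 < D.blk.l (x, false)) :
    D.blk.lab (D.blk.fc (x, false) j) = (D.blk.lab (D.blk.fc (x, true) ⟨j.1 + 1, h⟩))⁻¹ := by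
  simp only [Blk.lab]
  rw [if_neg (by simp), dif_pos h, if_pos trivial]

/-- the 4-cycle of the face `x` -/
lemma cyc4 (x : (i : Fin n) × Fin (f i)) :
    nx D (D.blk.fc (x, true) (D.blk.l0 (x, true))) = D.blk.dn (x, true) (D.blk.r1 _) ∧
    nx D (D.blk.dn (x, true) (D.blk.r1 _)) = D.blk.fc (x, false) (D.blk.l1 (x, false)) ∧
    nx D (D.blk.fc (x, false) (D.blk.l1 (x, false))) = D.blk.dn (x, false) (D.blk.r1 _) ∧
    nx D (D.blk.dn (x, false) (D.blk.r1 _)) = D.blk.fc (x, true) (D.blk.l0 (x, true)) :=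
  ⟨nx_fp0 D x _ rfl, nx_dp1 D x _ (r1_last D _), nx_fm1 D x _ (l1_last D _),
    nx_dm1 D x _ (r1_last D _)⟩

lemma lab4 (x : (i : Fin n) × Fin (f i)) :
    D.blk.lab (D.blk.dn (x, true) (D.blk.r1 _)) = 1 ∧
    D.blk.lab (D.blk.fc (x, false) (D.blk.l1 (x, false))) = 1 ∧
    D.blk.lab (D.blk.dn (x, false) (D.blk.r1 _)) =
      (D.blk.lab (D.blk.fc (x, true) (D.blk.l0 (x, true))))⁻¹ := by
  refine ⟨?_, ?_, ?_⟩
  · simp only [Blk.lab]
    rw [dif_neg (r1_last D _), if_pos trivial]
  · simp only [Blk.lab]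
    rw [if_neg (by simp), dif_neg (l1_last D _)]
  · simp only [Blk.lab]
    rw [dif_neg (r1_last D _), if_neg (by simp), if_pos trivial]
    rfl

/-- **periods and holonomies of `Y`** -/
theorem period_hol (p : D.blk.Pos) :
    (∀ q, (nx D)^[q] p = p ↔ per D p ∣ q) ∧ gacc (nx D) D.blk.lab (per D p) p = 1 := by
  rcases p with ⟨⟨x, s⟩, j | j | j⟩
  · -- up
    by_cases h : j.1 = 0
    · have hj : j = D.blk.r0 (x, s) := Fin.ext h
      subst hj
      have hper : per D ⟨(x, s), Sum.inl (D.blk.r0 (x, s))⟩ = D.ord.length := by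
        simp only [per]
        exact if_pos rfl
      have hk : ∀ q, ((fun x => D.blk.pk x)^[q] (x, s)) = (x, s) ↔ D.ord.length ∣ q :=
        fun q => formPerm_symm_iterate D.ord D.hnd (x, s) (D.hall _) q
      rw [hper]
      constructor
      · intro q
        rw [← hk q]
        have h1 := (nx_up0_iter D (x, s) q).1
        constructor
        · intro h2
          exact up_inj D (h1.symm.trans h2)
        · intro h2
          refine h1.trans ?_
          rw [h2]
      · have h1 := (nx_up0_iter D (x, s) D.ord.length).2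
        refine h1.trans ?_
        rw [(hk _).2 dvd_rfl, inv_mul_cancel]
    · have hper : per D ⟨(x, s), Sum.inl j⟩ = 2 := by
        simp only [per]
        exact if_neg h
      rw [hper]
      have h1 := nx_up D (x, s) j h
      have hlt : (⟨j.1 - 1, lt_of_le_of_lt (Nat.sub_le _ _) j.2⟩ : Fin (D.blk.r (x, s))).1 + 1 <
          D.blk.r (x, s) := by
        have := j.2
        simp only
        omega
      have hj : (⟨j.1 - 1 + 1, hlt⟩ : Fin (D.blk.r (x, s))) = j := by
        apply Fin.ext; simp only; omega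
      have h2 := nx_dn D (x, s) ⟨j.1 - 1, lt_of_le_of_lt (Nat.sub_le _ _) j.2⟩ hlt
      simp only at h2
      rw [hj] at h2
      have h3 := lab_stem D (x, s) ⟨j.1 - 1, lt_of_le_of_lt (Nat.sub_le _ _) j.2⟩ hlt
      simp only at h3
      rw [hj] at h3
      constructor
      · apply period_two
        · rw [h1, h2]
        · rw [h1]; intro h'; cases h'
      · rw [gacc_two, h1, h3, inv_mul_cancel]
  · -- face
    obtain ⟨c1, c2, c3, c4⟩ := cyc4 D x
    obtain ⟨e1, e2, e3⟩ := lab4 D x
    cases s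
    · by_cases h : j.1 + 1 < D.blk.l (x, false)
      · have hper : per D ⟨(x, false), Sum.inr (Sum.inl j)⟩ = 2 := by
          simp only [per]
          exact if_pos h
        rw [hper]
        have h1 := nx_fm D x j h
        have h2 := cyc_face D x j h
        have h3 := lab_face D x j h
        constructor
        · apply period_two
          · rw [h1, h2]
          · rw [h1]; intro h'; cases h'
        · rw [gacc_two, h1, h3, mul_inv_cancel]
      · have hj : j = D.blk.l1 (x, false) := lt_lastf h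
        subst hj
        have hper : per D ⟨(x, false), Sum.inr (Sum.inl (D.blk.l1 (x, false)))⟩ = 4 := by
          simp only [per]
          exact if_neg h
        rw [hper]
        constructor
        · apply period_four
          · rw [c3, c4, c1, c2]
          · rw [c3, c4]; intro h'; cases h'
        · rw [gacc_four, c3, c4, c1, e1, e2, e3]
          group
    · by_cases h : j.1 = 0
      · have hj : j = D.blk.l0 (x, true) := Fin.ext h
        subst hj
        have hper : per D ⟨(x, true), Sum.inr (Sum.inl (D.blk.l0 (x, true)))⟩ = 4 := by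
          simp only [per]
          exact if_pos rfl
        rw [hper]
        constructor
        · apply period_four
          · rw [c1, c2, c3, c4]
          · rw [c1, c2]; intro h'; cases h'
        · rw [gacc_four, c1, c2, c3, e1, e2, e3]
          group
      · have hper : per D ⟨(x, true), Sum.inr (Sum.inl j)⟩ = 2 := by
          simp only [per]
          exact if_neg h
        rw [hper]
        have h1 := nx_fp D x j h
        have hlt : (⟨j.1 - 1, lt_of_le_of_lt (Nat.sub_le _ _) j.2⟩ : Fin (D.blk.l (x, false))).1 + 1 <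
            D.blk.l (x, false) := by
          have := j.2
          simp only [Blk.l] at *
          omega
        have hj : (⟨j.1 - 1 + 1, hlt⟩ : Fin (D.blk.l (x, true))) = j := by
          apply Fin.ext; simp only; omega
        have h2 := nx_fm D x ⟨j.1 - 1, lt_of_le_of_lt (Nat.sub_le _ _) j.2⟩ hlt
        simp only at h2
        rw [hj] at h2
        have h3 := lab_face D x ⟨j.1 - 1, lt_of_le_of_lt (Nat.sub_le _ _) j.2⟩ hlt
        simp only at h3
        rw [hj] at h3
        constructor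
        · apply period_two
          · rw [h1, h2]
          · rw [h1]; intro h'; cases h'
        · rw [gacc_two, h1, h3, inv_mul_cancel]
  · -- down
    obtain ⟨c1, c2, c3, c4⟩ := cyc4 D x
    obtain ⟨e1, e2, e3⟩ := lab4 D x
    by_cases h : j.1 + 1 < D.blk.r (x, s)
    · have hper : per D ⟨(x, s), Sum.inr (Sum.inr j)⟩ = 2 := by
        simp only [per]
        exact if_pos h
      rw [hper]
      have h1 := nx_dn D (x, s) j h
      have h2 := cyc_stem D (x, s) j h
      have h3 := lab_stem D (x, s) j h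
      constructor
      · apply period_two
        · rw [h1, h2]
        · rw [h1]; intro h'; cases h'
      · rw [gacc_two, h1, h3, mul_inv_cancel]
    · have hper : per D ⟨(x, s), Sum.inr (Sum.inr j)⟩ = 4 := by
        simp only [per]
        exact if_neg h
      rw [hper]
      have hj : j = D.blk.r1 (x, s) := lt_last h
      subst hj
      cases s
      · constructor
        · apply period_four
          · rw [c4, c1, c2, c3]
          · rw [c4, c1]; intro h'; cases h'
        · rw [gacc_four, c4, c1, c2, e1, e2, e3]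
          group
      · constructor
        · apply period_four
          · rw [c2, c3, c4, c1]
          · rw [c2, c3]; intro h'; cases h'
        · rw [gacc_four, c2, c3, c4, e1, e2, e3]
          group

lemma sum_fin_zero (r : ℕ) (hr : 0 < r) (a b : ℂ) :
    ∑ j : Fin r, (if j.1 = 0 then a else b) = a + ((r - 1 : ℕ) : ℂ) * b := by
  obtain ⟨r', rfl⟩ := Nat.exists_eq_succ_of_ne_zero hr.ne'
  rw [Fin.sum_univ_succ]
  simp

lemma sum_fin_last (r : ℕ) (hr : 0 < r) (a b : ℂ) :
    ∑ j : Fin r, (if j.1 + 1 < r then a else b) = ((r - 1 : ℕ) : ℂ) * a + b := by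
  obtain ⟨r', rfl⟩ := Nat.exists_eq_succ_of_ne_zero hr.ne'
  rw [Fin.sum_univ_castSucc]
  simp

/-- number of the 2-cycles -/
def N2 : ℕ := ∑ k : KK f, (D.blk.r k - 1) + ∑ x : (i : Fin n) × Fin (f i), ((D.W x.1).length - 1)

lemma length_ord : D.ord.length = 2 * Fintype.card ((i : Fin n) × Fin (f i)) := by
  classical
  have h1 : D.ord.toFinset = Finset.univ := by
    ext k; simp [D.hall k]
  have h2 := List.toFinset_card_of_nodup D.hnd
  rw [← h2, h1, Finset.card_univ, Fintype.card_prod, Fintype.card_bool, mul_comm]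

/-- the sum over the positions of a function of the period -/
lemma sum_per (w : ℕ → ℂ) : ∑ p : D.blk.Pos, w (per D p) =
    (D.ord.length : ℂ) * w D.ord.length + (2 * N2 D : ℕ) * w 2 +
      (4 * Fintype.card ((i : Fin n) × Fin (f i)) : ℕ) * w 4 := by
  have h1 : ∀ k : KK f, (∑ y : (Fin (D.blk.r k) ⊕ (Fin (D.blk.l k) ⊕ Fin (D.blk.r k))),
      w (per D ⟨k, y⟩)) = w D.ord.length +
        ((2 * (D.blk.r k - 1) + ((D.W k.1.1).length - 1) : ℕ) : ℂ) * w 2 + 2 * w 4 := by
    rintro ⟨x, s⟩
    rw [Fintype.sum_sum_type, Fintype.sum_sum_type]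
    have e1 : ∑ j : Fin (D.blk.r (x, s)), w (per D ⟨(x, s), Sum.inl j⟩) =
        w D.ord.length + ((D.blk.r (x, s) - 1 : ℕ) : ℂ) * w 2 := by
      rw [← sum_fin_zero _ (D.hst (x, s))]
      refine Finset.sum_congr rfl fun j _ => ?_
      simp only [per]
      split_ifs <;> rfl
    have e2 : ∑ j : Fin (D.blk.l (x, s)), w (per D ⟨(x, s), Sum.inr (Sum.inl j)⟩) =
        (((D.W x.1).length - 1 : ℕ) : ℂ) * w 2 + w 4 := by
      cases s
      · rw [← sum_fin_last _ (D.hW x.1)]
        refine Finset.sum_congr rfl fun j _ => ?_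
        simp only [per, Blk.l]
        split_ifs <;> rfl
      · rw [add_comm, ← sum_fin_zero _ (D.hW x.1)]
        refine Finset.sum_congr rfl fun j _ => ?_
        simp only [per]
        split_ifs <;> rfl
    have e3 : ∑ j : Fin (D.blk.r (x, s)), w (per D ⟨(x, s), Sum.inr (Sum.inr j)⟩) =
        ((D.blk.r (x, s) - 1 : ℕ) : ℂ) * w 2 + w 4 := by
      rw [← sum_fin_last _ (D.hst (x, s))]
      refine Finset.sum_congr rfl fun j _ => ?_
      simp only [per]
      split_ifs <;> rfl
    rw [e1, e2, e3]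
    push_cast
    ring
  rw [Fintype.sum_sigma, Finset.sum_congr rfl fun k _ => h1 k, Finset.sum_add_distrib,
    Finset.sum_add_distrib, Finset.sum_const, Finset.sum_const, Finset.card_univ,
    Fintype.card_prod, Fintype.card_bool, ← Finset.sum_mul, length_ord]
  have h2 : (∑ k : KK f, ((2 * (D.blk.r k - 1) + ((D.W k.1.1).length - 1) : ℕ) : ℂ)) =
      ((2 * N2 D : ℕ) : ℂ) := by
    rw [← Nat.cast_sum]
    congr 1
    rw [N2, Finset.sum_add_distrib, ← Finset.mul_sum, mul_add]
    congr 1
    rw [Fintype.sum_prod_type]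
    simp only [Fintype.sum_bool, Finset.mul_sum]
    refine Finset.sum_congr rfl fun x _ => ?_
    ring
  rw [h2]
  simp only [nsmul_eq_mul]
  push_cast
  ring

/-- **W4**: the spectral data of `Y = JJ(σ) U_c`. -/
theorem w4 (hF : 0 < Fintype.card ((i : Fin n) × Fin (f i))) : ∃ c : List ℕ,
    (∀ k ∈ c, 0 < k) ∧ c.sum = Fintype.card D.blk.Pos ∧
    2 * c.length + 4 * Fintype.card ((i : Fin n) × Fin (f i)) = Fintype.card D.blk.Pos + 2 ∧
    ∀ (σ : (i : Fin n) → Matrix (Fin (f i)) (Fin (f i)) ℂ)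
      (_ : ∀ i, σ i ∈ Matrix.unitaryGroup (Fin (f i)) ℂ)
      (JJ : Matrix D.blk.Pos D.blk.Pos ℂ) (_ : IsJJ D σ JJ) (q : ℕ),
      WD.trG ((sc G JJ * WD.mono D.blk.pred D.blk.lab (fun _ => 1)) ^ q) =
        (c.map fun k => cterm k (1 : G) 1 q).sum := by
  have hterm : ∀ k q, cterm k (1 : G) 1 q = (k : ℂ) * (if k ∣ q then 1 else 0) := by
    intro k q
    unfold cterm
    by_cases h : k ∣ q <;> simp [h]
  have hsum : ∀ q : ℕ, (((D.ord.length :: (List.replicate (N2 D) 2 ++
      List.replicate (Fintype.card ((i : Fin n) × Fin (f i))) 4)).map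
        fun k => cterm k (1 : G) 1 q).sum) = ∑ p : D.blk.Pos, if per D p ∣ q then (1 : ℂ) else 0 := by
    intro q
    rw [sum_per D (fun c => if c ∣ q then (1 : ℂ) else 0)]
    simp only [List.map_cons, List.map_append, List.map_replicate, List.sum_cons, List.sum_append,
      List.sum_replicate, hterm, nsmul_eq_mul]
    push_cast
    ring
  have hcard : (D.ord.length :: (List.replicate (N2 D) 2 ++
      List.replicate (Fintype.card ((i : Fin n) × Fin (f i))) 4)).sum =
        Fintype.card D.blk.Pos := by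
    have h0 := hsum 0
    have h1 : (∑ p : D.blk.Pos, if per D p ∣ 0 then (1 : ℂ) else 0) =
        (Fintype.card D.blk.Pos : ℂ) := by
      simp
    rw [h1] at h0
    apply Nat.cast_injective (R := ℂ)
    rw [← h0]
    simp only [hterm, dvd_zero, if_true, mul_one]
    rw [Nat.cast_list_sum]
  refine ⟨_, ?_, hcard, ?_, ?_⟩
  · intro k hk
    simp only [List.mem_cons, List.mem_append, List.mem_replicate] at hk
    rcases hk with rfl | ⟨_, rfl⟩ | ⟨_, rfl⟩
    · rw [length_ord]; omega
    · norm_num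
    · norm_num
  · simp only [List.length_cons, List.length_append, List.length_replicate, List.sum_cons,
      List.sum_append, List.sum_replicate, smul_eq_mul, length_ord] at hcard ⊢
    omega
  · intro σ hσ JJ hJ q
    rw [trG_Y_pow D σ hσ JJ hJ q, hsum q]
    exact trG_mono_pow_of_period (nx D) D.blk.lab (per D) (fun p => (period_hol D p).1)
      (fun p => (period_hol D p).2) q

end cyc

end Crest.Agent.R174.W4
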