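import Crest.Agent.R174.TrIneq4
import Crest.Agent.R174.Mono126

set_option autoImplicit false

/-!
# R174, W4 (part 1): the matrix `Y = JJ(σ) U_c` is similar to a monomial matrix.
-/

open Matrix

namespace Crest.Agent.R174.W4

open Crest.Agent.R174.WD Crest.Agent.R174.TrIneq

universe u

/-- index type of the blocks: `((i, a), s)` = face number `a` of type `i` with sign `s` -/
abbrev KK {n : ℕ} (f : Fin n → ℕ) : Type := ((i : Fin n) × Fin (f i)) × Bool

/-- block data with the concrete index type -/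
structure Dat (G : Type u) (n : ℕ) (f : Fin n → ℕ) where
  W : Fin n → List (G × Fin n × Bool)
  ord : List (KK f)
  hnd : ord.Nodup
  hall : ∀ k, k ∈ ord
  st : KK f → List (G × Fin n × Bool)
  hst : ∀ k, 0 < (st k).length
  hW : ∀ i, 0 < (W i).length

variable {G : Type u} {n : ℕ} {f : Fin n → ℕ}

/-- the associated `WD.Blk` -/
abbrev Dat.blk (D : Dat G n f) : Blk G n (KK f) where
  W := D.W
  ord := D.ord
  hnd := D.hnd
  hall := D.hall
  st := D.st
  ty := fun k => k.1.1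
  sg := fun k => k.2
  hst := D.hst
  hW := D.hW

section sc
variable [Group G] {P : Type} [Fintype P] [DecidableEq P]

lemma sc_mulVec_single (M : Matrix P P ℂ) (p : P) (x : MonoidAlgebra ℂ G) :
    (sc G M) *ᵥ Pi.single p x = fun p' => M p' p • x := by
  funext p'
  rw [Matrix.mulVec_single]
  simp only [Matrix.col_apply, Pi.smul_apply, MulOpposite.smul_eq_mul_unop, sc_apply,
    MulOpposite.unop_op]
  rw [Algebra.smul_def]
  rfl

lemma mono_mulVec_single (nxt : P → P) (g : P → G) (p : P) (x : MonoidAlgebra ℂ G) :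
    (WD.mono nxt g (fun _ => 1)) *ᵥ Pi.single p x =
      Pi.single (nxt p) (MonoidAlgebra.single (g p) 1 * x) := by
  funext p'
  rw [Matrix.mulVec_single]
  simp only [WD.mono, Matrix.of_apply, Matrix.col_apply, Pi.smul_apply,
    MulOpposite.smul_eq_mul_unop, MulOpposite.unop_op]
  by_cases h : p' = nxt p
  · subst h
    simp
  · simp [h]

/-- a column of a scalar matrix -/
lemma sc_col {ι : Type*} [Fintype ι] (M : Matrix P P ℂ) (p : P) (v : ι → P) (s : ι → ℂ)
    (h : ∀ p', M p' p = ∑ a, if p' = v a then s a else 0) (x : MonoidAlgebra ℂ G) :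
    (sc G M) *ᵥ Pi.single p x = ∑ a, Pi.single (v a) (s a • x) := by
  rw [sc_mulVec_single]
  funext p'
  rw [h, Finset.sum_smul, Finset.sum_apply]
  refine Finset.sum_congr rfl fun a _ => ?_
  by_cases h' : p' = v a
  · subst h'
    simp
  · simp [h']

lemma sc_col_one (M : Matrix P P ℂ) (p v : P)
    (h : ∀ p', M p' p = if p' = v then 1 else 0) (x : MonoidAlgebra ℂ G) :
    (sc G M) *ᵥ Pi.single p x = Pi.single v x := by
  rw [sc_mulVec_single]
  funext p'
  rw [h]
  by_cases h' : p' = v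
  · subst h'
    simp
  · simp [h']

omit [Fintype P] in
/-- cancellation of two scalar column operations -/
lemma sum_cancel {ι : Type*} [Fintype ι] [DecidableEq ι] (σ τ : Matrix ι ι ℂ) (h : τ * σ = 1)
    (v : ι → P) (a : ι) (x : MonoidAlgebra ℂ G) :
    ∑ a', ∑ a'', (Pi.single (v a'') (τ a'' a' • (σ a' a • x)) : P → MonoidAlgebra ℂ G) =
      Pi.single (v a) x := by
  rw [Finset.sum_comm]
  have h1 : ∀ a'', ∑ a', (Pi.single (v a'') (τ a'' a' • (σ a' a • x)) : P → MonoidAlgebra ℂ G) =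
      Pi.single (v a'') ((1 : Matrix ι ι ℂ) a'' a • x) := by
    intro a''
    rw [← h, Matrix.mul_apply, Finset.sum_smul]
    simp only [mul_smul]
    funext p
    rw [Finset.sum_apply]
    by_cases hp : p = v a''
    · subst hp
      simp
    · simp [hp]
  simp only [h1]
  rw [Finset.sum_eq_single a]
  · rw [Matrix.one_apply_eq, one_smul]
  · intro b _ hb
    rw [Matrix.one_apply_ne hb, zero_smul, Pi.single_zero]
  · intro h; exact absurd (Finset.mem_univ _) h

end sc

variable (D : Dat G n f)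

/-- the node matrix: exchanges stem letters with their mirror letters, and the letter `j` of
the positive faces of type `i` with the letter `j` of the negative faces of type `i` by `σ i`. -/
structure IsJJ (σ : (i : Fin n) → Matrix (Fin (f i)) (Fin (f i)) ℂ)
    (JJ : Matrix D.blk.Pos D.blk.Pos ℂ) : Prop where
  up : ∀ k j p', JJ p' (D.blk.up k j) = if p' = D.blk.dn k j then 1 else 0
  dn : ∀ k j p', JJ p' (D.blk.dn k j) = if p' = D.blk.up k j then 1 else 0
  fp : ∀ i a (j : Fin (D.W i).length) p', JJ p' (D.blk.fc (⟨i, a⟩, true) j) =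
    ∑ a', if p' = D.blk.fc (⟨i, a'⟩, false) j then σ i a' a else 0
  fm : ∀ i a (j : Fin (D.W i).length) p', JJ p' (D.blk.fc (⟨i, a⟩, false) j) =
    ∑ a', if p' = D.blk.fc (⟨i, a'⟩, true) j then (star (σ i)) a' a else 0

/-- the columns of the gauge matrix -/
def gcol (σ : (i : Fin n) → Matrix (Fin (f i)) (Fin (f i)) ℂ) (p' : D.blk.Pos) :
    D.blk.Pos → ℂ
  | ⟨k, Sum.inl j⟩ => if p' = D.blk.up k j then 1 else 0
  | ⟨(⟨i, a⟩, true), Sum.inr (Sum.inl j)⟩ => if p' = D.blk.fc (⟨i, a⟩, true) j then 1 else 0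
  | ⟨(⟨i, a⟩, false), Sum.inr (Sum.inl j)⟩ =>
      ∑ a', if p' = D.blk.fc (⟨i, a'⟩, false) j then σ i a' a else 0
  | ⟨(⟨i, a⟩, true), Sum.inr (Sum.inr j)⟩ => if p' = D.blk.dn (⟨i, a⟩, true) j then 1 else 0
  | ⟨(⟨i, a⟩, false), Sum.inr (Sum.inr j)⟩ =>
      if j.1 + 1 < D.blk.r (⟨i, a⟩, false) then
        (if p' = D.blk.dn (⟨i, a⟩, false) j then 1 else 0)
      else ∑ a', if p' = D.blk.dn (⟨i, a'⟩, false) (D.blk.r1 _) then σ i a' a else 0

/-- the gauge matrix -/
def gau (σ : (i : Fin n) → Matrix (Fin (f i)) (Fin (f i)) ℂ) : Matrix D.blk.Pos D.blk.Pos ℂ :=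
  Matrix.of fun p' p => gcol D σ p' p

/-- the matching of the positions for `σ = 1` -/
def mu1 : D.blk.Pos → D.blk.Pos
  | ⟨k, Sum.inl j⟩ => D.blk.dn k j
  | ⟨(x, s), Sum.inr (Sum.inl j)⟩ => D.blk.fc (x, !s) j
  | ⟨k, Sum.inr (Sum.inr j)⟩ => D.blk.up k j

lemma mu1_mu1 (p : D.blk.Pos) : mu1 D (mu1 D p) = p := by
  rcases p with ⟨⟨x, s⟩, j | j | j⟩
  · rfl
  · cases s <;> rfl
  · rfl

lemma lt_last {D : Dat G n f} {k : KK f} {j : Fin (D.blk.r k)} (h : ¬ j.1 + 1 < D.blk.r k) :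
    j = D.blk.r1 k := by
  apply Fin.ext
  have := j.2
  simp only [Blk.r1]
  omega

lemma lt_lastf {D : Dat G n f} {k : KK f} {j : Fin (D.blk.l k)} (h : ¬ j.1 + 1 < D.blk.l k) :
    j = D.blk.l1 k := by
  apply Fin.ext
  have := j.2
  simp only [Blk.l1]
  omega

variable [Group G]

/-- the intertwining relation -/
theorem intertwine (σ : (i : Fin n) → Matrix (Fin (f i)) (Fin (f i)) ℂ)
    (hσ : ∀ i, star (σ i) * σ i = 1)
    (JJ : Matrix D.blk.Pos D.blk.Pos ℂ) (hJ : IsJJ D σ JJ) :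
    (sc G JJ * WD.mono D.blk.pred D.blk.lab (fun _ => 1)) * sc G (gau D σ) =
      sc G (gau D σ) * WD.mono (fun p => mu1 D (D.blk.pred p)) D.blk.lab (fun _ => 1) := by
  have hU := fun p x => mono_mulVec_single (G := G) D.blk.pred D.blk.lab p x
  have hY := fun p x => mono_mulVec_single (G := G) (fun p => mu1 D (D.blk.pred p)) D.blk.lab p x
  have hJup := fun k j x => sc_col_one (G := G) JJ (D.blk.up k j) (D.blk.dn k j) (hJ.up k j) x
  have hJdn := fun k j x => sc_col_one (G := G) JJ (D.blk.dn k j) (D.blk.up k j) (hJ.dn k j) x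
  have hJfp := fun i a (j : Fin (D.W i).length) x => sc_col (G := G) JJ (D.blk.fc (⟨i, a⟩, true) j)
    (fun a' => D.blk.fc (⟨i, a'⟩, false) j) (fun a' => σ i a' a) (hJ.fp i a j) x
  have hJfm := fun i a (j : Fin (D.W i).length) x => sc_col (G := G) JJ
    (D.blk.fc (⟨i, a⟩, false) j)
    (fun a' => D.blk.fc (⟨i, a'⟩, true) j) (fun a' => star (σ i) a' a) (hJ.fm i a j) x
  have hGup := fun k j x => sc_col_one (G := G) (gau D σ) (D.blk.up k j) (D.blk.up k j)
    (fun p' => rfl) x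
  have hGfp := fun i a (j : Fin (D.W i).length) x => sc_col_one (G := G) (gau D σ)
    (D.blk.fc (⟨i, a⟩, true) j) (D.blk.fc (⟨i, a⟩, true) j) (fun p' => rfl) x
  have hGdp := fun (i : Fin n) (a : Fin (f i)) (j : Fin (D.blk.r (⟨i, a⟩, true))) x =>
    sc_col_one (G := G) (gau D σ)
    (D.blk.dn (⟨i, a⟩, true) j) (D.blk.dn (⟨i, a⟩, true) j) (fun p' => rfl) x
  have hGfm := fun i a (j : Fin (D.W i).length) x => sc_col (G := G) (gau D σ)
    (D.blk.fc (⟨i, a⟩, false) j) (fun a' => D.blk.fc (⟨i, a'⟩, false) j) (fun a' => σ i a' a)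
    (fun p' => rfl) x
  have hGdm := fun (i : Fin n) (a : Fin (f i)) (j : Fin (D.blk.r (⟨i, a⟩, false)))
      (h : j.1 + 1 < D.blk.r (⟨i, a⟩, false)) x =>
    sc_col_one (G := G) (gau D σ)
    (D.blk.dn (⟨i, a⟩, false) j) (D.blk.dn (⟨i, a⟩, false) j)
    (fun p' => by simp only [gau, Matrix.of_apply, gcol]; rw [if_pos h]) x
  have hGdl := fun (i : Fin n) (a : Fin (f i)) (j : Fin (D.blk.r (⟨i, a⟩, false)))
      (h : ¬ j.1 + 1 < D.blk.r (⟨i, a⟩, false)) x =>
    sc_col (G := G) (gau D σ)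
    (D.blk.dn (⟨i, a⟩, false) j) (fun a' => D.blk.dn (⟨i, a'⟩, false) (D.blk.r1 _))
    (fun a' => σ i a' a)
    (fun p' => by simp only [gau, Matrix.of_apply, gcol]; rw [if_neg h]) x
  apply Matrix.ext_of_mulVec_single
  intro p
  rw [← Matrix.mulVec_mulVec, ← Matrix.mulVec_mulVec, ← Matrix.mulVec_mulVec, hY]
  rcases p with ⟨⟨⟨i, a⟩, s⟩, j | j | j⟩
  · -- up
    rw [hGup, hU]
    by_cases h : j.1 = 0
    · have hp : D.blk.pred ⟨(⟨i, a⟩, s), Sum.inl j⟩ = D.blk.dn (D.blk.pk (⟨i, a⟩, s)) (D.blk.r0 _) := by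
        simp only [Blk.pred, dif_pos h]
      rw [hp, hJdn]
      exact (hGup _ _ _).symm
    · have hp : D.blk.pred ⟨(⟨i, a⟩, s), Sum.inl j⟩ =
          D.blk.up (⟨i, a⟩, s) ⟨j.1 - 1, lt_of_le_of_lt (Nat.sub_le _ _) j.2⟩ := by
        simp only [Blk.pred, dif_neg h]
      have hlt : (⟨j.1 - 1, lt_of_le_of_lt (Nat.sub_le _ _) j.2⟩ :
          Fin (D.blk.r (⟨i, a⟩, s))).1 + 1 < D.blk.r (⟨i, a⟩, s) := by
        have := j.2
        simp only
        omega
      rw [hp, hJup]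
      cases s
      · exact (hGdm i a _ hlt _).symm
      · exact (hGdp i a _ _).symm
  · cases s
    · -- negative face
      have hlab : ∀ a' : Fin (f i), D.blk.lab (D.blk.fc (⟨i, a'⟩, false) j) =
        D.blk.lab (D.blk.fc (⟨i, a⟩, false) j) := fun a' => rfl
      have e1 : (sc G (gau D σ)) *ᵥ Pi.single (D.blk.fc (⟨i, a⟩, false) j) 1 =
        ∑ a', Pi.single (D.blk.fc (⟨i, a'⟩, false) j) (σ i a' a • 1) := hGfm i a j 1
      rw [e1, Matrix.mulVec_sum, Matrix.mulVec_sum]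
      by_cases h : j.1 + 1 < (D.W i).length
      · have hp : ∀ a' : Fin (f i), D.blk.pred (D.blk.fc (⟨i, a'⟩, false) j) =
            D.blk.fc (⟨i, a'⟩, false) ⟨j.1 + 1, h⟩ := by
          intro a'
          simp only [Blk.pred]
          rw [if_neg (by simp), dif_pos h]
        have e2 : ∀ a', sc G JJ *ᵥ ((WD.mono D.blk.pred D.blk.lab fun _ => 1) *ᵥ
            Pi.single (D.blk.fc (⟨i, a'⟩, false) j) (σ i a' a • (1 : MonoidAlgebra ℂ G))) =
            ∑ a'', Pi.single (D.blk.fc (⟨i, a''⟩, true) ⟨j.1 + 1, h⟩)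
              (star (σ i) a'' a' • (σ i a' a •
                MonoidAlgebra.single (D.blk.lab (D.blk.fc (⟨i, a⟩, false) j)) 1)) := by
          intro a'
          rw [hU, hp, hlab, hJfm]
          simp only [mul_smul_comm, mul_one]
        rw [Finset.sum_congr rfl fun a' _ => e2 a', sum_cancel (σ i) (star (σ i)) (hσ i)
          (fun a'' => D.blk.fc (⟨i, a''⟩, true) ⟨j.1 + 1, h⟩)]
        have e3 : mu1 D (D.blk.pred (D.blk.fc (⟨i, a⟩, false) j)) =
          D.blk.fc (⟨i, a⟩, true) ⟨j.1 + 1, h⟩ := by rw [hp]; rfl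
        rw [e3, hGfp, mul_one]
      · -- last letter
        have hp : ∀ a' : Fin (f i), D.blk.pred (D.blk.fc (⟨i, a'⟩, false) j) =
            D.blk.up (⟨i, a'⟩, false) (D.blk.r1 _) := by
          intro a'
          simp only [Blk.pred]
          rw [if_neg (by simp), dif_neg h]
        have e2 : ∀ a', sc G JJ *ᵥ ((WD.mono D.blk.pred D.blk.lab fun _ => 1) *ᵥ
            Pi.single (D.blk.fc (⟨i, a'⟩, false) j) (σ i a' a • (1 : MonoidAlgebra ℂ G))) =
            Pi.single (D.blk.dn (⟨i, a'⟩, false) (D.blk.r1 _))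
              (σ i a' a • MonoidAlgebra.single (D.blk.lab (D.blk.fc (⟨i, a⟩, false) j)) 1) := by
          intro a'
          rw [hU, hp, hlab, hJup]
          simp only [mul_smul_comm, mul_one]
        rw [Finset.sum_congr rfl fun a' _ => e2 a']
        have e3 : mu1 D (D.blk.pred (D.blk.fc (⟨i, a⟩, false) j)) =
          D.blk.dn (⟨i, a⟩, false) (D.blk.r1 _) := by rw [hp]; rfl
        have hlast : ¬ (D.blk.r1 (⟨i, a⟩, false)).1 + 1 < D.blk.r (⟨i, a⟩, false) := by
          simp only [Blk.r1]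
          have := D.blk.hst (⟨i, a⟩, false)
          simp only [Blk.r]
          omega
        rw [e3, hGdl i a _ hlast, mul_one]
    · -- positive face
      have e1 : (sc G (gau D σ)) *ᵥ Pi.single (D.blk.fc (⟨i, a⟩, true) j) 1 =
        Pi.single (D.blk.fc (⟨i, a⟩, true) j) 1 := hGfp i a j 1
      rw [e1, hU]
      by_cases h : j.1 = 0
      · have hp : D.blk.pred (D.blk.fc (⟨i, a⟩, true) j) =
            D.blk.up (⟨i, a⟩, true) (D.blk.r1 _) := by
          simp only [Blk.pred]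
          rw [if_pos trivial, dif_pos h]
        rw [hp, hJup]
        exact (hGdp i a _ _).symm
      · have hp : D.blk.pred (D.blk.fc (⟨i, a⟩, true) j) =
            D.blk.fc (⟨i, a⟩, true) ⟨j.1 - 1, lt_of_le_of_lt (Nat.sub_le _ _) j.2⟩ := by
          simp only [Blk.pred]
          rw [if_pos trivial, dif_neg h]
        rw [hp, hJfp]
        exact (hGfm i a _ _).symm
  · -- down
    cases s
    · -- negative block
      by_cases h : j.1 + 1 < D.blk.r (⟨i, a⟩, false)
      · have e1 : (sc G (gau D σ)) *ᵥ Pi.single (D.blk.dn (⟨i, a⟩, false) j) 1 =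
          Pi.single (D.blk.dn (⟨i, a⟩, false) j) 1 := hGdm i a j h 1
        have hp : D.blk.pred (D.blk.dn (⟨i, a⟩, false) j) =
            D.blk.dn (⟨i, a⟩, false) ⟨j.1 + 1, h⟩ := by
          simp only [Blk.pred]
          rw [dif_pos h]
        rw [e1, hU, hp, hJdn]
        exact (hGup _ _ _).symm
      · have hlab : ∀ a' : Fin (f i), D.blk.lab (D.blk.dn (⟨i, a'⟩, false) (D.blk.r1 _)) =
          D.blk.lab (D.blk.dn (⟨i, a⟩, false) j) := by
          intro a'
          have h' : ¬ (D.blk.r1 (⟨i, a'⟩, false)).1 + 1 < D.blk.r (⟨i, a'⟩, false) := by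
            simp only [Blk.r1]
            have := D.blk.hst (⟨i, a'⟩, false)
            simp only [Blk.r]
            omega
          simp only [Blk.lab]
          rw [dif_neg h, dif_neg h']
          rfl
        have hp : ∀ a' : Fin (f i), D.blk.pred (D.blk.dn (⟨i, a'⟩, false) (D.blk.r1 _)) =
            D.blk.fc (⟨i, a'⟩, false) (D.blk.l0 _) := by
          intro a'
          have h' : ¬ (D.blk.r1 (⟨i, a'⟩, false)).1 + 1 < D.blk.r (⟨i, a'⟩, false) := by
            simp only [Blk.r1]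
            have := D.blk.hst (⟨i, a'⟩, false)
            simp only [Blk.r]
            omega
          simp only [Blk.pred]
          rw [dif_neg h', if_neg (by simp)]
        have e1 : (sc G (gau D σ)) *ᵥ Pi.single (D.blk.dn (⟨i, a⟩, false) j) 1 =
          ∑ a', Pi.single (D.blk.dn (⟨i, a'⟩, false) (D.blk.r1 _)) (σ i a' a • 1) := hGdl i a j h 1
        have e2 : ∀ a', sc G JJ *ᵥ ((WD.mono D.blk.pred D.blk.lab fun _ => 1) *ᵥ
            Pi.single (D.blk.dn (⟨i, a'⟩, false) (D.blk.r1 _))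
              (σ i a' a • (1 : MonoidAlgebra ℂ G))) =
            ∑ a'', Pi.single (D.blk.fc (⟨i, a''⟩, true) ⟨0, D.hW i⟩)
              (star (σ i) a'' a' • (σ i a' a •
                MonoidAlgebra.single (D.blk.lab (D.blk.dn (⟨i, a⟩, false) j)) 1)) := by
          intro a'
          rw [hU, hp, hlab]
          have e4 := hJfm i a' ⟨0, D.hW i⟩ (MonoidAlgebra.single (D.blk.lab (D.blk.dn (⟨i, a⟩, false) j)) 1 *
            σ i a' a • (1 : MonoidAlgebra ℂ G))
          refine e4.trans ?_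
          simp only [mul_smul_comm, mul_one]
        rw [e1, Matrix.mulVec_sum, Matrix.mulVec_sum, Finset.sum_congr rfl fun a' _ => e2 a',
          sum_cancel (σ i) (star (σ i)) (hσ i)
          (fun a'' => D.blk.fc (⟨i, a''⟩, true) ⟨0, D.hW i⟩)]
        have e3 : mu1 D (D.blk.pred (D.blk.dn (⟨i, a⟩, false) j)) =
          D.blk.fc (⟨i, a⟩, true) ⟨0, D.hW i⟩ := by
          have hj : j = D.blk.r1 (⟨i, a⟩, false) := lt_last h
          rw [hj, hp]; rfl
        rw [e3, hGfp, mul_one]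
    · -- positive block
      have e1 : (sc G (gau D σ)) *ᵥ Pi.single (D.blk.dn (⟨i, a⟩, true) j) 1 =
        Pi.single (D.blk.dn (⟨i, a⟩, true) j) 1 := hGdp i a j 1
      rw [e1, hU]
      by_cases h : j.1 + 1 < D.blk.r (⟨i, a⟩, true)
      · have hp : D.blk.pred (D.blk.dn (⟨i, a⟩, true) j) =
            D.blk.dn (⟨i, a⟩, true) ⟨j.1 + 1, h⟩ := by
          simp only [Blk.pred]
          rw [dif_pos h]
        rw [hp, hJdn]
        exact (hGup _ _ _).symm
      · have hp : D.blk.pred (D.blk.dn (⟨i, a⟩, true) j) =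
            D.blk.fc (⟨i, a⟩, true) (D.blk.l1 _) := by
          simp only [Blk.pred]
          rw [dif_neg h, if_pos trivial]
        rw [hp]
        have e4 := hJfp i a (D.blk.l1 (⟨i, a⟩, true)) (MonoidAlgebra.single
          (D.blk.lab (D.blk.dn (⟨i, a⟩, true) j)) 1 * 1)
        refine e4.trans ?_
        exact (hGfm i a _ _).symm

/-- the gauge matrix is invertible -/
theorem gau_mul (σ τ : (i : Fin n) → Matrix (Fin (f i)) (Fin (f i)) ℂ)
    (hσ : ∀ i, σ i * τ i = 1) : sc G (gau D σ) * sc G (gau D τ) = 1 := by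
  have hup := fun (ρ : (i : Fin n) → Matrix (Fin (f i)) (Fin (f i)) ℂ) k j x =>
    sc_col_one (G := G) (gau D ρ) (D.blk.up k j) (D.blk.up k j) (fun p' => rfl) x
  have hfp := fun (ρ : (i : Fin n) → Matrix (Fin (f i)) (Fin (f i)) ℂ)
    i a (j : Fin (D.W i).length) x => sc_col_one (G := G) (gau D ρ)
    (D.blk.fc (⟨i, a⟩, true) j) (D.blk.fc (⟨i, a⟩, true) j) (fun p' => rfl) x
  have hdp := fun (ρ : (i : Fin n) → Matrix (Fin (f i)) (Fin (f i)) ℂ)
    (i : Fin n) (a : Fin (f i)) (j : Fin (D.blk.r (⟨i, a⟩, true))) x =>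
    sc_col_one (G := G) (gau D ρ)
    (D.blk.dn (⟨i, a⟩, true) j) (D.blk.dn (⟨i, a⟩, true) j) (fun p' => rfl) x
  have hfm := fun (ρ : (i : Fin n) → Matrix (Fin (f i)) (Fin (f i)) ℂ)
    i a (j : Fin (D.W i).length) x => sc_col (G := G) (gau D ρ)
    (D.blk.fc (⟨i, a⟩, false) j) (fun a' => D.blk.fc (⟨i, a'⟩, false) j) (fun a' => ρ i a' a)
    (fun p' => rfl) x
  have hdm := fun (ρ : (i : Fin n) → Matrix (Fin (f i)) (Fin (f i)) ℂ)
      (i : Fin n) (a : Fin (f i)) (j : Fin (D.blk.r (⟨i, a⟩, false)))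
      (h : j.1 + 1 < D.blk.r (⟨i, a⟩, false)) x =>
    sc_col_one (G := G) (gau D ρ)
    (D.blk.dn (⟨i, a⟩, false) j) (D.blk.dn (⟨i, a⟩, false) j)
    (fun p' => by simp only [gau, Matrix.of_apply, gcol]; rw [if_pos h]) x
  have hdl := fun (ρ : (i : Fin n) → Matrix (Fin (f i)) (Fin (f i)) ℂ)
      (i : Fin n) (a : Fin (f i)) (j : Fin (D.blk.r (⟨i, a⟩, false)))
      (h : ¬ j.1 + 1 < D.blk.r (⟨i, a⟩, false)) x =>
    sc_col (G := G) (gau D ρ)
    (D.blk.dn (⟨i, a⟩, false) j) (fun a' => D.blk.dn (⟨i, a'⟩, false) (D.blk.r1 _))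
    (fun a' => ρ i a' a)
    (fun p' => by simp only [gau, Matrix.of_apply, gcol]; rw [if_neg h]) x
  apply Matrix.ext_of_mulVec_single
  intro p
  rw [← Matrix.mulVec_mulVec, Matrix.one_mulVec]
  rcases p with ⟨⟨⟨i, a⟩, s⟩, j | j | j⟩
  · rw [hup, hup]
  · cases s
    · have e1 : (sc G (gau D τ)) *ᵥ Pi.single (D.blk.fc (⟨i, a⟩, false) j) 1 =
        ∑ a', Pi.single (D.blk.fc (⟨i, a'⟩, false) j) (τ i a' a • 1) := hfm τ i a j 1
      rw [e1, Matrix.mulVec_sum, Finset.sum_congr rfl fun a' _ => hfm σ i a' j _]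
      exact sum_cancel (τ i) (σ i) (hσ i) (fun a'' => D.blk.fc (⟨i, a''⟩, false) j) a 1
    · have e1 : (sc G (gau D τ)) *ᵥ Pi.single (D.blk.fc (⟨i, a⟩, true) j) 1 =
        Pi.single (D.blk.fc (⟨i, a⟩, true) j) 1 := hfp τ i a j 1
      rw [e1]
      exact hfp σ i a j 1
  · cases s
    · by_cases h : j.1 + 1 < D.blk.r (⟨i, a⟩, false)
      · rw [hdm τ i a j h, hdm σ i a j h]
      · have e1 : (sc G (gau D τ)) *ᵥ Pi.single (D.blk.dn (⟨i, a⟩, false) j) 1 =
          ∑ a', Pi.single (D.blk.dn (⟨i, a'⟩, false) (D.blk.r1 _)) (τ i a' a • 1) := hdl τ i a j h 1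
        have h' : ∀ a' : Fin (f i), ¬ (D.blk.r1 (⟨i, a'⟩, false)).1 + 1 <
            D.blk.r (⟨i, a'⟩, false) := by
          intro a'
          simp only [Blk.r1]
          have := D.blk.hst (⟨i, a'⟩, false)
          simp only [Blk.r]
          omega
        rw [e1, Matrix.mulVec_sum, Finset.sum_congr rfl fun a' _ => hdl σ i a' _ (h' a') _]
        have hj : j = D.blk.r1 (⟨i, a⟩, false) := lt_last h
        rw [hj]
        exact sum_cancel (τ i) (σ i) (hσ i)
          (fun a'' => D.blk.dn (⟨i, a''⟩, false) (D.blk.r1 _)) a 1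
    · rw [hdp, hdp]

/-- **W4, similarity**: the traces of the powers of `Y = JJ(σ) U_c` do not depend on `σ`. -/
theorem trG_Y_pow (σ : (i : Fin n) → Matrix (Fin (f i)) (Fin (f i)) ℂ)
    (hσ : ∀ i, σ i ∈ Matrix.unitaryGroup (Fin (f i)) ℂ)
    (JJ : Matrix D.blk.Pos D.blk.Pos ℂ) (hJ : IsJJ D σ JJ) (q : ℕ) :
    WD.trG ((sc G JJ * WD.mono D.blk.pred D.blk.lab (fun _ => 1)) ^ q) =
      WD.trG (WD.mono (fun p => mu1 D (D.blk.pred p)) D.blk.lab (fun _ => 1) ^ q) := by
  have h1 := intertwine D σ (fun i => (Matrix.mem_unitaryGroup_iff'.1 (hσ i))) JJ hJ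
  have h2 := gau_mul (G := G) D σ (fun i => star (σ i)) (fun i => (Matrix.mem_unitaryGroup_iff.1 (hσ i)))
  have h3 := gau_mul (G := G) D (fun i => star (σ i)) σ (fun i => (Matrix.mem_unitaryGroup_iff'.1 (hσ i)))
  set Y := sc G JJ * WD.mono D.blk.pred D.blk.lab (fun _ => 1)
  set Y1 := WD.mono (fun p => mu1 D (D.blk.pred p)) D.blk.lab (fun _ => 1)
  set A := sc G (gau D σ)
  set A' := sc G (gau D fun i => star (σ i))
  have h4 : Y ^ q * A = A * Y1 ^ q := by
    have h5 : SemiconjBy A Y1 Y := h1.symm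
    exact (h5.pow_right q).symm
  have h6 : Y ^ q = A * Y1 ^ q * A' := by
    rw [← h4, mul_assoc, h2, mul_one]
  rw [h6, ← trG_eq, ← trG_eq]
  have h7 := (trG_posTrace (G := G) (N := D.blk.Pos)).comm (A * Y1 ^ q) A'
  rw [h7, ← mul_assoc, h3, one_mul]

end Crest.Agent.R174.W4
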