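import Mathlib

set_option autoImplicit false

/-!
# R174, W6: Cesaro sums of the sawtooth function
-/

open Finset Filter Topology

namespace Crest.Agent.R174.W6

/-- Fejer sum (times `K`) -/
noncomputable def fej (x : ℝ) (K : ℕ) : ℝ :=
  (∑ q ∈ range K, ((K : ℝ) - q) * (2 * Real.cos (2 * Real.pi * q * x))) - K

/-- the Dirichlet sum -/
noncomputable def dir (x : ℝ) (K : ℕ) : ℂ :=
  ∑ j ∈ range K, Complex.exp ((2 * Real.pi * x : ℝ) * Complex.I) ^ j

lemma norm_z (x : ℝ) : ‖Complex.exp ((2 * Real.pi * x : ℝ) * Complex.I)‖ = 1 :=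
  Complex.norm_exp_ofReal_mul_I _

lemma re_zpow_conj (x : ℝ) (j K : ℕ) (h : j ≤ K) :
    (Complex.exp ((2 * Real.pi * x : ℝ) * Complex.I) ^ j *
      (starRingEnd ℂ) (Complex.exp ((2 * Real.pi * x : ℝ) * Complex.I) ^ K)).re =
      Real.cos (2 * Real.pi * ((K - j : ℕ) : ℝ) * x) := by
  rw [map_pow, ← Complex.exp_conj, ← Complex.exp_nat_mul, ← Complex.exp_nat_mul, ← Complex.exp_add]
  have : (j : ℂ) * (((2 * Real.pi * x : ℝ) : ℂ) * Complex.I) +
      (K : ℂ) * (starRingEnd ℂ) (((2 * Real.pi * x : ℝ) : ℂ) * Complex.I) =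
      ((-(2 * Real.pi * ((K - j : ℕ) : ℝ) * x) : ℝ) : ℂ) * Complex.I := by
    rw [map_mul, Complex.conj_I, Complex.conj_ofReal, Nat.cast_sub h]
    push_cast
    ring
  rw [this, Complex.exp_ofReal_mul_I_re, Real.cos_neg]

lemma fej_eq (x : ℝ) (K : ℕ) : fej x K = ‖dir x K‖ ^ 2 := by
  induction K with
  | zero => simp [fej, dir]
  | succ K ih =>
    have h1 : dir x (K + 1) = dir x K + Complex.exp ((2 * Real.pi * x : ℝ) * Complex.I) ^ K := by
      simp [dir, sum_range_succ]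
    have h2 : ‖dir x (K + 1)‖ ^ 2 = ‖dir x K‖ ^ 2 + 1 +
        2 * (dir x K * (starRingEnd ℂ) (Complex.exp ((2 * Real.pi * x : ℝ) * Complex.I) ^ K)).re := by
      rw [h1, ← Complex.normSq_eq_norm_sq, ← Complex.normSq_eq_norm_sq, Complex.normSq_add]
      have : Complex.normSq (Complex.exp ((2 * Real.pi * x : ℝ) * Complex.I) ^ K) = 1 := by
        rw [Complex.normSq_eq_norm_sq, norm_pow, norm_z]; simp
      rw [this]
    rw [h2, ← ih]
    have h3 : (dir x K * (starRingEnd ℂ) (Complex.exp ((2 * Real.pi * x : ℝ) * Complex.I) ^ K)).re =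
        ∑ j ∈ range K, Real.cos (2 * Real.pi * ((K - j : ℕ) : ℝ) * x) := by
      rw [dir, sum_mul, Complex.re_sum]
      apply sum_congr rfl
      intro j hj
      exact re_zpow_conj x j K (mem_range.1 hj).le
    have h4 : ∑ j ∈ range K, Real.cos (2 * Real.pi * ((K - j : ℕ) : ℝ) * x) =
        ∑ j ∈ range K, Real.cos (2 * Real.pi * ((j + 1 : ℕ) : ℝ) * x) := by
      rw [← sum_range_reflect]
      apply sum_congr rfl
      intro j hj
      have hj' := mem_range.1 hj
      have : K - (K - 1 - j) = j + 1 := by omega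
      rw [this]
    rw [h3, h4]
    have h5 : fej x (K + 1) - fej x K = 1 + 2 * ∑ j ∈ range K, Real.cos (2 * Real.pi * ((j + 1 : ℕ) : ℝ) * x) := by
      unfold fej
      have e1 : ∑ q ∈ range (K + 1), (((K + 1 : ℕ) : ℝ) - q) * (2 * Real.cos (2 * Real.pi * q * x)) =
          ∑ q ∈ range (K + 1), ((K : ℝ) - q) * (2 * Real.cos (2 * Real.pi * q * x)) +
          ∑ q ∈ range (K + 1), 2 * Real.cos (2 * Real.pi * q * x) := by
        rw [← sum_add_distrib]
        apply sum_congr rfl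
        intro q _
        push_cast
        ring
      have e2 : ∑ q ∈ range (K + 1), ((K : ℝ) - q) * (2 * Real.cos (2 * Real.pi * q * x)) =
          ∑ q ∈ range K, ((K : ℝ) - q) * (2 * Real.cos (2 * Real.pi * q * x)) := by
        rw [sum_range_succ]; simp
      have e3 : ∑ q ∈ range (K + 1), 2 * Real.cos (2 * Real.pi * q * x) =
          2 + 2 * ∑ j ∈ range K, Real.cos (2 * Real.pi * ((j + 1 : ℕ) : ℝ) * x) := by
        rw [sum_range_succ', mul_sum]
        simp
        ring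
      rw [e1, e2, e3]
      push_cast
      ring
    linarith

/-- `|sin (π x)| * |dir x K| ≤ 1` -/
lemma dir_bound (x : ℝ) (K : ℕ) : ‖dir x K‖ * |Real.sin (Real.pi * x)| ≤ 1 := by
  set z := Complex.exp ((2 * Real.pi * x : ℝ) * Complex.I) with hz
  have h1 : dir x K * (z - 1) = z ^ K - 1 := by
    rw [dir, ← hz]; exact geom_sum_mul z K
  have h2 : ‖z - 1‖ = 2 * |Real.sin (Real.pi * x)| := by
    have := Complex.norm_exp_I_mul_ofReal_sub_one (2 * Real.pi * x)
    rw [mul_comm Complex.I] at this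
    rw [hz, this, Real.norm_eq_abs, abs_mul, abs_two]
    congr 2
    ring_nf
  have h3 : ‖dir x K‖ * ‖z - 1‖ ≤ 2 := by
    rw [← norm_mul, h1]
    calc ‖z ^ K - 1‖ ≤ ‖z ^ K‖ + ‖(1 : ℂ)‖ := norm_sub_le _ _
      _ = 2 := by rw [norm_pow, hz, norm_z]; norm_num
  rw [h2] at h3
  nlinarith

lemma fej_nonneg (x : ℝ) (K : ℕ) : 0 ≤ fej x K := by
  rw [fej_eq]; positivity

lemma fej_bound (x : ℝ) (K : ℕ) (s : ℝ) (hs : 0 < s) (hsx : s ≤ Real.sin (Real.pi * x)) :
    fej x K ≤ 1 / s ^ 2 := by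
  rw [fej_eq, le_div_iff₀ (by positivity)]
  have h1 := dir_bound x K
  rw [abs_of_nonneg (hs.le.trans hsx)] at h1
  have h2 : ‖dir x K‖ * s ≤ 1 := le_trans (by gcongr) h1
  have h3 : 0 ≤ ‖dir x K‖ * s := by positivity
  calc ‖dir x K‖ ^ 2 * s ^ 2 = (‖dir x K‖ * s) ^ 2 := by ring
    _ ≤ 1 := by nlinarith

/-- Cesaro sum of the sawtooth -/
noncomputable def ces (x : ℝ) (K : ℕ) : ℝ :=
  ∑ q ∈ range K, (1 - (q : ℝ) / K) * (Real.sin (2 * Real.pi * q * x) / (Real.pi * q))

lemma hasDerivAt_ces (x : ℝ) (K : ℕ) (hK : 0 < K) :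
    HasDerivAt (fun x => ces x K) (fej x K / K - 1) x := by
  have h1 : HasDerivAt (fun x => ces x K) (∑ q ∈ range K, (1 - (q : ℝ) / K) *
      ((Real.cos (2 * Real.pi * q * x) * (2 * Real.pi * q)) / (Real.pi * q))) x := by
    unfold ces
    apply HasDerivAt.fun_sum
    intro q _
    apply HasDerivAt.const_mul
    apply HasDerivAt.div_const
    have h := ((hasDerivAt_id x).const_mul (2 * Real.pi * q)).sin
    simp only [id, mul_one] at h
    exact h
  convert h1 using 1
  have hK' : (K : ℝ) ≠ 0 := by positivity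
  have h2 : ∀ q ∈ range K, (1 - (q : ℝ) / K) *
      ((Real.cos (2 * Real.pi * q * x) * (2 * Real.pi * q)) / (Real.pi * q)) =
      ((K : ℝ) - q) * (2 * Real.cos (2 * Real.pi * q * x)) / K - if q = 0 then 2 else 0 := by
    intro q _
    by_cases hq : q = 0
    · subst hq; simp; field_simp; ring
    · have hq' : (q : ℝ) ≠ 0 := by exact_mod_cast hq
      rw [if_neg hq]
      field_simp
      ring
  rw [sum_congr rfl h2, sum_sub_distrib, ← sum_div, sum_ite_eq' (range K) 0, if_pos (mem_range.2 hK)]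
  unfold fej
  rw [sub_div, div_self hK']
  ring

lemma ces_half (K : ℕ) : ces (1 / 2) K = 0 := by
  unfold ces
  apply sum_eq_zero
  intro q _
  have : 2 * Real.pi * (q : ℝ) * (1 / 2) = q * Real.pi := by ring
  rw [this, Real.sin_nat_mul_pi]
  simp

lemma sin_ge (β x : ℝ) (h0 : 0 < β) (h1 : β < 1) (hx : x ∈ Set.uIcc β (1 / 2)) :
    Real.sin (Real.pi * β) ≤ Real.sin (Real.pi * x) := by
  have hpi := Real.pi_pos
  rcases le_total β (1 / 2) with h | h
  · rw [Set.uIcc_of_le h] at hx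
    apply Real.sin_le_sin_of_le_of_le_pi_div_two
    · nlinarith
    · nlinarith [hx.2]
    · nlinarith [hx.1]
  · rw [Set.uIcc_of_ge h] at hx
    rw [← Real.sin_pi_sub (Real.pi * β), ← Real.sin_pi_sub (Real.pi * x)]
    apply Real.sin_le_sin_of_le_of_le_pi_div_two
    · nlinarith
    · nlinarith [hx.1]
    · nlinarith [hx.2]

lemma sin_pos' (β : ℝ) (h0 : 0 < β) (h1 : β < 1) : 0 < Real.sin (Real.pi * β) := by
  apply Real.sin_pos_of_pos_of_lt_pi
  · positivity
  · nlinarith [Real.pi_pos]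

theorem ces_bound (β : ℝ) (h0 : 0 < β) (h1 : β < 1) (K : ℕ) (hK : 0 < K) :
    |ces β K - (1 / 2 - β)| ≤ 1 / (K * Real.sin (Real.pi * β) ^ 2) := by
  set s := Real.sin (Real.pi * β) with hs
  have hspos : 0 < s := sin_pos' β h0 h1
  have hK' : (0 : ℝ) < K := by exact_mod_cast hK
  have key : ‖(ces β K - (1 / 2 - β)) - (ces (1 / 2) K - (1 / 2 - 1 / 2))‖ ≤
      (1 / (K * s ^ 2)) * ‖β - 1 / 2‖ := by
    have := Convex.norm_image_sub_le_of_norm_hasDerivWithin_le (𝕜 := ℝ)
      (f := fun x => ces x K - (1 / 2 - x)) (f' := fun x => fej x K / K) (C := 1 / (K * s ^ 2))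
      (s := Set.uIcc β (1 / 2)) (x := 1 / 2) (y := β)
      (fun x _ => by
        have h := (hasDerivAt_ces x K hK).sub ((hasDerivAt_const x (1 / 2 : ℝ)).sub (hasDerivAt_id x))
        have h' : HasDerivAt (fun x => ces x K - (1 / 2 - x)) (fej x K / K) x := by
          have e : fej x K / K - 1 - (0 - 1) = fej x K / K := by ring
          rw [e] at h
          exact h
        exact h'.hasDerivWithinAt)
      (fun x hx => by
        rw [Real.norm_eq_abs, abs_of_nonneg (div_nonneg (fej_nonneg x K) hK'.le)]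
        have := fej_bound x K s hspos (sin_ge β x h0 h1 hx)
        calc fej x K / K ≤ (1 / s ^ 2) / K := by gcongr
          _ = 1 / (K * s ^ 2) := by field_simp)
      (convex_uIcc β (1 / 2)) Set.right_mem_uIcc Set.left_mem_uIcc
    simpa using this
  rw [ces_half] at key
  have h3 : ‖β - 1 / 2‖ ≤ 1 := by
    rw [Real.norm_eq_abs, abs_le]; constructor <;> linarith
  rw [Real.norm_eq_abs] at key
  calc |ces β K - (1 / 2 - β)| = |ces β K - (1 / 2 - β) - (0 - (1 / 2 - 1 / 2))| := by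
        rw [sub_self (1 / 2 : ℝ), sub_zero, sub_zero]
    _ ≤ (1 / (K * s ^ 2)) * ‖β - 1 / 2‖ := key
    _ ≤ (1 / (K * s ^ 2)) * 1 := by gcongr
    _ = _ := mul_one _

theorem tendsto_ces (β : ℝ) (h0 : 0 < β) (h1 : β < 1) :
    Tendsto (ces β) atTop (𝓝 (1 / 2 - β)) := by
  rw [tendsto_iff_dist_tendsto_zero]
  have hspos := sin_pos' β h0 h1
  have h2 : Tendsto (fun K : ℕ => (1 / Real.sin (Real.pi * β) ^ 2) * (1 / (K : ℝ))) atTop (𝓝 0) := by
    have := (tendsto_one_div_atTop_nhds_zero_nat (𝕜 := ℝ)).const_mul (1 / Real.sin (Real.pi * β) ^ 2)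
    rwa [mul_zero] at this
  refine squeeze_zero' (Eventually.of_forall fun K => dist_nonneg) ?_ h2
  filter_upwards [eventually_gt_atTop 0] with K hK
  rw [Real.dist_eq]
  refine (ces_bound β h0 h1 K hK).trans (le_of_eq ?_)
  have : (K : ℝ) ≠ 0 := by positivity
  field_simp

lemma ces_add_int (β : ℝ) (n : ℤ) (K : ℕ) : ces (β + n) K = ces β K := by
  unfold ces
  apply sum_congr rfl
  intro q _
  have : 2 * Real.pi * (q : ℝ) * (β + n) = 2 * Real.pi * q * β + ((q * n : ℤ) : ℝ) * (2 * Real.pi) := by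
    push_cast; ring
  rw [this, Real.sin_add_int_mul_two_pi]

lemma ces_zero (K : ℕ) : ces 0 K = 0 := by
  unfold ces
  apply sum_eq_zero
  intro q _
  simp

/-- the limit exists for every `β` and is at most `1/2` -/
theorem exists_tendsto_ces (β : ℝ) : ∃ L : ℝ, L ≤ 1 / 2 ∧ Tendsto (ces β) atTop (𝓝 L) := by
  have h1 : ∀ K, ces β K = ces (Int.fract β) K := by
    intro K
    conv_lhs => rw [← Int.fract_add_floor β]
    exact ces_add_int _ _ _
  have h2 : ces β = ces (Int.fract β) := funext h1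
  rw [h2]
  rcases (Int.fract_nonneg β).eq_or_lt with h | h
  · refine ⟨0, by norm_num, ?_⟩
    rw [← h]
    simp only [show ces 0 = fun _ => (0 : ℝ) from funext ces_zero]
    exact tendsto_const_nhds
  · exact ⟨1 / 2 - Int.fract β, by linarith, tendsto_ces _ h (Int.fract_lt_one β)⟩

/-- re-indexing of a sum over the multiples of `d` -/
lemma sum_dvd (d K : ℕ) (hd : 0 < d) (h : d ∣ K) (F : ℕ → ℝ) :
    ∑ q ∈ range K, (if d ∣ q then F q else 0) = ∑ r ∈ range (K / d), F (d * r) := by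
  rw [← sum_filter]
  symm
  apply sum_bij (fun r _ => d * r)
  · intro r hr
    rw [mem_filter, mem_range]
    refine ⟨?_, dvd_mul_right d r⟩
    have := mem_range.1 hr
    calc d * r < d * (K / d) := by gcongr
      _ = K := Nat.mul_div_cancel' h
  · intro a _ b _ hab
    exact Nat.eq_of_mul_eq_mul_left hd hab
  · intro q hq
    rw [mem_filter, mem_range] at hq
    obtain ⟨r, rfl⟩ := hq.2
    refine ⟨r, ?_, rfl⟩
    rw [mem_range]
    rw [Nat.lt_div_iff_mul_lt' h]
    exact hq.1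
  · intro r _; rfl

/-- contribution of a cycle of length `c` whose holonomy has order `m` and phase `exp(2πiβ)` -/
lemma cycle_sum (c m K : ℕ) (hc : 0 < c) (hm : 0 < m) (h : c * m ∣ K) (hK : 0 < K) (β : ℝ) :
    ∑ q ∈ range K, (if c * m ∣ q then (1 - (q : ℝ) / K) *
      (c * Real.sin (2 * Real.pi * ((q / c : ℕ) : ℝ) * β) / (Real.pi * q)) else 0) =
      (1 / m) * ces (m * β) (K / (c * m)) := by
  rw [sum_dvd (c * m) K (Nat.mul_pos hc hm) h, ces, mul_sum]
  apply sum_congr rfl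
  intro r _
  obtain ⟨k, rfl⟩ := h
  have hk : 0 < k := Nat.pos_of_mul_pos_left hK
  have e1 : c * m * r / c = m * r := by
    rw [mul_assoc]; exact Nat.mul_div_cancel_left _ hc
  have e2 : c * m * k / (c * m) = k := Nat.mul_div_cancel_left _ (Nat.mul_pos hc hm)
  rw [e1, e2]
  have hc' : (c : ℝ) ≠ 0 := by positivity
  have hm' : (m : ℝ) ≠ 0 := by positivity
  have hk' : (k : ℝ) ≠ 0 := by positivity
  by_cases hr : r = 0
  · subst hr; simp
  have hr' : (r : ℝ) ≠ 0 := by exact_mod_cast hr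
  push_cast
  have e3 : 2 * Real.pi * ((m : ℝ) * r) * β = 2 * Real.pi * r * (m * β) := by ring
  rw [e3]
  field_simp

end Crest.Agent.R174.W6
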